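import Vale.Agent.P146.H785.Hes
import Vale.Agent.P146.H425.Ut

/-!
The lower side of `r^W = r` for one layer, static form: the logarithmic Sobolev inequality and the
variational principle for the tilted average `Ax x b X` with a positive weight `q`.
-/

open MeasureTheory ProbabilityTheory

namespace Vale.Agent.P146.H159

open Vale.Agent.P157.Lv Vale.Agent.P146.H425 Vale.Agent.P146.H785

set_option linter.unusedSectionVars false

variable {κ : Type} [Fintype κ] {F G X l φ q : (κ → ℝ) → ℝ} {D E DX Dl : κ → (κ → ℝ) → ℝ}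
  {B L B' L' x x' y0 s b h : ℝ}

/-- Linear combinations of functions with bounded gradient. -/
lemma c11_add (hF : C11 F D B L) (hG : C11 G E B' L') :
    C11 (fun z => F z + G z) (fun e z => D e z + E e z) (B + B') (L + L') := by
  refine ⟨add_nonneg hF.B0 hG.B0, add_nonneg hF.L0 hG.L0, fun y w => ?_, fun e => ?_,
    fun e y => ?_, fun y w => ?_⟩
  · have h1 := hF.lip y w
    have h2 := hG.lip y w
    have e : F (y + w) + G (y + w) - (F y + G y) = (F (y + w) - F y) + (G (y + w) - G y) := by ring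
    rw [e, add_mul]
    exact (abs_add_le _ _).trans (add_le_add h1 h2)
  · exact (hF.meas e).add (hG.meas e)
  · exact (abs_add_le _ _).trans (add_le_add (hF.bd e y) (hG.bd e y))
  · have h1 := hF.quad y w
    have h2 := hG.quad y w
    have e : F (y + w) + G (y + w) - (F y + G y) - ∑ e, (D e y + E e y) * w e =
        (F (y + w) - F y - ∑ e, D e y * w e) + (G (y + w) - G y - ∑ e, E e y * w e) := by
      have e1 : ∑ e, (D e y + E e y) * w e = ∑ e, D e y * w e + ∑ e, E e y * w e := by
        rw [← Finset.sum_add_distrib]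
        exact Finset.sum_congr rfl fun e _ => by ring
      rw [e1]; ring
    rw [e, add_mul]
    exact (abs_add_le _ _).trans (add_le_add h1 h2)

lemma c11_mul (hF : C11 F D B L) (c : ℝ) :
    C11 (fun z => c * F z) (fun e z => c * D e z) (|c| * B) (|c| * L) := by
  have hB := hF.B0
  have hL := hF.L0
  refine ⟨by positivity, by positivity, fun y w => ?_, fun e => ?_, fun e y => ?_, fun y w => ?_⟩
  · rw [← mul_sub, abs_mul, mul_assoc]
    exact mul_le_mul_of_nonneg_left (hF.lip y w) (abs_nonneg c)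
  · exact (hF.meas e).const_mul c
  · rw [abs_mul]
    exact mul_le_mul_of_nonneg_left (hF.bd e y) (abs_nonneg c)
  · have e : c * F (y + w) - c * F y - ∑ e, c * D e y * w e =
        c * (F (y + w) - F y - ∑ e, D e y * w e) := by
      rw [mul_sub, mul_sub, Finset.mul_sum]
      congr 1
      exact Finset.sum_congr rfl fun e _ => by ring
    rw [e, abs_mul, mul_assoc]
    exact mul_le_mul_of_nonneg_left (hF.quad y w) (abs_nonneg c)

/-- The relative entropy of the weight `q` in the tilted average, not normalized. -/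
noncomputable def Ent (x b : ℝ) (X q : (κ → ℝ) → ℝ) (y : κ → ℝ) : ℝ :=
  Ax x b X (fun u => q u * Real.log (q u)) y - Ax x b X q y * Real.log (Ax x b X q y)

lemma Ax_congr (h : ∀ u, φ u = q u) (x b : ℝ) (X : (κ → ℝ) → ℝ) (y : κ → ℝ) :
    Ax x b X φ y = Ax x b X q y := by
  have : φ = q := funext h
  rw [this]

lemma Ax_sub' (hX : LipB X B) (hB : 0 ≤ B) (hφ : EG φ) (hq : EG q) (x b : ℝ) (y : κ → ℝ) :
    Ax x b X (fun u => φ u - q u) y = Ax x b X φ y - Ax x b X q y := by
  have h1 := Ax_add hX hB hφ (hq.const_mul (-1)) x b y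
  rw [Ax_const_mul] at h1
  rw [← sub_eq_zero] at h1 ⊢
  rw [← h1]
  have h2 : (fun u => φ u - q u) = fun u => φ u + (-1) * q u := by funext u; ring
  rw [h2]
  ring

lemma Ax_pos (hX : LipB X B) (hB : 0 ≤ B) (hq : EG q) (hq0 : ∀ u, 0 < q u) (x b : ℝ)
    (y : κ → ℝ) : 0 < Ax x b X q y := by
  unfold Ax
  refine div_pos ?_ (hX.pos hB y b x)
  have hi := Ax_int hX hB hq x b y
  refine (integral_pos_iff_support_of_nonneg (fun z => (mul_pos (Real.exp_pos _) (hq0 _)).le)
    hi).2 ?_
  have hs : Function.support (fun z => Real.exp (x * X (y + b • z)) * q (y + b • z)) =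
      Set.univ := by
    ext z
    simp only [Function.mem_support, Set.mem_univ, iff_true]
    exact (mul_pos (Real.exp_pos _) (hq0 _)).ne'
  rw [hs]
  simp

/-- **The variational principle** with a weight `q`. -/
theorem gibbs (hX : LipB X B) (hB : 0 ≤ B) (hq : EG q) (hq0 : ∀ u, 0 < q u)
    (hql : EG fun u => q u * Real.log (q u)) (hφ : EG φ) (he : EG fun u => Real.exp (φ u))
    (x b : ℝ) (y : κ → ℝ) :
    Ax x b X (fun u => q u * φ u) y ≤
      Ax x b X q y * Real.log (Ax x b X (fun u => Real.exp (φ u)) y) + Ent x b X q y := by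
  set Q := Ax x b X q y with hQ
  set Z := Ax x b X (fun u => Real.exp (φ u)) y with hZ
  have hQ0 : 0 < Q := Ax_pos hX hB hq hq0 x b y
  have hZ0 : 0 < Z := Ax_pos hX hB he (fun u => Real.exp_pos _) x b y
  have key : ∀ u, q u * φ u + (q u - (Q / Z) * Real.exp (φ u)) ≤
      q u * Real.log (q u) + (Real.log Z - Real.log Q) * q u := by
    intro u
    set t := Real.log (q u) - φ u - Real.log Q + Real.log Z with ht
    have h1 := Real.add_one_le_exp (-t)
    have h2 : q u * Real.exp (-t) = (Q / Z) * Real.exp (φ u) := by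
      have e : -t = -Real.log (q u) + φ u + Real.log Q + -Real.log Z := by rw [ht]; ring
      rw [e, Real.exp_add, Real.exp_add, Real.exp_add, Real.exp_neg, Real.exp_neg,
        Real.exp_log (hq0 u), Real.exp_log hQ0, Real.exp_log hZ0]
      have := (hq0 u).ne'
      have := hZ0.ne'
      field_simp
    have h3 := mul_le_mul_of_nonneg_left h1 (hq0 u).le
    rw [h2] at h3
    have e2 : q u * (-t + 1) = q u - q u * Real.log (q u) + q u * φ u -
        (Real.log Z - Real.log Q) * q u := by rw [ht]; ring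
    rw [e2] at h3
    linarith
  have hqφ : EG fun u => q u * φ u := hq.mul hφ
  have h1 := Ax_mono hX hB (hqφ.add (hq.sub (he.const_mul (Q / Z))))
    (hql.add (hq.const_mul (Real.log Z - Real.log Q))) key x b y
  rw [Ax_add hX hB hqφ (hq.sub (he.const_mul (Q / Z))),
    Ax_sub' hX hB hq (he.const_mul (Q / Z)), Ax_const_mul,
    Ax_add hX hB hql (hq.const_mul _), Ax_const_mul, ← hQ, ← hZ, div_mul_cancel₀ _ hZ0.ne'] at h1
  unfold Ent
  rw [← hQ]
  linarith

/-- **The logarithmic Sobolev inequality** for the weight `exp l`. -/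
theorem lsi (hX : C11 X DX B L) (hl : C11 l Dl B' L') (hx : 0 < x) (b : ℝ) (y : κ → ℝ) :
    x * (Ax x b X (fun u => Real.exp (l u) * X u) y -
        Ax x b X (fun u => Real.exp (l u)) y * W x b X y) +
      Ent x b X (fun u => Real.exp (l u)) y ≤
    b ^ 2 / 2 * Ax x b X (fun u => Real.exp (l u) * ∑ e, (x * DX e u + Dl e u) ^ 2) y := by
  have hG := (c11_add (c11_mul hX x) hl).shift y b
  have h1 := KL_le_grad hG one_pos
  have hXL := hX.lip
  have hB := hX.B0
  have el : EG fun u => Real.exp (l u) := by simpa using hl.eg_exp 1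
  have eX : EG X := hX.eg
  have ell : EG l := hl.eg
  set Z := ∫ z, Real.exp (x * X (y + b • z)) ∂(gI κ) with hZ
  have hZ0 : 0 < Z := hXL.pos hB y b x
  have hZW : Z = Real.exp (x * W x b X y) := (hXL.exp_W hB hx y).symm
  set Q := Ax x b X (fun u => Real.exp (l u)) y with hQ
  have hQ0 : 0 < Q := Ax_pos hXL hB el (fun u => Real.exp_pos _) x b y
  have hAx : ∀ φ : (κ → ℝ) → ℝ,
      ∫ z, Real.exp (x * X (y + b • z)) * φ (y + b • z) ∂(gI κ) = Z * Ax x b X φ y := by
    intro φ
    unfold Ax
    rw [← hZ]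
    field_simp
  have e0 : ∀ z : κ → ℝ, Real.exp (1 * (x * X (y + b • z) + l (y + b • z))) =
      Real.exp (x * X (y + b • z)) * Real.exp (l (y + b • z)) := by
    intro z; rw [one_mul, Real.exp_add]
  have i0 : ∫ z, Real.exp (1 * (x * X (y + b • z) + l (y + b • z))) ∂(gI κ) = Z * Q := by
    simp_rw [e0]
    exact hAx fun u => Real.exp (l u)
  have i1 : ∫ z, Real.exp (1 * (x * X (y + b • z) + l (y + b • z))) *
      (x * X (y + b • z) + l (y + b • z)) ∂(gI κ) =
      Z * (x * Ax x b X (fun u => Real.exp (l u) * X u) y +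
        Ax x b X (fun u => Real.exp (l u) * l u) y) := by
    have h2 := hAx fun u => x * (Real.exp (l u) * X u) + Real.exp (l u) * l u
    rw [Ax_add hXL hB ((el.mul eX).const_mul x) (el.mul ell), Ax_const_mul] at h2
    rw [← h2]
    refine integral_congr_ae (Filter.Eventually.of_forall fun z => ?_)
    simp only
    rw [e0]
    ring
  have i2 : ∫ z, Real.exp (1 * (x * X (y + b • z) + l (y + b • z))) *
      ∑ e, (b * (x * DX e (y + b • z) + Dl e (y + b • z))) ^ 2 ∂(gI κ) =
      Z * (b ^ 2 * Ax x b X (fun u => Real.exp (l u) * ∑ e, (x * DX e u + Dl e u) ^ 2) y) := by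
    have h2 := hAx fun u => b ^ 2 * (Real.exp (l u) * ∑ e, (x * DX e u + Dl e u) ^ 2)
    rw [Ax_const_mul] at h2
    rw [← h2]
    refine integral_congr_ae (Filter.Eventually.of_forall fun z => ?_)
    simp only
    rw [e0]
    have e3 : ∑ e, (b * (x * DX e (y + b • z) + Dl e (y + b • z))) ^ 2 =
        b ^ 2 * ∑ e, (x * DX e (y + b • z) + Dl e (y + b • z)) ^ 2 := by
      rw [Finset.mul_sum]
      exact Finset.sum_congr rfl fun e _ => by ring
    rw [e3]
    ring
  unfold KL at h1
  rw [i0, i1, i2, Real.log_mul hZ0.ne' hQ0.ne', hZW, Real.log_exp, mul_div_mul_left _ _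
    (Real.exp_pos _).ne', mul_div_mul_left _ _ (Real.exp_pos _).ne', one_pow, one_mul] at h1
  have h3 := mul_le_mul_of_nonneg_left h1 hQ0.le
  have e4 : ∀ T : ℝ, Q * (T / Q) = T := fun T => by field_simp
  have e5 : Q * ((x * Ax x b X (fun u => Real.exp (l u) * X u) y +
      Ax x b X (fun u => Real.exp (l u) * l u) y) / Q - (x * W x b X y + Real.log Q)) =
      (x * Ax x b X (fun u => Real.exp (l u) * X u) y +
      Ax x b X (fun u => Real.exp (l u) * l u) y) - Q * (x * W x b X y + Real.log Q) := by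
    rw [mul_sub, e4]
  rw [e5] at h3
  have e6 : Q * (1 / 2 * (b ^ 2 * Ax x b X (fun u => Real.exp (l u) *
      ∑ e, (x * DX e u + Dl e u) ^ 2) y / Q)) = b ^ 2 / 2 * Ax x b X (fun u => Real.exp (l u) *
      ∑ e, (x * DX e u + Dl e u) ^ 2) y := by
    field_simp
  rw [e6] at h3
  unfold Ent
  rw [← hQ]
  have e7 : Ax x b X (fun u => Real.exp (l u) * Real.log (Real.exp (l u))) y =
      Ax x b X (fun u => Real.exp (l u) * l u) y := by
    refine Ax_congr (fun u => ?_) x b X y
    rw [Real.log_exp]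
  rw [e7]
  linarith

end Vale.Agent.P146.H159
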