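import Vale.Agent.P146.H159.Low1
import Vale.Agent.P146.H713.Lay

/-!
The lower side of `r^W = r` for the two-layer law `(y0 on the first layer, x on the window)`:
the gain of the exponent `x` against `x' < x` in the window, seen under a positive weight.
-/

open MeasureTheory ProbabilityTheory

namespace Vale.Agent.P146.H159

open Vale.Agent.P157.Lv Vale.Agent.P146.H425 Vale.Agent.P146.H785

set_option linter.unusedSectionVars false

variable {κ : Type} [Fintype κ] {F G X l φ q : (κ → ℝ) → ℝ} {D E DX Dl : κ → (κ → ℝ) → ℝ}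
  {B L B' L' x x' y0 s b h : ℝ}

/-- the tilt from the exponent `x` to `x'` -/
lemma Ax_tilt (hX : C11 X DX B L) (hx : 0 < x) (hx' : 0 < x') (b : ℝ) (y : κ → ℝ) :
    Ax x b X (fun u => Real.exp (-(x - x') * X u)) y =
      Real.exp (x' * W x' b X y - x * W x b X y) := by
  unfold Ax
  rw [Real.exp_sub, hX.lip.exp_W hX.B0 hx', hX.lip.exp_W hX.B0 hx]
  congr 1
  refine integral_congr_ae (Filter.Eventually.of_forall fun z => ?_)
  simp only
  rw [← Real.exp_add]
  congr 1
  ring

/-- **The gain in one window under the weight `exp l`.** -/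
theorem low_win (hX : C11 X DX B L) (hl : C11 l Dl B' L') (hx' : 0 < x') (hxx : x' < x) (b : ℝ)
    (y : κ → ℝ) :
    x * x' * (Ax x b X (fun u => Real.exp (l u)) y * (W x b X y - W x' b X y)) ≤
      (x - x') * (b ^ 2 / 2 *
        Ax x b X (fun u => Real.exp (l u) * ∑ e, (x * DX e u + Dl e u) ^ 2) y) +
      x' * Ent x b X (fun u => Real.exp (l u)) y := by
  have hx : 0 < x := hx'.trans hxx
  have el : EG fun u => Real.exp (l u) := by simpa using hl.eg_exp 1
  have ell : EG fun u => Real.exp (l u) * Real.log (Real.exp (l u)) := by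
    simpa only [Real.log_exp] using el.mul hl.eg
  have eX : EG fun u => -(x - x') * X u := hX.eg.const_mul _
  have eE : EG fun u => Real.exp (-(x - x') * X u) := hX.eg_exp _
  have h1 := lsi hX hl hx b y
  have h2 := gibbs hX.lip hX.B0 el (fun u => Real.exp_pos _) ell eX eE x b y
  rw [Ax_tilt hX hx hx', Real.log_exp] at h2
  have e1 : Ax x b X (fun u => Real.exp (l u) * (-(x - x') * X u)) y =
      -(x - x') * Ax x b X (fun u => Real.exp (l u) * X u) y := by
    rw [← Ax_const_mul]
    exact Ax_congr (fun u => by ring) x b X y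
  rw [e1] at h2
  set Q := Ax x b X (fun u => Real.exp (l u)) y
  set M := Ax x b X (fun u => Real.exp (l u) * X u) y
  set T := Ax x b X (fun u => Real.exp (l u) * ∑ e, (x * DX e u + Dl e u) ^ 2) y
  set S := Ent x b X (fun u => Real.exp (l u)) y
  have hD : 0 < x - x' := by linarith
  have h3 := mul_le_mul_of_nonneg_left h1 hD.le
  have h4 := mul_le_mul_of_nonneg_left h2 hx.le
  nlinarith [h3, h4]

/-- **The first layer**: the exponent `y0` on both sides, any positive weight `q` and any
nonincreasing change `X → X'` of the function above. -/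
theorem low_layer {X' : (κ → ℝ) → ℝ} {DX' : κ → (κ → ℝ) → ℝ} (hX : C11 X DX B L)
    (hX' : C11 X' DX' B' L') (hy : 0 < y0) (hq : EG q) (hq0 : ∀ u, 0 < q u)
    (hql : EG fun u => q u * Real.log (q u)) (h : ℝ) (y : κ → ℝ) :
    y0 * (Ax y0 h X q y * (W y0 h X y - W y0 h X' y)) ≤
      y0 * Ax y0 h X (fun u => q u * (X u - X' u)) y + Ent y0 h X q y := by
  have hd := c11_add (c11_mul hX' y0) (c11_mul hX (-y0))
  have eX : EG fun u => y0 * X' u + -y0 * X u := hd.eg
  have eE : EG fun u => Real.exp (y0 * X' u + -y0 * X u) := by simpa using hd.eg_exp 1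
  have h2 := gibbs hX.lip hX.B0 hq hq0 hql eX eE y0 h y
  have e2 : Ax y0 h X (fun u => Real.exp (y0 * X' u + -y0 * X u)) y =
      Real.exp (y0 * W y0 h X' y - y0 * W y0 h X y) := by
    unfold Ax
    rw [Real.exp_sub, hX'.lip.exp_W hX'.B0 hy, hX.lip.exp_W hX.B0 hy]
    congr 1
    refine integral_congr_ae (Filter.Eventually.of_forall fun z => ?_)
    simp only
    rw [← Real.exp_add]
    congr 1
    ring
  rw [e2, Real.log_exp] at h2
  have e1 : Ax y0 h X (fun u => q u * (y0 * X' u + -y0 * X u)) y =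
      -(y0 * Ax y0 h X (fun u => q u * (X u - X' u)) y) := by
    rw [← neg_mul, ← Ax_const_mul]
    exact Ax_congr (fun u => by ring) y0 h X y
  rw [e1] at h2
  nlinarith [h2]

/-- The average of the two-layer law, seen from the start of the first layer. -/
noncomputable def A2 (y0 h x b : ℝ) (X φ : (κ → ℝ) → ℝ) (y : κ → ℝ) : ℝ :=
  Ax y0 h (W x b X) (Ax x b X φ) y

/-- The entropy of the weight `q` in the two-layer law. -/
noncomputable def Ent2 (y0 h x b : ℝ) (X q : (κ → ℝ) → ℝ) (y : κ → ℝ) : ℝ :=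
  A2 y0 h x b X (fun u => q u * Real.log (q u)) y -
    A2 y0 h x b X q y * Real.log (A2 y0 h x b X q y)

lemma gibbs_nonneg (hX : C11 X DX B L) (hq : EG q) (hq0 : ∀ u, 0 < q u)
    (hql : EG fun u => q u * Real.log (q u)) (x b : ℝ) (y : κ → ℝ) : 0 ≤ Ent x b X q y := by
  have h := gibbs hX.lip hX.B0 hq hq0 hql (φ := fun _ => 0) (EG.const 0)
    (by simpa using (EG.const (1 : ℝ) : EG fun _ : κ → ℝ => (1 : ℝ))) x b y
  have e1 : Ax x b X (fun u => q u * 0) y = 0 := by
    refine (Ax_congr (q := fun _ => (0 : ℝ)) (fun u => by ring) x b X y).trans ?_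
    exact Ax_const hX.lip hX.B0 0 x b y
  have e2 : Ax x b X (fun _ => Real.exp 0) y = 1 := by
    refine (Ax_congr (q := fun _ => (1 : ℝ)) (fun u => by simp) x b X y).trans ?_
    exact Ax_const hX.lip hX.B0 1 x b y
  rw [e1, e2, Real.log_one] at h
  linarith

/-- the average of a weight `exp l` is again an admissible weight -/
lemma eg_avg (hX : C11 X DX B L) (hl : C11 l Dl B' L') (x b : ℝ) :
    EG (Ax x b X fun u => Real.exp (l u)) ∧ (∀ u, 0 < Ax x b X (fun u => Real.exp (l u)) u) ∧
      EG fun u => Ax x b X (fun u => Real.exp (l u)) u *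
        Real.log (Ax x b X (fun u => Real.exp (l u)) u) := by
  have el : EG fun u => Real.exp (l u) := by simpa using hl.eg_exp 1
  have em : EG fun u => Real.exp (-l u) := by simpa using hl.eg_exp (-1)
  have hp := fun u => Ax_pos hX.lip hX.B0 el (fun u => Real.exp_pos _) x b u
  have hm := fun u => Ax_pos hX.lip hX.B0 em (fun u => Real.exp_pos _) x b u
  have e1 := R1.eg_Ax hX el x b
  have e2 := R1.eg_Ax hX em x b
  refine ⟨e1, hp, ?_⟩
  have hlog : EG fun u => Real.log (Ax x b X (fun u => Real.exp (l u)) u) := by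
    refine EG.mono (e1.add e2) (e1.meas.log) fun u => ?_
    set Q := Ax x b X (fun u => Real.exp (l u)) u with hQ
    set R := Ax x b X (fun u => Real.exp (-l u)) u with hR
    have hQ0 : 0 < Q := hp u
    have hR0 : 0 < R := hm u
    rw [abs_of_pos (add_pos hQ0 hR0)]
    -- `1 ≤ Q R`
    have h1 : 1 ≤ Q * R := by
      have h2 := Ax_mono hX.lip hX.B0 (φ := fun _ => (2 : ℝ))
        (ψ := fun u => R * Real.exp (l u) + R⁻¹ * Real.exp (-l u)) (EG.const _)
        ((el.const_mul _).add (em.const_mul _)) (fun v => by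
          have h3 : R * Real.exp (l v) * (R⁻¹ * Real.exp (-l v)) = 1 := by
            rw [mul_mul_mul_comm, mul_inv_cancel₀ hR0.ne', ← Real.exp_add, add_neg_cancel,
              Real.exp_zero, one_mul]
          have h4 : 0 < R * Real.exp (l v) := mul_pos hR0 (Real.exp_pos _)
          have h5 : 0 < R⁻¹ * Real.exp (-l v) := mul_pos (inv_pos.2 hR0) (Real.exp_pos _)
          nlinarith [sq_nonneg (R * Real.exp (l v) - R⁻¹ * Real.exp (-l v))]) x b u
      rw [Ax_const hX.lip hX.B0, Ax_add hX.lip hX.B0 (el.const_mul _) (em.const_mul _),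
        Ax_const_mul, Ax_const_mul, ← hQ, ← hR, inv_mul_cancel₀ hR0.ne'] at h2
      linarith
    rw [abs_le]
    constructor
    · have h6 : Real.log Q⁻¹ ≤ Q⁻¹ := by
        have := Real.log_le_sub_one_of_pos (inv_pos.2 hQ0)
        linarith
      rw [Real.log_inv] at h6
      have h7 : Q⁻¹ ≤ R := by
        rw [inv_le_iff_one_le_mul₀' hQ0]
        exact h1
      linarith
    · have := Real.log_le_sub_one_of_pos hQ0
      linarith
  exact e1.mul hlog

/-- **THE LOWER SIDE**, at the start of the first layer, for the weight `q = exp l` at the end of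
the window `[w, t2]` (`b² = t2 - w`, `h²` = length of the first layer, `X = u_{t2}`). -/
theorem low_main (hX : C11 X DX B L) (hl : C11 l Dl B' L') (hx' : 0 < x') (hxx : x' < x)
    (hy : 0 < y0) (hyx : y0 ≤ x) (b h : ℝ) (y : κ → ℝ) :
    x * x' * (A2 y0 h x b X (fun u => Real.exp (l u)) y *
        (W y0 h (W x b X) y - W y0 h (W x' b X) y)) ≤
      (x - x') * (b ^ 2 / 2 *
        A2 y0 h x b X (fun u => Real.exp (l u) * ∑ e, (x * DX e u + Dl e u) ^ 2) y) +
      x * x' / y0 * Ent2 y0 h x b X (fun u => Real.exp (l u)) y := by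
  have hx : 0 < x := hx'.trans hxx
  have hU := hX.W' hx b
  have hU' := hX.W' hx' b
  have el : EG fun u => Real.exp (l u) := by simpa using hl.eg_exp 1
  have ell : EG fun u => Real.exp (l u) * Real.log (Real.exp (l u)) := by
    simpa only [Real.log_exp] using el.mul hl.eg
  obtain ⟨eq, hq0, eql⟩ := eg_avg hX hl x b
  have eS : EG fun u => Real.exp (l u) * ∑ e, (x * DX e u + Dl e u) ^ 2 :=
    el.mul (EG.sum _ fun e _ => (((hX.eg_D e).const_mul x).add (hl.eg_D e)).pow 2)
  have h1 := low_layer (X' := W x' b X) hU hU' hy eq hq0 eql h y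
  have h2 : ∀ u, x * x' * (Ax x b X (fun u => Real.exp (l u)) u * (W x b X u - W x' b X u)) ≤
      (x - x') * (b ^ 2 / 2 *
        Ax x b X (fun u => Real.exp (l u) * ∑ e, (x * DX e u + Dl e u) ^ 2) u) +
      x' * Ent x b X (fun u => Real.exp (l u)) u := fun u => low_win hX hl hx' hxx b u
  have eD : EG fun u => Ax x b X (fun u => Real.exp (l u)) u * (W x b X u - W x' b X u) :=
    eq.mul (hU.eg.sub hU'.eg)
  have eT := R1.eg_Ax hX eS x b
  have eLL := R1.eg_Ax hX ell x b
  have eEnt : EG fun u => Ent x b X (fun u => Real.exp (l u)) u := eLL.sub eql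
  have h3 := Ax_mono hU.lip hU.B0 (eD.const_mul (x * x'))
    (((eT.const_mul (b ^ 2 / 2)).const_mul (x - x')).add (eEnt.const_mul x')) h2 y0 h y
  rw [Ax_const_mul, Ax_add hU.lip hU.B0 ((eT.const_mul (b ^ 2 / 2)).const_mul (x - x'))
    (eEnt.const_mul x'), Ax_const_mul, Ax_const_mul, Ax_const_mul] at h3
  have h4 : Ax y0 h (W x b X) (fun u => Ent x b X (fun u => Real.exp (l u)) u) y +
      Ent y0 h (W x b X) (Ax x b X fun u => Real.exp (l u)) y =
      Ent2 y0 h x b X (fun u => Real.exp (l u)) y := by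
    unfold Ent2 A2
    have h5 := Ax_sub' hU.lip hU.B0 eLL eql y0 h y
    have h6 : Ax y0 h (W x b X) (fun u => Ent x b X (fun u => Real.exp (l u)) u) y =
        Ax y0 h (W x b X) (Ax x b X fun u => Real.exp (l u) * Real.log (Real.exp (l u))) y -
        Ax y0 h (W x b X) (fun u => Ax x b X (fun u => Real.exp (l u)) u *
          Real.log (Ax x b X (fun u => Real.exp (l u)) u)) y := h5
    rw [h6]
    unfold Ent
    ring
  have hE1 : 0 ≤ Ax y0 h (W x b X) (fun u => Ent x b X (fun u => Real.exp (l u)) u) y := by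
    have h7 := Ax_mono hU.lip hU.B0 (EG.const 0) eEnt
      (fun u => gibbs_nonneg hX el (fun u => Real.exp_pos _) ell x b u) y0 h y
    rwa [Ax_const hU.lip hU.B0] at h7
  set P := Ax y0 h (W x b X) (fun u => Ax x b X (fun u => Real.exp (l u)) u *
    (W x b X u - W x' b X u)) y with hP
  set E1 := Ax y0 h (W x b X) (fun u => Ent x b X (fun u => Real.exp (l u)) u) y with hE1d
  set E2 := Ent y0 h (W x b X) (Ax x b X fun u => Real.exp (l u)) y with hE2d
  have h8 : x * x' * (A2 y0 h x b X (fun u => Real.exp (l u)) y *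
      (W y0 h (W x b X) y - W y0 h (W x' b X) y)) ≤ x * x' * P + x * x' / y0 * E2 := by
    have h9 := mul_le_mul_of_nonneg_left h1 (show 0 ≤ x * x' / y0 by positivity)
    have e9 : x * x' / y0 * (y0 * (Ax y0 h (W x b X) (Ax x b X fun u => Real.exp (l u)) y *
        (W y0 h (W x b X) y - W y0 h (W x' b X) y))) = x * x' * (A2 y0 h x b X
        (fun u => Real.exp (l u)) y * (W y0 h (W x b X) y - W y0 h (W x' b X) y)) := by
      unfold A2
      field_simp
    have e10 : x * x' / y0 * (y0 * P + E2) = x * x' * P + x * x' / y0 * E2 := by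
      field_simp
    rw [e9, e10] at h9
    exact h9
  have h10 : x' * E1 ≤ x * x' / y0 * E1 := by
    refine mul_le_mul_of_nonneg_right ?_ hE1
    rw [le_div_iff₀ hy]
    nlinarith
  rw [← h4]
  unfold A2
  unfold A2 at h8
  nlinarith [h3, h8, h10]

end Vale.Agent.P146.H159
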