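import Vale.Agent.P146.H159.Low1

/-!
The tilted average of a bounded function over a nondegenerate Gaussian layer has a bounded gradient
and a quadratic remainder, uniformly in the position: `c11_Ax`.
-/

open MeasureTheory ProbabilityTheory

namespace Vale.Agent.P146.H159

open Vale.Agent.P157.Lv Vale.Agent.P146.H425 Vale.Agent.P146.H785

set_option linter.unusedSectionVars false

variable {κ : Type} [Fintype κ] {F G φ ψ : (κ → ℝ) → ℝ} {D E : κ → (κ → ℝ) → ℝ}
  {B L x b M : ℝ}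

lemma exp_shift_le (h : LipB G B) (x : ℝ) (z : κ → ℝ) :
    Real.exp (x * G z) ≤ Real.exp (x * G 0) * Real.exp (|x| * B * ‖z‖) := by
  rw [← Real.exp_add]
  refine Real.exp_le_exp.2 ?_
  have h1 := h 0 z
  rw [zero_add] at h1
  have h2 : x * (G z - G 0) ≤ |x| * (B * ‖z‖) := by
    refine (le_abs_self _).trans ?_
    rw [abs_mul]
    exact mul_le_mul_of_nonneg_left h1 (abs_nonneg x)
  linarith

lemma exp_shift_ge (h : LipB G B) (x : ℝ) (z : κ → ℝ) :
    Real.exp (x * G 0) * Real.exp (-(|x| * B) * ‖z‖) ≤ Real.exp (x * G z) := by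
  rw [← Real.exp_add]
  refine Real.exp_le_exp.2 ?_
  have h1 := h 0 z
  rw [zero_add] at h1
  have h2 : -(|x| * (B * ‖z‖)) ≤ x * (G z - G 0) := by
    refine le_trans (neg_le_neg ?_) (neg_abs_le _)
    rw [abs_mul]
    exact mul_le_mul_of_nonneg_left h1 (abs_nonneg x)
  linarith

/-- The uniform bound of a tilted mean. -/
noncomputable def Uu (a : ℝ) (ψ : (κ → ℝ) → ℝ) : ℝ :=
  (∫ z, Real.exp (a * ‖z‖) * ψ z ∂(gI κ)) / ∫ z, Real.exp (-a * ‖z‖) ∂(gI κ)

lemma int_exp_norm_pos (a : ℝ) : 0 < ∫ z : κ → ℝ, Real.exp (a * ‖z‖) ∂(gI κ) := by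
  refine (integral_pos_iff_support_of_nonneg (fun z => (Real.exp_pos _).le)
    (eg_exp_norm a).integrable).2 ?_
  have hs : Function.support (fun z : κ → ℝ => Real.exp (a * ‖z‖)) = Set.univ := by
    ext z
    simp only [Function.mem_support, Set.mem_univ, iff_true]
    exact (Real.exp_pos _).ne'
  rw [hs]
  simp

lemma Ax_one (x : ℝ) (G ψ : (κ → ℝ) → ℝ) : Ax x 1 G ψ 0 =
    (∫ z, Real.exp (x * G z) * ψ z ∂(gI κ)) / ∫ z, Real.exp (x * G z) ∂(gI κ) := by
  unfold Ax
  simp only [one_smul, zero_add]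

lemma Ax_le_U (h : LipB G B) (hB : 0 ≤ B) (hψ : EG ψ) (h0 : ∀ z, 0 ≤ ψ z) (x : ℝ) :
    Ax x 1 G ψ 0 ≤ Uu (|x| * B) ψ := by
  rw [Ax_one]
  unfold Uu
  have hA : 0 < Real.exp (x * G 0) := Real.exp_pos _
  have i1 : Integrable (fun z => Real.exp (x * G z) * ψ z) (gI κ) :=
    (((h.lip hB).exp_eg x).mul hψ).integrable
  have i2 : Integrable (fun z : κ → ℝ => Real.exp (|x| * B * ‖z‖) * ψ z) (gI κ) :=
    ((eg_exp_norm _).mul hψ).integrable
  have h1 : ∫ z, Real.exp (x * G z) * ψ z ∂(gI κ) ≤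
      Real.exp (x * G 0) * ∫ z, Real.exp (|x| * B * ‖z‖) * ψ z ∂(gI κ) := by
    rw [← integral_const_mul]
    refine integral_mono i1 (i2.const_mul _) fun z => ?_
    simp only
    rw [← mul_assoc]
    exact mul_le_mul_of_nonneg_right (exp_shift_le h x z) (h0 z)
  have h2 : Real.exp (x * G 0) * ∫ z : κ → ℝ, Real.exp (-(|x| * B) * ‖z‖) ∂(gI κ) ≤
      ∫ z, Real.exp (x * G z) ∂(gI κ) := by
    rw [← integral_const_mul]
    exact integral_mono ((eg_exp_norm _).integrable.const_mul _) ((h.lip hB).exp_eg x).integrable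
      fun z => exp_shift_ge h x z
  have h3 : 0 ≤ ∫ z, Real.exp (|x| * B * ‖z‖) * ψ z ∂(gI κ) :=
    integral_nonneg fun z => mul_nonneg (Real.exp_pos _).le (h0 z)
  have h4 := int_exp_norm_pos (κ := κ) (-(|x| * B))
  calc _ ≤ (Real.exp (x * G 0) * ∫ z, Real.exp (|x| * B * ‖z‖) * ψ z ∂(gI κ)) /
        (Real.exp (x * G 0) * ∫ z : κ → ℝ, Real.exp (-(|x| * B) * ‖z‖) ∂(gI κ)) :=
        div_le_div₀ (mul_nonneg hA.le h3) h1 (mul_pos hA h4) h2
    _ = _ := by rw [mul_div_mul_left _ _ hA.ne']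

lemma Ax_ge_U (h : LipB G B) (hB : 0 ≤ B) (hψ : EG ψ) (h0 : ∀ z, 0 ≤ ψ z) (x : ℝ) :
    Uu (-(|x| * B)) ψ ≤ Ax x 1 G ψ 0 := by
  rw [Ax_one]
  unfold Uu
  rw [neg_neg]
  have hA : 0 < Real.exp (x * G 0) := Real.exp_pos _
  have i1 : Integrable (fun z => Real.exp (x * G z) * ψ z) (gI κ) :=
    (((h.lip hB).exp_eg x).mul hψ).integrable
  have i2 : Integrable (fun z : κ → ℝ => Real.exp (-(|x| * B) * ‖z‖) * ψ z) (gI κ) :=
    ((eg_exp_norm _).mul hψ).integrable
  have h1 : Real.exp (x * G 0) * ∫ z, Real.exp (-(|x| * B) * ‖z‖) * ψ z ∂(gI κ) ≤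
      ∫ z, Real.exp (x * G z) * ψ z ∂(gI κ) := by
    rw [← integral_const_mul]
    refine integral_mono (i2.const_mul _) i1 fun z => ?_
    simp only
    rw [← mul_assoc]
    exact mul_le_mul_of_nonneg_right (exp_shift_ge h x z) (h0 z)
  have h2 : ∫ z, Real.exp (x * G z) ∂(gI κ) ≤
      Real.exp (x * G 0) * ∫ z : κ → ℝ, Real.exp (|x| * B * ‖z‖) ∂(gI κ) := by
    rw [← integral_const_mul]
    exact integral_mono ((h.lip hB).exp_eg x).integrable ((eg_exp_norm _).integrable.const_mul _)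
      fun z => exp_shift_le h x z
  have h3 : 0 ≤ ∫ z, Real.exp (x * G z) * ψ z ∂(gI κ) :=
    integral_nonneg fun z => mul_nonneg (Real.exp_pos _).le (h0 z)
  have h4 : 0 < ∫ z, Real.exp (x * G z) ∂(gI κ) := by
    have := h.pos hB 0 1 x
    simpa using this
  calc _ = (Real.exp (x * G 0) * ∫ z, Real.exp (-(|x| * B) * ‖z‖) * ψ z ∂(gI κ)) /
        (Real.exp (x * G 0) * ∫ z : κ → ℝ, Real.exp (|x| * B * ‖z‖) ∂(gI κ)) := by
        rw [mul_div_mul_left _ _ hA.ne']
    _ ≤ _ := div_le_div₀ h3 h1 h4 h2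

/-! ### the Gaussian exponent -/

/-- `⟨v, z⟩ - |v|² / 2` -/
noncomputable def Te (v z : κ → ℝ) : ℝ := ∑ e, v e * z e - (∑ e, v e ^ 2) / 2

/-- the size of the exponent -/
noncomputable def ta (κ : Type) [Fintype κ] (z : κ → ℝ) : ℝ := Fintype.card κ * (‖z‖ + 1)

lemma ta_nonneg (z : κ → ℝ) : 0 ≤ ta κ z := by unfold ta; positivity

lemma eg_ta : EG (ta κ) := (eg_norm.add (EG.const 1)).const_mul _

lemma eg_Te (v : κ → ℝ) : EG (Te v) :=
  (EG.sum _ fun e _ => (EG.coord e).const_mul (v e)).sub (EG.const _)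

lemma eg_exp_ta (c : ℝ) : EG fun z => Real.exp (c * ta κ z) := by
  have e : (fun z => Real.exp (c * ta κ z)) = fun z =>
      Real.exp (c * Fintype.card κ) * Real.exp ((c * Fintype.card κ) * ‖z‖) := by
    funext z
    rw [← Real.exp_add]
    unfold ta
    congr 1
    ring
  rw [e]
  exact (eg_exp_norm _).const_mul _

lemma abs_Te_le {v : κ → ℝ} (hv : ‖v‖ ≤ 1) (z : κ → ℝ) : |Te v z| ≤ ‖v‖ * ta κ z := by
  have h1 : |∑ e, v e * z e| ≤ Fintype.card κ * (‖v‖ * ‖z‖) :=
    abs_sum_le (norm_nonneg v) fun e => by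
      have := norm_le_pi_norm v e
      rwa [Real.norm_eq_abs] at this
  have h2 : ∑ e, v e ^ 2 ≤ Fintype.card κ * ‖v‖ := by
    calc ∑ e, v e ^ 2 ≤ ∑ _e : κ, ‖v‖ := by
          refine Finset.sum_le_sum fun e _ => ?_
          have h3 := norm_le_pi_norm v e
          rw [Real.norm_eq_abs] at h3
          rw [← sq_abs]
          nlinarith [abs_nonneg (v e)]
      _ = Fintype.card κ * ‖v‖ := by rw [Finset.sum_const, Finset.card_univ, nsmul_eq_mul]
  have h3 : 0 ≤ ∑ e, v e ^ 2 := Finset.sum_nonneg fun e _ => sq_nonneg _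
  unfold Te ta
  rw [abs_le]
  have h4 := abs_le.1 h1
  have h5 : (0 : ℝ) ≤ Fintype.card κ := Nat.cast_nonneg _
  have h6 : 0 ≤ (Fintype.card κ : ℝ) * ‖v‖ := by positivity
  constructor <;> nlinarith [h4.1, h4.2]

lemma eg_exp_Te (v : κ → ℝ) : EG fun z => Real.exp (Te v z) := by
  refine EG.mono (eg_exp_norm (Fintype.card κ * ‖v‖)) (eg_Te v).meas.exp fun z => ?_
  rw [abs_of_pos (Real.exp_pos _), abs_of_pos (Real.exp_pos _)]
  refine Real.exp_le_exp.2 ?_
  have h1 : |∑ e, v e * z e| ≤ Fintype.card κ * (‖v‖ * ‖z‖) :=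
    abs_sum_le (norm_nonneg v) fun e => by
      have := norm_le_pi_norm v e
      rwa [Real.norm_eq_abs] at this
  have h3 : 0 ≤ ∑ e, v e ^ 2 := Finset.sum_nonneg fun e _ => sq_nonneg _
  unfold Te
  have := (abs_le.1 h1).2
  linarith

lemma exp_sub_le (v : ℝ) : |Real.exp v - 1 - v| ≤ v ^ 2 * Real.exp |v| := by
  have h1 := exp_le_quad v
  have h2 := Real.add_one_le_exp v
  rw [abs_of_nonneg (by linarith)]
  linarith

/-- Gaussian shift of a tilted mean. -/
lemma Ax_shift (x : ℝ) (hb : 0 < b) (F φ : (κ → ℝ) → ℝ) (y w : κ → ℝ) :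
    Ax x b F φ (y + w) =
      (∫ z, Real.exp (x * F (y + b • z)) * (φ (y + b • z) * Real.exp (Te (b⁻¹ • w) z)) ∂(gI κ)) /
        ∫ z, Real.exp (x * F (y + b • z)) * Real.exp (Te (b⁻¹ • w) z) ∂(gI κ) := by
  have hs : ∀ g : (κ → ℝ) → ℝ, ∫ z, g (y + w + b • z) ∂(gI κ) =
      ∫ z, Real.exp (Te (b⁻¹ • w) z) * g (y + b • z) ∂(gI κ) := by
    intro g
    rw [gI_shift (-(b⁻¹ • w)) fun z => g (y + w + b • z)]
    refine integral_congr_ae (Filter.Eventually.of_forall fun z => ?_)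
    simp only
    have e1 : y + w + b • (z + -(b⁻¹ • w)) = y + b • z := by
      rw [smul_add, smul_neg, smul_smul, mul_inv_cancel₀ hb.ne', one_smul]
      abel
    rw [e1]
    congr 2
    unfold Te
    have e2 : ∑ i, (-(b⁻¹ • w)) i * z i = -∑ i, (b⁻¹ • w) i * z i := by
      rw [← Finset.sum_neg_distrib]
      exact Finset.sum_congr rfl fun i _ => by rw [Pi.neg_apply]; ring
    have e3 : ∑ i, (-(b⁻¹ • w)) i ^ 2 = ∑ i, (b⁻¹ • w) i ^ 2 :=
      Finset.sum_congr rfl fun i _ => by rw [Pi.neg_apply]; ring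
    rw [e2, e3]
    ring
  unfold Ax
  rw [hs fun u => Real.exp (x * F u) * φ u, hs fun u => Real.exp (x * F u)]
  congr 1
  · refine integral_congr_ae (Filter.Eventually.of_forall fun z => ?_)
    simp only
    ring
  · refine integral_congr_ae (Filter.Eventually.of_forall fun z => ?_)
    simp only
    ring

/-- The quadratic remainder at the origin. -/
lemma quad_core (hB : 0 ≤ B) (x : ℝ) (hM : 0 ≤ M) : ∃ C : ℝ, 0 ≤ C ∧
    ∀ (G φ : (κ → ℝ) → ℝ), LipB G B → Measurable φ → (∀ z, |φ z| ≤ M) → ∀ v : κ → ℝ,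
      |Ax x 1 G (fun z => φ z * Real.exp (Te v z)) 0 / Ax x 1 G (fun z => Real.exp (Te v z)) 0 -
        Ax x 1 G φ 0 - ∑ e, (Ax x 1 G (fun z => φ z * z e) 0 -
          Ax x 1 G φ 0 * Ax x 1 G (fun z => z e) 0) * v e| ≤ C * ‖v‖ ^ 2 := by
  set a := |x| * B with ha
  have ha0 : 0 ≤ a := by positivity
  set I1 := Uu (κ := κ) a (fun z => ta κ z * Real.exp (ta κ z)) with hI1
  set I2 := Uu (κ := κ) a (fun z => ta κ z ^ 2 * Real.exp (ta κ z)) with hI2
  set c1 := Uu (κ := κ) (-a) (fun z => Real.exp (-ta κ z)) with hc1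
  have hexp1 : EG fun z => Real.exp (ta κ z) := by simpa using eg_exp_ta (κ := κ) 1
  have hexpm : EG fun z => Real.exp (-ta κ z) := by simpa using eg_exp_ta (κ := κ) (-1)
  have g1 : EG fun z => ta κ z * Real.exp (ta κ z) := eg_ta.mul hexp1
  have g2 : EG fun z => ta κ z ^ 2 * Real.exp (ta κ z) := (eg_ta.pow 2).mul hexp1
  have n1 : ∀ z : κ → ℝ, 0 ≤ ta κ z * Real.exp (ta κ z) := fun z =>
    mul_nonneg (ta_nonneg z) (Real.exp_pos _).le
  have n2 : ∀ z : κ → ℝ, 0 ≤ ta κ z ^ 2 * Real.exp (ta κ z) := fun z => by positivity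
  have hc1p : 0 < c1 := by
    rw [hc1]
    unfold Uu
    refine div_pos ?_ (int_exp_norm_pos _)
    refine (integral_pos_iff_support_of_nonneg (fun z => by positivity)
      ((eg_exp_norm _).mul hexpm).integrable).2 ?_
    have hs : Function.support (fun z : κ → ℝ => Real.exp (-a * ‖z‖) * Real.exp (-ta κ z)) =
        Set.univ := by
      ext z
      simp only [Function.mem_support, Set.mem_univ, iff_true]
      positivity
    rw [hs]
    simp
  have hI10 : 0 ≤ I1 := by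
    rw [hI1]; unfold Uu
    exact div_nonneg (integral_nonneg fun z => mul_nonneg (Real.exp_pos _).le (n1 z))
      (int_exp_norm_pos _).le
  have hI20 : 0 ≤ I2 := by
    rw [hI2]; unfold Uu
    exact div_nonneg (integral_nonneg fun z => mul_nonneg (Real.exp_pos _).le (n2 z))
      (int_exp_norm_pos _).le
  -- the size of the gradient
  set K := Uu (κ := κ) a (fun z => ‖z‖) with hK
  have hK0 : 0 ≤ K := by
    rw [hK]; unfold Uu
    exact div_nonneg (integral_nonneg fun z => mul_nonneg (Real.exp_pos _).le (norm_nonneg z))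
      (int_exp_norm_pos _).le
  refine ⟨2 * M * (I2 + I1 ^ 2) / c1 + (2 * M + Fintype.card κ * (2 * M * K)), by positivity, ?_⟩
  intro G φ hG hφm hφ v
  have hE : EG φ := EG.of_bdd hφm hφ
  set R := Ax x 1 G φ 0 with hR
  have hRb : |R| ≤ M := Ax_abs_le hG hB hφm hφ x 1 0
  set Z := Ax x 1 G (fun z => Real.exp (Te v z)) 0 with hZ
  have hZpos : 0 < Z := Ax_pos hG hB (eg_exp_Te v) (fun _ => Real.exp_pos _) x 1 0
  have habs : ∀ ψ : (κ → ℝ) → ℝ, EG ψ → |Ax x 1 G ψ 0| ≤ Ax x 1 G (fun z => |ψ z|) 0 := by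
    intro ψ hψ
    rw [abs_le]
    constructor
    · have h1 := Ax_mono hG hB (hψ.abs.const_mul (-1)) hψ
        (fun u => by linarith [neg_abs_le (ψ u)]) x 1 0
      rw [Ax_const_mul] at h1
      linarith
    · exact Ax_mono hG hB hψ hψ.abs (fun u => le_abs_self _) x 1 0
  -- the linear term
  have hcoord : ∀ e, Ax x 1 G (fun z => φ z * z e) 0 - R * Ax x 1 G (fun z => z e) 0 =
      Ax x 1 G (fun z => (φ z - R) * z e) 0 := by
    intro e
    have h1 : (fun z : κ → ℝ => (φ z - R) * z e) = fun z => φ z * z e + (-R) * z e := by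
      funext z; ring
    rw [h1, Ax_add hG hB (hE.mul (EG.coord e)) ((EG.coord e).const_mul _), Ax_const_mul]
    ring
  have hφR : EG fun z => φ z - R := hE.sub (EG.const R)
  have hφRb : ∀ z, |φ z - R| ≤ 2 * M := fun z => by
    have := abs_sub (φ z) R
    linarith [hφ z]
  have hlin : ∑ e, (Ax x 1 G (fun z => φ z * z e) 0 -
      Ax x 1 G φ 0 * Ax x 1 G (fun z => z e) 0) * v e =
      Ax x 1 G (fun z => (φ z - R) * Te v z) 0 := by
    have h1 : (fun z : κ → ℝ => (φ z - R) * Te v z) = fun z =>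
        (∑ e, v e * ((φ z - R) * z e)) + (-((∑ e, v e ^ 2) / 2)) * (φ z - R) := by
      funext z
      unfold Te
      rw [mul_sub, Finset.mul_sum]
      have : ∑ e, (φ z - R) * (v e * z e) = ∑ e, v e * ((φ z - R) * z e) :=
        Finset.sum_congr rfl fun e _ => by ring
      rw [this]
      ring
    rw [h1, Ax_add hG hB (EG.sum _ fun e _ => (hφR.mul (EG.coord e)).const_mul _)
      (hφR.const_mul _), Ax_sum hG hB _ fun e _ => (hφR.mul (EG.coord e)).const_mul _,
      Ax_const_mul]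
    have h2 : Ax x 1 G (fun z => φ z - R) 0 = 0 := by
      have h3 : (fun z => φ z - R) = fun z => φ z + (-R) := by funext z; ring
      rw [h3, Ax_add hG hB hE (EG.const _), Ax_const hG hB]
      ring
    rw [h2, mul_zero, add_zero]
    refine Finset.sum_congr rfl fun e _ => ?_
    rw [← hR, hcoord, Ax_const_mul]
    ring
  rw [hlin]
  -- the difference
  have hN : Ax x 1 G (fun z => φ z * Real.exp (Te v z)) 0 - R * Z =
      Ax x 1 G (fun z => (φ z - R) * Real.exp (Te v z)) 0 := by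
    have h1 : (fun z => (φ z - R) * Real.exp (Te v z)) = fun z =>
        φ z * Real.exp (Te v z) + (-R) * Real.exp (Te v z) := by funext z; ring
    rw [h1, Ax_add hG hB (hE.mul (eg_exp_Te v)) ((eg_exp_Te v).const_mul _), Ax_const_mul, ← hZ]
    ring
  have hdiff : Ax x 1 G (fun z => φ z * Real.exp (Te v z)) 0 / Z - R =
      Ax x 1 G (fun z => (φ z - R) * Real.exp (Te v z)) 0 / Z := by
    rw [← hN]
    field_simp
  by_cases hv : ‖v‖ ≤ 1
  · have hT := fun z => abs_Te_le hv z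
    have hexpT : ∀ z : κ → ℝ, Real.exp |Te v z| ≤ Real.exp (ta κ z) := fun z => by
      refine Real.exp_le_exp.2 ((hT z).trans ?_)
      have := mul_le_mul_of_nonneg_right hv (ta_nonneg z)
      linarith
    -- `Z`
    have hZc : c1 ≤ Z := by
      refine (Ax_ge_U hG hB hexpm (fun z => (Real.exp_pos _).le) x).trans ?_
      refine Ax_mono hG hB hexpm (eg_exp_Te v) (fun z => Real.exp_le_exp.2 ?_) x 1 0
      have h1 := (abs_le.1 (hT z)).1
      have := mul_le_mul_of_nonneg_right hv (ta_nonneg z)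
      linarith
    have hT1 : ∀ z, |Te v z| ≤ ‖v‖ * (ta κ z * Real.exp (ta κ z)) := fun z => by
      refine (hT z).trans (mul_le_mul_of_nonneg_left ?_ (norm_nonneg v))
      have h1 : 1 ≤ Real.exp (ta κ z) := Real.one_le_exp (ta_nonneg z)
      nlinarith [ta_nonneg z]
    have hT1' : ∀ z, |Real.exp (Te v z) - 1| ≤ ‖v‖ * (ta κ z * Real.exp (ta κ z)) := fun z => by
      refine (abs_exp_sub_one_le' _).trans ?_
      rw [← mul_assoc]
      exact mul_le_mul (hT z) (hexpT z) (Real.exp_pos _).le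
        (mul_nonneg (norm_nonneg v) (ta_nonneg z))
    have hT2 : ∀ z, |Real.exp (Te v z) - 1 - Te v z| ≤
        ‖v‖ ^ 2 * (ta κ z ^ 2 * Real.exp (ta κ z)) := fun z => by
      refine (exp_sub_le _).trans ?_
      rw [← mul_assoc, ← mul_pow, ← sq_abs (Te v z)]
      refine mul_le_mul ?_ (hexpT z) (Real.exp_pos _).le (by positivity)
      exact pow_le_pow_left₀ (abs_nonneg _) (hT z) 2
    have eT : EG (Te v) := eg_Te v
    have eeT : EG fun z => Real.exp (Te v z) := eg_exp_Te v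
    -- the three numbers
    have b1 : |Ax x 1 G (fun z => (φ z - R) * Te v z) 0| ≤ 2 * M * (‖v‖ * I1) := by
      refine (habs _ (hφR.mul eT)).trans ?_
      have h1 : Ax x 1 G (fun z => |(φ z - R) * Te v z|) 0 ≤
          Ax x 1 G (fun z => (2 * M * ‖v‖) * (ta κ z * Real.exp (ta κ z))) 0 :=
        Ax_mono hG hB (hφR.mul eT).abs (g1.const_mul _) (fun z => by
          rw [abs_mul, mul_assoc]
          exact mul_le_mul (hφRb z) (hT1 z) (abs_nonneg _) (by positivity)) x 1 0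
      rw [Ax_const_mul] at h1
      have h2 := Ax_le_U hG hB g1 n1 x
      have h3 : (2 * M * ‖v‖) * Ax x 1 G (fun z => ta κ z * Real.exp (ta κ z)) 0 ≤
          (2 * M * ‖v‖) * I1 := mul_le_mul_of_nonneg_left h2 (by positivity)
      linarith
    have b2 : |Z - 1| ≤ ‖v‖ * I1 := by
      have h0 : Z - 1 = Ax x 1 G (fun z => Real.exp (Te v z) - 1) 0 := by
        have h3 : (fun z => Real.exp (Te v z) - 1) = fun z => Real.exp (Te v z) + (-1) := by
          funext z; ring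
        rw [h3, Ax_add hG hB eeT (EG.const _), Ax_const hG hB]
        ring
      rw [h0]
      refine (habs _ (eeT.sub (EG.const 1))).trans ?_
      have h1 : Ax x 1 G (fun z => |Real.exp (Te v z) - 1|) 0 ≤
          Ax x 1 G (fun z => ‖v‖ * (ta κ z * Real.exp (ta κ z))) 0 :=
        Ax_mono hG hB (eeT.sub (EG.const 1)).abs (g1.const_mul _) hT1' x 1 0
      rw [Ax_const_mul] at h1
      have h2 := Ax_le_U hG hB g1 n1 x
      have h3 := mul_le_mul_of_nonneg_left h2 (norm_nonneg v)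
      linarith
    have b3 : |Ax x 1 G (fun z => (φ z - R) * (Real.exp (Te v z) - 1 - Te v z)) 0| ≤
        2 * M * (‖v‖ ^ 2 * I2) := by
      have e3 : EG fun z => Real.exp (Te v z) - 1 - Te v z := (eeT.sub (EG.const 1)).sub eT
      refine (habs _ (hφR.mul e3)).trans ?_
      have h1 : Ax x 1 G (fun z => |(φ z - R) * (Real.exp (Te v z) - 1 - Te v z)|) 0 ≤
          Ax x 1 G (fun z => (2 * M * ‖v‖ ^ 2) * (ta κ z ^ 2 * Real.exp (ta κ z))) 0 :=
        Ax_mono hG hB (hφR.mul e3).abs (g2.const_mul _) (fun z => by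
          rw [abs_mul, mul_assoc]
          exact mul_le_mul (hφRb z) (hT2 z) (abs_nonneg _) (by positivity)) x 1 0
      rw [Ax_const_mul] at h1
      have h2 := Ax_le_U hG hB g2 n2 x
      have h3 : (2 * M * ‖v‖ ^ 2) * Ax x 1 G (fun z => ta κ z ^ 2 * Real.exp (ta κ z)) 0 ≤
          (2 * M * ‖v‖ ^ 2) * I2 := mul_le_mul_of_nonneg_left h2 (by positivity)
      linarith
    -- algebra
    set P1 := Ax x 1 G (fun z => (φ z - R) * Te v z) 0 with hP1
    set P2 := Ax x 1 G (fun z => (φ z - R) * (Real.exp (Te v z) - 1 - Te v z)) 0 with hP2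
    have hsum : Ax x 1 G (fun z => (φ z - R) * Real.exp (Te v z)) 0 = P2 + P1 := by
      have e3 : EG fun z => Real.exp (Te v z) - 1 - Te v z := (eeT.sub (EG.const 1)).sub eT
      have h1 : (fun z => (φ z - R) * Real.exp (Te v z)) = fun z =>
          (φ z - R) * (Real.exp (Te v z) - 1 - Te v z) + ((φ z - R) * Te v z + (φ z - R)) := by
        funext z; ring
      have h2 : Ax x 1 G (fun z => φ z - R) 0 = 0 := by
        have h3 : (fun z => φ z - R) = fun z => φ z + (-R) := by funext z; ring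
        rw [h3, Ax_add hG hB hE (EG.const _), Ax_const hG hB]
        ring
      rw [h1, Ax_add hG hB (hφR.mul e3) ((hφR.mul eT).add hφR), Ax_add hG hB (hφR.mul eT) hφR, h2]
      ring
    rw [hdiff, hsum]
    have e4 : (P2 + P1) / Z - P1 = (P2 - P1 * (Z - 1)) / Z := by
      field_simp
      ring
    rw [e4, abs_div, abs_of_pos hZpos, div_le_iff₀ hZpos]
    have h5 : |P2 - P1 * (Z - 1)| ≤ 2 * M * (I2 + I1 ^ 2) * ‖v‖ ^ 2 := by
      refine (abs_sub _ _).trans ?_
      rw [abs_mul]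
      have h6 : |P1| * |Z - 1| ≤ (2 * M * (‖v‖ * I1)) * (‖v‖ * I1) :=
        mul_le_mul b1 b2 (abs_nonneg _) (by positivity)
      nlinarith [b3, h6]
    refine h5.trans ?_
    have h7 : 2 * M * (I2 + I1 ^ 2) * ‖v‖ ^ 2 =
        2 * M * (I2 + I1 ^ 2) / c1 * ‖v‖ ^ 2 * c1 := by field_simp
    rw [h7]
    have h8 : 2 * M * (I2 + I1 ^ 2) / c1 * ‖v‖ ^ 2 * c1 ≤
        2 * M * (I2 + I1 ^ 2) / c1 * ‖v‖ ^ 2 * Z :=
      mul_le_mul_of_nonneg_left hZc (by positivity)
    refine h8.trans (mul_le_mul_of_nonneg_right ?_ hZpos.le)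
    refine mul_le_mul_of_nonneg_right ?_ (by positivity)
    have : 0 ≤ 2 * M + Fintype.card κ * (2 * M * K) := by positivity
    linarith
  · -- large `v`
    rw [not_le] at hv
    have b1 : |Ax x 1 G (fun z => φ z * Real.exp (Te v z)) 0 / Z| ≤ M := by
      rw [abs_div, abs_of_pos hZpos, div_le_iff₀ hZpos]
      refine (habs _ (hE.mul (eg_exp_Te v))).trans ?_
      rw [hZ, ← Ax_const_mul]
      refine Ax_mono hG hB (hE.mul (eg_exp_Te v)).abs ((eg_exp_Te v).const_mul _) (fun z => ?_)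
        x 1 0
      rw [abs_mul, abs_of_pos (Real.exp_pos _)]
      exact mul_le_mul_of_nonneg_right (hφ z) (Real.exp_pos _).le
    have b2 : |∑ e, (Ax x 1 G (fun z => φ z * z e) 0 - R * Ax x 1 G (fun z => z e) 0) * v e| ≤
        Fintype.card κ * (2 * M * K * ‖v‖) := by
      refine abs_sum_le (by positivity) fun e => ?_
      rw [hcoord]
      refine (habs _ (hφR.mul (EG.coord e))).trans ?_
      have h1 : Ax x 1 G (fun z => |(φ z - R) * z e|) 0 ≤
          Ax x 1 G (fun z => (2 * M) * ‖z‖) 0 :=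
        Ax_mono hG hB (hφR.mul (EG.coord e)).abs (eg_norm.const_mul _) (fun z => by
          rw [abs_mul]
          have := norm_le_pi_norm z e
          rw [Real.norm_eq_abs] at this
          exact mul_le_mul (hφRb z) this (abs_nonneg _) (by positivity)) x 1 0
      rw [Ax_const_mul] at h1
      have h2 := Ax_le_U hG hB eg_norm (fun z : κ → ℝ => norm_nonneg z) x
      have h3 := mul_le_mul_of_nonneg_left h2 (show 0 ≤ 2 * M by positivity)
      linarith
    rw [← hlin]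
    have h6 : |Ax x 1 G (fun z => φ z * Real.exp (Te v z)) 0 / Z - R -
        ∑ e, (Ax x 1 G (fun z => φ z * z e) 0 - R * Ax x 1 G (fun z => z e) 0) * v e| ≤
        M + M + Fintype.card κ * (2 * M * K * ‖v‖) := by
      refine (abs_sub _ _).trans (add_le_add ?_ b2)
      exact (abs_sub _ _).trans (add_le_add b1 hRb)
    refine h6.trans ?_
    have h7 : (1 : ℝ) ≤ ‖v‖ ^ 2 := by nlinarith
    have h8 : ‖v‖ ≤ ‖v‖ ^ 2 := by nlinarith
    have h9 : 0 ≤ 2 * M * (I2 + I1 ^ 2) / c1 * ‖v‖ ^ 2 := by positivity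
    have h10 : (Fintype.card κ : ℝ) * (2 * M * K * ‖v‖) ≤
        Fintype.card κ * (2 * M * K * ‖v‖ ^ 2) := by gcongr
    nlinarith [h9, h10, mul_le_mul_of_nonneg_left h7 hM]

end Vale.Agent.P146.H159
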