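import Vale.Agent.P146.H159.Low3
import Vale.Agent.P146.H645.CSys

/-!
`c11_Ax`: tilted averages of bounded functions are `C11`; the matrix `S.A s` of a position system
is `C11` with the gradient `S.DA s` for `s < 1`; products, compositions.
-/

open MeasureTheory ProbabilityTheory

namespace Vale.Agent.P146.H159

open Vale.Agent.P157.Lv Vale.Agent.P146.H425 Vale.Agent.P146.H785

set_option linter.unusedSectionVars false

variable {κ : Type} [Fintype κ] {F G φ ψ R : (κ → ℝ) → ℝ} {D E DR ER : κ → (κ → ℝ) → ℝ}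
  {B L B' L' x b M : ℝ}

lemma lipB_shift (h : LipB F B) (hB : 0 ≤ B) (y : κ → ℝ) (b : ℝ) :
    LipB (fun z => F (y + b • z)) (B * |b|) := by
  intro z w
  have e0 : y + b • (z + w) = (y + b • z) + b • w := by rw [smul_add, add_assoc]
  have := h (y + b • z) (b • w)
  rw [norm_smul, Real.norm_eq_abs, ← mul_assoc] at this
  simp only
  rw [e0]
  exact this

lemma Ax_eq_one (x b : ℝ) (F φ : (κ → ℝ) → ℝ) (y : κ → ℝ) :
    Ax x b F φ y = Ax x 1 (fun z => F (y + b • z)) (fun z => φ (y + b • z)) 0 := by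
  rw [Ax_one]
  rfl

/-- The gradient of the tilted average over a nondegenerate layer. -/
noncomputable def gA (x b : ℝ) (F φ : (κ → ℝ) → ℝ) (e : κ) (y : κ → ℝ) : ℝ :=
  (b ^ 2)⁻¹ * (Ax x b F (fun u => φ u * u e) y - Ax x b F φ y * Ax x b F (fun u => u e) y)

lemma gA_eq (hF : LipB F B) (hB : 0 ≤ B) (hφ : EG φ) (hb : 0 < b) (x : ℝ) (e : κ)
    (y : κ → ℝ) : gA x b F φ e y = b⁻¹ *
      (Ax x 1 (fun z => F (y + b • z)) (fun z => φ (y + b • z) * z e) 0 -
        Ax x 1 (fun z => F (y + b • z)) (fun z => φ (y + b • z)) 0 *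
          Ax x 1 (fun z => F (y + b • z)) (fun z => z e) 0) := by
  have hG := lipB_shift hF hB y b
  have hB1 : 0 ≤ B * |b| := by positivity
  have hφ' : EG fun z => φ (y + b • z) := EG.add_smul hφ y b
  unfold gA
  rw [Ax_eq_one x b F (fun u => φ u * u e), Ax_eq_one x b F φ, Ax_eq_one x b F fun u => u e]
  have e1 : (fun z : κ → ℝ => φ (y + b • z) * (y + b • z) e) = fun z =>
      y e * φ (y + b • z) + b * (φ (y + b • z) * z e) := by
    funext z
    rw [Pi.add_apply, Pi.smul_apply, smul_eq_mul]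
    ring
  have e2 : (fun z : κ → ℝ => (y + b • z) e) = fun z => y e + b * z e := by
    funext z
    rw [Pi.add_apply, Pi.smul_apply, smul_eq_mul]
  rw [e1, e2, Ax_add hG hB1 (hφ'.const_mul _) ((hφ'.mul (EG.coord e)).const_mul _),
    Ax_const_mul, Ax_const_mul, Ax_add hG hB1 (EG.const _) ((EG.coord e).const_mul _),
    Ax_const hG hB1, Ax_const_mul]
  field_simp
  ring

/-- **Tilted averages of bounded functions are `C11`.** -/
theorem c11_Ax (hF : LipB F B) (hB : 0 ≤ B) (hb : 0 < b) (x : ℝ) (hM : 0 ≤ M) :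
    ∃ B' L' : ℝ, ∀ φ : (κ → ℝ) → ℝ, Measurable φ → (∀ z, |φ z| ≤ M) →
      C11 (Ax x b F φ) (gA x b F φ) B' L' := by
  have hB1 : 0 ≤ B * |b| := by positivity
  obtain ⟨C, hC, hq⟩ := quad_core (κ := κ) (B := B * |b|) hB1 x hM
  set K := Uu (κ := κ) (|x| * (B * |b|)) (fun z => ‖z‖) with hK
  have hK0 : 0 ≤ K := by
    rw [hK]; unfold Uu
    exact div_nonneg (integral_nonneg fun z => mul_nonneg (Real.exp_pos _).le (norm_nonneg z))
      (int_exp_norm_pos _).le
  set B0 := b⁻¹ * (2 * M * K) with hB0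
  have hB00 : 0 ≤ B0 := by positivity
  set L0 := C * (b⁻¹) ^ 2 with hL0
  have hL00 : 0 ≤ L0 := by positivity
  refine ⟨Fintype.card κ * B0 + L0 + 2 * M + B0, L0, fun φ hφm hφ => ?_⟩
  have hE : EG φ := EG.of_bdd hφm hφ
  have hbd : ∀ e y, |gA x b F φ e y| ≤ B0 := by
    intro e y
    have hG := lipB_shift hF hB y b
    have hφ' : EG fun z => φ (y + b • z) := EG.add_smul hE y b
    rw [gA_eq hF hB hE hb, abs_mul, abs_of_pos (by positivity : 0 < b⁻¹)]
    refine mul_le_mul_of_nonneg_left ?_ (by positivity)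
    set Gy : (κ → ℝ) → ℝ := fun z => F (y + b • z) with hGy
    set R := Ax x 1 Gy (fun z => φ (y + b • z)) 0 with hR
    have hRb : |R| ≤ M := Ax_abs_le hG hB1 hφ'.meas (fun z => hφ _) x 1 0
    have hcoord : Ax x 1 Gy (fun z => φ (y + b • z) * z e) 0 - R * Ax x 1 Gy (fun z => z e) 0 =
        Ax x 1 Gy (fun z => (φ (y + b • z) - R) * z e) 0 := by
      have h1 : (fun z : κ → ℝ => (φ (y + b • z) - R) * z e) = fun z =>
          φ (y + b • z) * z e + (-R) * z e := by
        funext z; ring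
      rw [h1, Ax_add hG hB1 (hφ'.mul (EG.coord e)) ((EG.coord e).const_mul _), Ax_const_mul]
      ring
    rw [hcoord]
    have hφR : EG fun z => φ (y + b • z) - R := hφ'.sub (EG.const R)
    have hφRb : ∀ z, |φ (y + b • z) - R| ≤ 2 * M := fun z => by
      have := abs_sub (φ (y + b • z)) R
      linarith [hφ (y + b • z)]
    have hle : ∀ z : κ → ℝ, |(φ (y + b • z) - R) * z e| ≤ 2 * M * ‖z‖ := fun z => by
      rw [abs_mul]
      have := norm_le_pi_norm z e
      rw [Real.norm_eq_abs] at this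
      exact mul_le_mul (hφRb z) this (abs_nonneg _) (by positivity)
    have h2 := Ax_le_U hG hB1 eg_norm (fun z : κ → ℝ => norm_nonneg z) x
    have h3 : Ax x 1 Gy (fun z => 2 * M * ‖z‖) 0 ≤ 2 * M * K := by
      rw [Ax_const_mul]
      exact mul_le_mul_of_nonneg_left h2 (by positivity)
    rw [abs_le]
    constructor
    · have h4 := Ax_mono hG hB1 ((eg_norm (κ := κ)).const_mul (-(2 * M)))
        (hφR.mul (EG.coord e)) (fun z => by
          have := (abs_le.1 (hle z)).1
          linarith) x 1 0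
      rw [Ax_const_mul] at h4
      rw [Ax_const_mul] at h3
      linarith
    · exact (Ax_mono hG hB1 (hφR.mul (EG.coord e)) ((eg_norm (κ := κ)).const_mul (2 * M))
        (fun z => (le_abs_self _).trans (hle z)) x 1 0).trans h3
  have hquad : ∀ y w, |Ax x b F φ (y + w) - Ax x b F φ y - ∑ e, gA x b F φ e y * w e| ≤
      L0 * ‖w‖ ^ 2 := by
    intro y w
    have hG := lipB_shift hF hB y b
    have h1 := hq (fun z => F (y + b • z)) (fun z => φ (y + b • z)) hG
      (EG.add_smul hE y b).meas (fun z => hφ _) (b⁻¹ • w)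
    have e1 : Ax x b F φ (y + w) =
        Ax x 1 (fun z => F (y + b • z)) (fun z => φ (y + b • z) *
          Real.exp (Te (b⁻¹ • w) z)) 0 /
        Ax x 1 (fun z => F (y + b • z)) (fun z => Real.exp (Te (b⁻¹ • w) z)) 0 := by
      rw [Ax_shift x hb, Ax_one, Ax_one]
      have hp := hF.pos hB y b x
      rw [div_div_div_cancel_right₀ hp.ne']
    rw [e1, Ax_eq_one x b F φ y]
    have e2 : ∑ e, gA x b F φ e y * w e =
        ∑ e, (Ax x 1 (fun z => F (y + b • z)) (fun z => φ (y + b • z) * z e) 0 -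
          Ax x 1 (fun z => F (y + b • z)) (fun z => φ (y + b • z)) 0 *
            Ax x 1 (fun z => F (y + b • z)) (fun z => z e) 0) * (b⁻¹ • w) e := by
      refine Finset.sum_congr rfl fun e _ => ?_
      rw [gA_eq hF hB hE hb, Pi.smul_apply, smul_eq_mul]
      ring
    rw [e2]
    refine h1.trans (le_of_eq ?_)
    rw [norm_smul, Real.norm_eq_abs, abs_of_pos (by positivity : 0 < b⁻¹), mul_pow, hL0]
    ring
  have hR : ∀ y, |Ax x b F φ y| ≤ M := fun y => Ax_abs_le hF hB hφm hφ x b y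
  refine ⟨by positivity, hL00, fun y w => ?_, fun e => ?_, fun e y => ?_, hquad⟩
  · have hw0 := norm_nonneg w
    by_cases hw : ‖w‖ ≤ 1
    · have h1 := hquad y w
      have h2 : |∑ e, gA x b F φ e y * w e| ≤ Fintype.card κ * (B0 * ‖w‖) :=
        abs_sum_le hB00 fun e => hbd e y
      have h3 : |Ax x b F φ (y + w) - Ax x b F φ y| ≤
          L0 * ‖w‖ ^ 2 + Fintype.card κ * (B0 * ‖w‖) := by
        have e : Ax x b F φ (y + w) - Ax x b F φ y =
          (Ax x b F φ (y + w) - Ax x b F φ y - ∑ e, gA x b F φ e y * w e) +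
            ∑ e, gA x b F φ e y * w e := by ring
        rw [e]
        exact (abs_add_le _ _).trans (add_le_add h1 h2)
      refine h3.trans ?_
      have h4 : ‖w‖ ^ 2 ≤ ‖w‖ := by nlinarith
      have h5 := mul_le_mul_of_nonneg_left h4 hL00
      have h6 : 0 ≤ (2 * M + B0) * ‖w‖ := by positivity
      nlinarith
    · rw [not_le] at hw
      have h1 := (abs_sub (Ax x b F φ (y + w)) (Ax x b F φ y)).trans
        (add_le_add (hR _) (hR _))
      refine h1.trans ?_
      have h6 : 0 ≤ (Fintype.card κ * B0 + L0 + B0) * ‖w‖ := by positivity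
      nlinarith [mul_le_mul_of_nonneg_left hw.le hM]
  · unfold gA
    exact ((Ax_meas hF hB (hE.mul (EG.coord e)) x b).sub ((Ax_meas hF hB hE x b).mul
      (Ax_meas hF hB (EG.coord e) x b))).const_mul _
  · refine (hbd e y).trans ?_
    have : 0 ≤ Fintype.card κ * B0 + L0 + 2 * M := by positivity
    linarith

/-! ### uniqueness of the gradient -/

lemma lf_inj [DecidableEq κ] {a c : κ → ℝ} (h : lf a = lf c) : a = c := by
  funext i
  have h1 := congrArg (fun l => l (Pi.single i (1 : ℝ))) h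
  simp only [lf_apply] at h1
  simpa [Pi.single_apply, Finset.sum_ite_eq'] using h1

lemma c11_of_fd [DecidableEq κ] (h : C11 R DR B L)
    (hd : ∀ y, HasFDerivAt R (lf fun e => ER e y) y) : C11 R ER B L := by
  have e : DR = ER := by
    funext e y
    have := (C11.hasFDerivAt h y).unique (hd y)
    exact congrFun (lf_inj this) e
  rw [← e]
  exact h

lemma c11_zero : C11 (fun _ : κ → ℝ => (0 : ℝ)) (fun _ _ => 0) 0 0 :=
  ⟨le_rfl, le_rfl, fun y w => by simp, fun e => measurable_const, fun e y => by simp,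
    fun y w => by simp⟩

lemma c11_const (c : ℝ) : C11 (fun _ : κ → ℝ => c) (fun _ _ => 0) 0 0 :=
  ⟨le_rfl, le_rfl, fun y w => by simp, fun e => measurable_const, fun e y => by simp,
    fun y w => by simp⟩

lemma c11_congr (h : C11 R DR B L) (h1 : ∀ y, F y = R y) (h2 : ∀ e y, D e y = DR e y) :
    C11 F D B L := by
  have e1 : F = R := funext h1
  have e2 : D = DR := by funext e y; exact h2 e y
  rw [e1, e2]
  exact h

lemma c11_sum {ι : Type*} (s : Finset ι) {f : ι → (κ → ℝ) → ℝ} {f' : ι → κ → (κ → ℝ) → ℝ}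
    (hf : ∀ i ∈ s, ∃ B L : ℝ, C11 (f i) (f' i) B L) :
    ∃ B L : ℝ, C11 (fun z => ∑ i ∈ s, f i z) (fun e z => ∑ i ∈ s, f' i e z) B L := by
  classical
  induction s using Finset.induction_on with
  | empty => exact ⟨0, 0, by simpa using c11_zero⟩
  | insert a t ha ih =>
    obtain ⟨B1, L1, h1⟩ := hf a (Finset.mem_insert_self _ _)
    obtain ⟨B2, L2, h2⟩ := ih fun i hi => hf i (Finset.mem_insert_of_mem hi)
    refine ⟨B1 + B2, L1 + L2, c11_congr (c11_add h1 h2) (fun y => ?_) fun e y => ?_⟩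
    · rw [Finset.sum_insert ha]
    · rw [Finset.sum_insert ha]

/-- A remainder that is quadratic near `0` and a bounded function: the quadratic bound is global.
Products of bounded `C11` functions. -/
lemma c11_prod {MF MG : ℝ} (hF : C11 F D B L) (hG : C11 G E B' L') (h1 : ∀ z, |F z| ≤ MF)
    (h2 : ∀ z, |G z| ≤ MG) : C11 (fun z => F z * G z) (fun e z => F z * E e z + D e z * G z)
      (MF * B' + B * MG) (MF * L' + L * MG + B * B') := by
  have hMF : 0 ≤ MF := (abs_nonneg _).trans (h1 0)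
  have hMG : 0 ≤ MG := (abs_nonneg _).trans (h2 0)
  have hB := hF.B0
  have hB' := hG.B0
  have hL := hF.L0
  have hL' := hG.L0
  have m1 : Measurable F := (hF.lip.lip hF.B0).measurable
  have m2 : Measurable G := (hG.lip.lip hG.B0).measurable
  refine ⟨by positivity, by positivity, fun y w => ?_, fun e => ?_, fun e y => ?_, fun y w => ?_⟩
  · have e : F (y + w) * G (y + w) - F y * G y =
        F (y + w) * (G (y + w) - G y) + (F (y + w) - F y) * G y := by ring
    rw [e]
    refine (abs_add_le _ _).trans ?_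
    rw [abs_mul, abs_mul, add_mul]
    refine add_le_add ?_ ?_
    · rw [mul_assoc]
      exact mul_le_mul (h1 _) (hG.lip y w) (abs_nonneg _) hMF
    · calc |F (y + w) - F y| * |G y| ≤ (B * ‖w‖) * MG :=
            mul_le_mul (hF.lip y w) (h2 _) (abs_nonneg _) (by positivity)
        _ = B * MG * ‖w‖ := by ring
  · exact (m1.mul (hG.meas e)).add ((hF.meas e).mul m2)
  · refine (abs_add_le _ _).trans ?_
    rw [abs_mul, abs_mul]
    exact add_le_add (mul_le_mul (h1 _) (hG.bd e y) (abs_nonneg _) hMF)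
      (mul_le_mul (hF.bd e y) (h2 _) (abs_nonneg _) hB)
  · have e1 : ∑ e, (F y * E e y + D e y * G y) * w e =
        F y * ∑ e, E e y * w e + (∑ e, D e y * w e) * G y := by
      rw [Finset.mul_sum, Finset.sum_mul, ← Finset.sum_add_distrib]
      exact Finset.sum_congr rfl fun e _ => by ring
    rw [e1]
    have e2 : F (y + w) * G (y + w) - F y * G y -
        (F y * ∑ e, E e y * w e + (∑ e, D e y * w e) * G y) =
        F y * (G (y + w) - G y - ∑ e, E e y * w e) +
          (F (y + w) - F y - ∑ e, D e y * w e) * G y +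
          (F (y + w) - F y) * (G (y + w) - G y) := by ring
    rw [e2]
    refine (abs_add_le _ _).trans ?_
    have a1 : |F y * (G (y + w) - G y - ∑ e, E e y * w e)| ≤ MF * (L' * ‖w‖ ^ 2) := by
      rw [abs_mul]
      exact mul_le_mul (h1 _) (hG.quad y w) (abs_nonneg _) hMF
    have a2 : |(F (y + w) - F y - ∑ e, D e y * w e) * G y| ≤ (L * ‖w‖ ^ 2) * MG := by
      rw [abs_mul]
      exact mul_le_mul (hF.quad y w) (h2 _) (abs_nonneg _) (by positivity)
    have a3 : |(F (y + w) - F y) * (G (y + w) - G y)| ≤ (B * ‖w‖) * (B' * ‖w‖) := by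
      rw [abs_mul]
      exact mul_le_mul (hF.lip y w) (hG.lip y w) (abs_nonneg _) (by positivity)
    have a4 := (abs_add_le (F y * (G (y + w) - G y - ∑ e, E e y * w e))
      ((F (y + w) - F y - ∑ e, D e y * w e) * G y))
    nlinarith

/-- Composition with a function of one variable with bounded first and second derivatives. -/
lemma c11_comp {g g' : ℝ → ℝ} {I : Set ℝ} {M1 M2 : ℝ} (hF : C11 F D B L)
    (hI : ∀ z, F z ∈ I) (hm : Measurable g')
    (hg1 : ∀ t ∈ I, |g' t| ≤ M1) (hg2 : ∀ s ∈ I, ∀ t ∈ I, |g t - g s - g' s * (t - s)| ≤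
      M2 * (t - s) ^ 2) (hg3 : ∀ s ∈ I, ∀ t ∈ I, |g t - g s| ≤ M1 * |t - s|) (hM2 : 0 ≤ M2) :
    C11 (fun z => g (F z)) (fun e z => g' (F z) * D e z) (M1 * B) (M1 * L + M2 * B ^ 2) := by
  have hM1 : 0 ≤ M1 := (abs_nonneg _).trans (hg1 _ (hI 0))
  have hB := hF.B0
  have hL := hF.L0
  have m1 : Measurable F := (hF.lip.lip hF.B0).measurable
  refine ⟨by positivity, by positivity, fun y w => ?_, fun e => ?_, fun e y => ?_, fun y w => ?_⟩
  · refine (hg3 _ (hI y) _ (hI (y + w))).trans ?_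
    rw [mul_assoc]
    exact mul_le_mul_of_nonneg_left (hF.lip y w) hM1
  · exact (hm.comp m1).mul (hF.meas e)
  · rw [abs_mul]
    exact mul_le_mul (hg1 _ (hI y)) (hF.bd e y) (abs_nonneg _) hM1
  · have e1 : ∑ e, g' (F y) * D e y * w e = g' (F y) * ∑ e, D e y * w e := by
      rw [Finset.mul_sum]
      exact Finset.sum_congr rfl fun e _ => by ring
    rw [e1]
    have e2 : g (F (y + w)) - g (F y) - g' (F y) * ∑ e, D e y * w e =
        (g (F (y + w)) - g (F y) - g' (F y) * (F (y + w) - F y)) +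
          g' (F y) * (F (y + w) - F y - ∑ e, D e y * w e) := by ring
    rw [e2]
    refine (abs_add_le _ _).trans ?_
    have a1 := hg2 _ (hI y) _ (hI (y + w))
    have a2 : |g' (F y) * (F (y + w) - F y - ∑ e, D e y * w e)| ≤ M1 * (L * ‖w‖ ^ 2) := by
      rw [abs_mul]
      exact mul_le_mul (hg1 _ (hI y)) (hF.quad y w) (abs_nonneg _) hM1
    have a3 : (F (y + w) - F y) ^ 2 ≤ (B * ‖w‖) ^ 2 := by
      rw [← sq_abs]
      exact pow_le_pow_left₀ (abs_nonneg _) (hF.lip y w) 2
    nlinarith [mul_le_mul_of_nonneg_left a3 hM2]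

/-- logarithm of a function bounded below -/
lemma c11_log {ε : ℝ} (hε : 0 < ε) (hF : C11 F D B L) (h0 : ∀ z, ε ≤ F z) :
    C11 (fun z => Real.log (F z)) (fun e z => (F z)⁻¹ * D e z) (ε⁻¹ * B)
      (ε⁻¹ * L + (ε⁻¹) ^ 2 * B ^ 2) := by
  have key : ∀ s ∈ Set.Ici ε, ∀ t ∈ Set.Ici ε, 0 ≤ -(Real.log t - Real.log s - s⁻¹ * (t - s)) ∧
      -(Real.log t - Real.log s - s⁻¹ * (t - s)) ≤ (ε⁻¹) ^ 2 * (t - s) ^ 2 := by
    intro s hs t ht
    have hs0 : 0 < s := hε.trans_le hs
    have ht0 : 0 < t := hε.trans_le ht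
    have h1 : Real.log t - Real.log s ≤ s⁻¹ * (t - s) := by
      have := Real.log_le_sub_one_of_pos (div_pos ht0 hs0)
      rw [Real.log_div ht0.ne' hs0.ne'] at this
      have e : t / s - 1 = s⁻¹ * (t - s) := by field_simp
      linarith
    have h2 : t⁻¹ * (t - s) ≤ Real.log t - Real.log s := by
      have := Real.log_le_sub_one_of_pos (div_pos hs0 ht0)
      rw [Real.log_div hs0.ne' ht0.ne'] at this
      have e : s / t - 1 = -(t⁻¹ * (t - s)) := by field_simp; ring
      linarith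
    refine ⟨by linarith, ?_⟩
    have h3 : s⁻¹ * (t - s) - t⁻¹ * (t - s) ≤ (ε⁻¹) ^ 2 * (t - s) ^ 2 := by
      have e : s⁻¹ * (t - s) - t⁻¹ * (t - s) = (s⁻¹ * t⁻¹) * (t - s) ^ 2 := by
        field_simp
      rw [e]
      refine mul_le_mul_of_nonneg_right ?_ (sq_nonneg _)
      rw [sq]
      exact mul_le_mul (inv_anti₀ hε hs) (inv_anti₀ hε ht) (by positivity) (by positivity)
    linarith
  refine c11_comp (I := Set.Ici ε) hF (fun z => h0 z) measurable_inv (fun t ht => ?_)
    (fun s hs t ht => ?_) (fun s hs t ht => ?_) (by positivity)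
  · have ht0 : 0 < t := hε.trans_le ht
    rw [abs_of_pos (by positivity)]
    exact inv_anti₀ hε ht
  · obtain ⟨h1, h2⟩ := key s hs t ht
    rw [← abs_neg, abs_of_nonneg h1]
    exact h2
  · have hs0 : 0 < s := hε.trans_le hs
    have ht0 : 0 < t := hε.trans_le ht
    have h1 : Real.log t - Real.log s ≤ s⁻¹ * (t - s) := by
      have := Real.log_le_sub_one_of_pos (div_pos ht0 hs0)
      rw [Real.log_div ht0.ne' hs0.ne'] at this
      have e : t / s - 1 = s⁻¹ * (t - s) := by field_simp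
      linarith
    have h2 : t⁻¹ * (t - s) ≤ Real.log t - Real.log s := by
      have := Real.log_le_sub_one_of_pos (div_pos hs0 ht0)
      rw [Real.log_div hs0.ne' ht0.ne'] at this
      have e : s / t - 1 = -(t⁻¹ * (t - s)) := by field_simp; ring
      linarith
    have h3 : |s⁻¹ * (t - s)| ≤ ε⁻¹ * |t - s| := by
      rw [abs_mul, abs_of_pos (by positivity : 0 < s⁻¹)]
      exact mul_le_mul_of_nonneg_right (inv_anti₀ hε hs) (abs_nonneg _)
    have h4 : |t⁻¹ * (t - s)| ≤ ε⁻¹ * |t - s| := by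
      rw [abs_mul, abs_of_pos (by positivity : 0 < t⁻¹)]
      exact mul_le_mul_of_nonneg_right (inv_anti₀ hε ht) (abs_nonneg _)
    rw [abs_le] at h3 h4 ⊢
    exact ⟨h4.1.trans h2, h1.trans h3.2⟩

/-! ### the matrix of a position system -/

section CS

open Vale.Agent.P146.R1S Vale.Agent.P146.R1C Vale.Agent.P146.R1 Vale.Agent.P146.H332 Matrix
  Vale.Agent.P146.H712 Vale.Agent.P146.H816 Vale.Agent.P146.H325

variable {n : ℕ} {k : ℝ} (S : CS n k x)

/-- **The entries of `S.A s` are `C11` with the gradient `S.DA s`.** -/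
theorem c11_A {s : ℝ} (hs : s < 1) (i j : Fin n) :
    ∃ B' L' : ℝ, C11 (fun z => S.A s z i j) (fun e z => S.DA s e z i j) B' L' := by
  have hb : 0 < √(1 - s) := Real.sqrt_pos.2 (by linarith)
  obtain ⟨B', L', h⟩ := c11_Ax (κ := Pair n) S.c11.lip S.c11.B0 hb x S.c11.B0
  have key : ∀ e : Pair n, ∃ B' L' : ℝ,
      C11 (fun z => S.A s z e.1.1 e.1.2) (fun f z => S.DA s f z e.1.1 e.1.2) B' L' := by
    intro e
    have h1 := c11_mul (h (S.D e) (S.c11.meas e) (S.c11.bd e)) k⁻¹
    refine ⟨|k⁻¹| * B', |k⁻¹| * L', c11_of_fd (DR := fun f z => k⁻¹ *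
      gA x (√(1 - s)) S.F (S.D e) f z) (c11_congr h1 (fun z => ?_) fun f z => rfl)
      fun y => S.fd_A s _ _ y⟩
    have h2 := S.dd_eq s e z
    unfold dd DW at h2
    unfold Ax
    rw [h2]
    field_simp [S.k0.ne']
  rcases lt_trichotomy i j with h1 | h1 | h1
  · exact key ⟨(i, j), h1⟩
  · subst h1
    refine ⟨0, 0, c11_congr (c11_const 1) (fun z => S.A_self s z i) fun e z => S.DA_self s e z i⟩
  · obtain ⟨B1, L1, h2⟩ := key ⟨(j, i), h1⟩
    exact ⟨B1, L1, c11_congr h2 (fun z => S.A_comm s z i j) fun e z => S.DA_comm s e z i j⟩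

end CS

end Vale.Agent.P146.H159
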