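import Vale.Agent.P146.H159.Low2
import Vale.Agent.P146.H159.Low4

/-!
The lower side with a penalized weight: `q = (w + ε) g(N / N₀)`, `g` a decreasing logistic function.
Pointwise bounds of the logarithmic gradient, and the inequality `low_main` for this weight.
-/

open MeasureTheory ProbabilityTheory

namespace Vale.Agent.P146.H159

open Vale.Agent.P157.Lv Vale.Agent.P146.H425 Vale.Agent.P146.H785

set_option linter.unusedSectionVars false

/-! ### the logistic function -/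

/-- `log (1 + e^v)` -/
noncomputable def sp (v : ℝ) : ℝ := Real.log (1 + Real.exp v)

/-- its derivative -/
noncomputable def sg (v : ℝ) : ℝ := Real.exp v / (1 + Real.exp v)

lemma sg_nonneg (v : ℝ) : 0 ≤ sg v := by unfold sg; positivity

lemma sg_le (v : ℝ) : sg v ≤ 1 := by
  unfold sg
  rw [div_le_one (by positivity)]
  linarith

lemma sg_meas : Measurable sg := by
  unfold sg
  fun_prop

lemma sp_diff (v d : ℝ) : sp (v + d) - sp v = Real.log (1 - sg v + sg v * Real.exp d) := by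
  unfold sp sg
  have h1 : 0 < 1 + Real.exp v := by positivity
  rw [← Real.log_div (by positivity) h1.ne']
  congr 1
  rw [Real.exp_add]
  field_simp
  ring

lemma sp_low (v d : ℝ) : sg v * d ≤ sp (v + d) - sp v := by
  rw [sp_diff]
  have h0 := sg_nonneg v
  have h1 := sg_le v
  have hpos : 0 < 1 - sg v + sg v * Real.exp d := by
    rcases h1.lt_or_eq with h | h
    · have := mul_nonneg h0 (Real.exp_pos d).le
      linarith
    · rw [h]; have := Real.exp_pos d; linarith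
  rw [Real.le_log_iff_exp_le hpos]
  have h2 := convexOn_exp.2 (Set.mem_univ (0 : ℝ)) (Set.mem_univ d) (by linarith : 0 ≤ 1 - sg v)
    h0 (by ring)
  simp only [smul_eq_mul, mul_zero, zero_add, Real.exp_zero, mul_one] at h2
  exact h2

lemma sp_up (v d : ℝ) : sp (v + d) - sp v ≤ sg v * d + 3 * d ^ 2 := by
  have h0 := sg_nonneg v
  have h1 := sg_le v
  have hpos : 0 < 1 - sg v + sg v * Real.exp d := by
    rcases h1.lt_or_eq with h | h
    · have := mul_nonneg h0 (Real.exp_pos d).le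
      linarith
    · rw [h]; have := Real.exp_pos d; linarith
  rw [sp_diff]
  rcases le_or_gt |d| 1 with hd | hd
  · have h2 := Real.log_le_sub_one_of_pos hpos
    have h3 := exp_le_quad d
    have h4 : Real.exp |d| ≤ 3 := by
      have := Real.exp_le_exp.2 hd
      have h5 := Real.exp_one_lt_d9
      linarith
    have h6 : d ^ 2 * Real.exp |d| ≤ d ^ 2 * 3 := mul_le_mul_of_nonneg_left h4 (sq_nonneg d)
    have h7 : sg v * (Real.exp d - 1) ≤ sg v * (d + d ^ 2 * 3) :=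
      mul_le_mul_of_nonneg_left (by linarith) h0
    have h8 : sg v * (d ^ 2 * 3) ≤ 1 * (d ^ 2 * 3) :=
      mul_le_mul_of_nonneg_right h1 (by positivity)
    nlinarith
  · have h2 : 1 - sg v + sg v * Real.exp d ≤ Real.exp |d| := by
      have h3 : Real.exp d ≤ Real.exp |d| := Real.exp_le_exp.2 (le_abs_self d)
      have h4 : 1 ≤ Real.exp |d| := Real.one_le_exp (abs_nonneg d)
      nlinarith [mul_le_mul_of_nonneg_left h3 h0]
    have h3 := Real.log_le_log hpos h2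
    rw [Real.log_exp] at h3
    have h4 : -(sg v * d) ≤ |d| := by
      have := neg_abs_le d
      nlinarith [abs_nonneg d, le_abs_self d]
    have h5 : |d| ≤ d ^ 2 := by rw [← sq_abs]; nlinarith
    nlinarith [sq_nonneg d]

lemma sp_lip (v d : ℝ) : |sp (v + d) - sp v| ≤ 1 * |d| := by
  rw [one_mul, abs_le]
  have h0 := sg_nonneg v
  have h1 := sg_le v
  constructor
  · have h2 := sp_low v d
    have := neg_abs_le d
    nlinarith [abs_nonneg d, le_abs_self d]
  · have h2 := sp_low (v + d) (-d)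
    rw [add_neg_cancel_right] at h2
    have h3 := sg_nonneg (v + d)
    have h4 := sg_le (v + d)
    nlinarith [abs_nonneg d, le_abs_self d, neg_abs_le d]

variable {κ : Type} [Fintype κ] {F G X w Nf τ ν : (κ → ℝ) → ℝ}
  {D E DX Dw DN : κ → (κ → ℝ) → ℝ} {B L Bw Lw BN LN x x' b h y0 c0 ε δ η lam N0 Mq M0 : ℝ}

lemma c11_sp (hF : C11 F D B L) :
    C11 (fun z => sp (F z)) (fun e z => sg (F z) * D e z) (1 * B) (1 * L + 3 * B ^ 2) := by
  refine c11_comp (I := Set.univ) hF (fun z => Set.mem_univ _) sg_meas (fun t _ => ?_)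
    (fun s _ t _ => ?_) (fun s _ t _ => ?_) (by norm_num)
  · rw [abs_of_nonneg (sg_nonneg t)]
    exact sg_le t
  · have h1 := sp_low s (t - s)
    have h2 := sp_up s (t - s)
    rw [add_sub_cancel] at h1 h2
    rw [abs_le]
    constructor
    · nlinarith [sq_nonneg (t - s)]
    · linarith
  · have h1 := sp_lip s (t - s)
    rwa [add_sub_cancel] at h1

/-! ### the weight -/

/-- `g = 1 / (1 + e^{λ (t - (1 - η))})` -/
noncomputable def gl (lam η t : ℝ) : ℝ := Real.exp (-sp (lam * (t - (1 - η))))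

/-- the logarithm of the weight -/
noncomputable def lq (ε lam η N0 : ℝ) (w Nf : (κ → ℝ) → ℝ) (u : κ → ℝ) : ℝ :=
  Real.log (w u + ε) + -1 * sp (lam * (N0⁻¹ * Nf u + -(1 - η)))

/-- its gradient -/
noncomputable def Dq (ε lam η N0 : ℝ) (w Nf : (κ → ℝ) → ℝ) (Dw DN : κ → (κ → ℝ) → ℝ) (e : κ)
    (u : κ → ℝ) : ℝ :=
  (w u + ε)⁻¹ * Dw e u + -1 * (sg (lam * (N0⁻¹ * Nf u + -(1 - η))) * (lam * (N0⁻¹ * DN e u)))

/-- the weight -/
noncomputable def qq (ε lam η N0 : ℝ) (w Nf : (κ → ℝ) → ℝ) (u : κ → ℝ) : ℝ :=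
  (w u + ε) * gl lam η (Nf u / N0)

lemma exp_lq (hε : 0 < ε) (hw0 : ∀ u, 0 ≤ w u) (u : κ → ℝ) :
    Real.exp (lq ε lam η N0 w Nf u) = qq ε lam η N0 w Nf u := by
  unfold lq qq gl
  have h1 : 0 < w u + ε := by linarith [hw0 u]
  rw [Real.exp_add, Real.exp_log h1]
  congr 2
  have : lam * (N0⁻¹ * Nf u + -(1 - η)) = lam * (Nf u / N0 - (1 - η)) := by
    rw [div_eq_inv_mul]; ring
  rw [this]
  ring

lemma gl_pos (lam η t : ℝ) : 0 < gl lam η t := Real.exp_pos _

lemma gl_eq (lam η t : ℝ) : gl lam η t = 1 / (1 + Real.exp (lam * (t - (1 - η)))) := by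
  unfold gl sp
  rw [Real.exp_neg, Real.exp_log (by positivity), one_div]

lemma gl_le_one (lam η t : ℝ) : gl lam η t ≤ 1 := by
  rw [gl_eq, div_le_one (by positivity)]
  linarith [Real.exp_pos (lam * (t - (1 - η)))]

lemma gl_le_exp (lam η t : ℝ) : gl lam η t ≤ Real.exp (-(lam * (t - (1 - η)))) := by
  rw [gl_eq, Real.exp_neg, one_div]
  exact inv_anti₀ (Real.exp_pos _) (by linarith)

lemma gl_half {t : ℝ} (hlam : 0 ≤ lam) (ht : t ≤ 1 - η) : 1 / 2 ≤ gl lam η t := by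
  rw [gl_eq]
  have : Real.exp (lam * (t - (1 - η))) ≤ 1 := Real.exp_le_one_iff.2 (by nlinarith)
  exact one_div_le_one_div_of_le (by positivity) (by linarith)

lemma t_gl_le {t : ℝ} (hlam : 2 ≤ lam) (hη : 0 ≤ η) (hη1 : η ≤ 1) :
    t * gl lam η t ≤ (1 - η / 2) * gl lam η t + Real.exp (-(lam * η / 2)) := by
  rcases le_or_gt t (1 - η / 2) with h | h
  · have := mul_le_mul_of_nonneg_right h (gl_pos lam η t).le
    have := Real.exp_pos (-(lam * η / 2))
    linarith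
  · have h1 := gl_le_exp lam η t
    have ht : 0 < t := by linarith
    have h2 : t * gl lam η t ≤ t * Real.exp (-(lam * (t - (1 - η)))) :=
      mul_le_mul_of_nonneg_left h1 ht.le
    have h3 : t * Real.exp (-(lam * (t - (1 - η)))) =
        t * Real.exp (-(lam * (t - (1 - η / 2)))) * Real.exp (-(lam * η / 2)) := by
      rw [mul_assoc, ← Real.exp_add]
      congr 2
      ring
    have h4 : t * Real.exp (-(lam * (t - (1 - η / 2)))) ≤ 1 := by
      have h5 := Real.add_one_le_exp (lam * (t - (1 - η / 2)))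
      have h6 : t ≤ Real.exp (lam * (t - (1 - η / 2))) := by
        have h7 : 0 ≤ (lam - 2) * (t - (1 - η / 2)) :=
          mul_nonneg (by linarith) (by linarith)
        nlinarith
      rw [Real.exp_neg]
      rw [← div_eq_mul_inv, div_le_one (Real.exp_pos _)]
      exact h6
    have h8 : t * Real.exp (-(lam * (t - (1 - η / 2)))) * Real.exp (-(lam * η / 2)) ≤
        1 * Real.exp (-(lam * η / 2)) := mul_le_mul_of_nonneg_right h4 (Real.exp_pos _).le
    have h9 : 0 ≤ (1 - η / 2) * gl lam η t := mul_nonneg (by linarith) (gl_pos lam η t).le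
    linarith

lemma t_gl_le_two {t : ℝ} (hlam : 2 ≤ lam) (hη : 0 ≤ η) (hη1 : η ≤ 1) : t * gl lam η t ≤ 2 := by
  have h1 := t_gl_le (t := t) hlam hη hη1
  have h2 := gl_le_one lam η t
  have h3 : (1 - η / 2) * gl lam η t ≤ 1 * 1 :=
    mul_le_mul (by linarith) h2 (gl_pos lam η t).le zero_le_one
  have h4 : Real.exp (-(lam * η / 2)) ≤ 1 := Real.exp_le_one_iff.2 (by nlinarith)
  linarith

lemma c11_lq (hε : 0 < ε) (hw : C11 w Dw Bw Lw) (hw0 : ∀ u, 0 ≤ w u) (hN : C11 Nf DN BN LN) :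
    ∃ B' L' : ℝ, C11 (lq ε lam η N0 w Nf) (Dq ε lam η N0 w Nf Dw DN) B' L' := by
  have h1 := c11_congr (F := fun z => w z + ε) (D := Dw) (c11_add hw (c11_const ε))
    (fun y => rfl) (fun e y => by simp)
  have h2 := c11_log hε h1 (fun z => by linarith [hw0 z])
  have h3 := c11_add (c11_mul hN N0⁻¹) (c11_const (-(1 - η)))
  have h4 := c11_mul h3 lam
  have h5 := c11_mul (c11_sp h4) (-1)
  have h6 := c11_add h2 h5
  refine ⟨_, _, c11_congr h6 (fun y => rfl) fun e y => ?_⟩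
  unfold Dq
  simp only [add_zero]

/-- **The pointwise bound of the weighted squared gradient.** -/
lemma sum_bd (hε : 0 < ε) (hδ : 0 < δ) (hN0 : 0 < N0) (hlam : 2 ≤ lam) (hη : 0 ≤ η) (hη1 : η ≤ 1)
    (hc0 : 0 ≤ c0) (u : κ → ℝ) (hw0 : 0 ≤ w u) (hNf : 0 ≤ Nf u) (hτ0 : 0 ≤ τ u) (hν0 : 0 ≤ ν u)
    (hτ : ∑ e, Dw e u ^ 2 ≤ 4 * w u * τ u) (hν : ∑ e, DN e u ^ 2 ≤ 4 * Nf u * ν u)
    (hX : ∑ e, DX e u ^ 2 ≤ c0 * Nf u) :
    qq ε lam η N0 w Nf u * ∑ e, (x * DX e u + Dq ε lam η N0 w Nf Dw DN e u) ^ 2 ≤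
      (1 + δ) * (x ^ 2 * c0 * N0) * ((1 - η / 2) * qq ε lam η N0 w Nf u +
        Real.exp (-(lam * η / 2)) * (w u + ε)) +
      (1 + 1 / δ) * (8 * τ u + 16 * lam ^ 2 / N0 * ((w u + ε) * ν u)) := by
  have hwe : 0 < w u + ε := by linarith
  set g := gl lam η (Nf u / N0) with hg
  have hg0 : 0 < g := gl_pos _ _ _
  have hg1 : g ≤ 1 := gl_le_one _ _ _
  set s := sg (lam * (N0⁻¹ * Nf u + -(1 - η))) with hs
  have hs0 : 0 ≤ s := sg_nonneg _
  have hs1 : s ≤ 1 := sg_le _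
  have hq : qq ε lam η N0 w Nf u = (w u + ε) * g := rfl
  -- splitting
  have h1 : ∀ e, (x * DX e u + Dq ε lam η N0 w Nf Dw DN e u) ^ 2 ≤
      (1 + δ) * (x ^ 2 * DX e u ^ 2) + (1 + 1 / δ) * (2 * ((w u + ε)⁻¹ ^ 2 * Dw e u ^ 2) +
        2 * ((lam * N0⁻¹) ^ 2 * DN e u ^ 2)) := by
    intro e
    unfold Dq
    rw [← hs]
    set a := x * DX e u with ha
    set c := (w u + ε)⁻¹ * Dw e u with hc
    set d := s * (lam * (N0⁻¹ * DN e u)) with hd
    have e1 : (a + (c + -1 * d)) ^ 2 ≤ (1 + δ) * a ^ 2 + (1 + 1 / δ) * (c - d) ^ 2 := by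
      have h2 : 0 ≤ (δ * a - (c - d)) ^ 2 / δ := by positivity
      have h3 : (δ * a - (c - d)) ^ 2 / δ = δ * a ^ 2 - 2 * a * (c - d) + (c - d) ^ 2 / δ := by
        field_simp
        ring
      have h4 : (1 + 1 / δ) * (c - d) ^ 2 = (c - d) ^ 2 + (c - d) ^ 2 / δ := by
        field_simp
      nlinarith
    have e2 : (c - d) ^ 2 ≤ 2 * c ^ 2 + 2 * d ^ 2 := by nlinarith [sq_nonneg (c + d)]
    have e3 : d ^ 2 ≤ (lam * N0⁻¹) ^ 2 * DN e u ^ 2 := by
      have : d ^ 2 = s ^ 2 * ((lam * N0⁻¹) ^ 2 * DN e u ^ 2) := by rw [hd]; ring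
      rw [this]
      have h2 : s ^ 2 ≤ 1 := by nlinarith
      have := mul_le_mul_of_nonneg_right h2 (show 0 ≤ (lam * N0⁻¹) ^ 2 * DN e u ^ 2 by positivity)
      linarith
    have e4 : c ^ 2 = (w u + ε)⁻¹ ^ 2 * Dw e u ^ 2 := by rw [hc]; ring
    have e5 : a ^ 2 = x ^ 2 * DX e u ^ 2 := by rw [ha]; ring
    have hd0 : 0 ≤ 1 + 1 / δ := by positivity
    have e6 := mul_le_mul_of_nonneg_left (e2.trans (add_le_add le_rfl
      (mul_le_mul_of_nonneg_left e3 (by norm_num : (0 : ℝ) ≤ 2)))) hd0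
    rw [e4] at e6
    rw [e5] at e1
    linarith
  have h2 : ∑ e, (x * DX e u + Dq ε lam η N0 w Nf Dw DN e u) ^ 2 ≤
      (1 + δ) * (x ^ 2 * (c0 * Nf u)) + (1 + 1 / δ) * (2 * ((w u + ε)⁻¹ ^ 2 * (4 * w u * τ u)) +
        2 * ((lam * N0⁻¹) ^ 2 * (4 * Nf u * ν u))) := by
    refine (Finset.sum_le_sum fun e _ => h1 e).trans ?_
    rw [Finset.sum_add_distrib, ← Finset.mul_sum, ← Finset.mul_sum, ← Finset.mul_sum,
      Finset.sum_add_distrib, ← Finset.mul_sum, ← Finset.mul_sum, ← Finset.mul_sum,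
      ← Finset.mul_sum]
    gcongr
  have h3 := mul_le_mul_of_nonneg_left h2 (show 0 ≤ qq ε lam η N0 w Nf u by rw [hq]; positivity)
  refine h3.trans ?_
  rw [hq]
  -- the three terms
  have k1 : Nf u * g ≤ N0 * ((1 - η / 2) * g + Real.exp (-(lam * η / 2))) := by
    have := t_gl_le (t := Nf u / N0) hlam hη hη1
    rw [← hg] at this
    have h4 := mul_le_mul_of_nonneg_left this hN0.le
    have e4 : N0 * (Nf u / N0 * g) = Nf u * g := by field_simp
    rw [e4] at h4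
    exact h4
  have k2 : Nf u * g ≤ N0 * 2 := by
    have := t_gl_le_two (t := Nf u / N0) hlam hη hη1
    rw [← hg] at this
    have h4 := mul_le_mul_of_nonneg_left this hN0.le
    have e4 : N0 * (Nf u / N0 * g) = Nf u * g := by field_simp
    rw [e4] at h4
    exact h4
  have a1 : (w u + ε) * g * ((1 + δ) * (x ^ 2 * (c0 * Nf u))) ≤
      (1 + δ) * (x ^ 2 * c0 * N0) * ((1 - η / 2) * ((w u + ε) * g) +
        Real.exp (-(lam * η / 2)) * (w u + ε)) := by
    have h5 : 0 ≤ (1 + δ) * (x ^ 2 * c0) * (w u + ε) := by positivity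
    have h6 := mul_le_mul_of_nonneg_left k1 h5
    refine le_trans (le_of_eq ?_) (h6.trans (le_of_eq ?_)) <;> ring
  have a2 : (w u + ε) * g * (2 * ((w u + ε)⁻¹ ^ 2 * (4 * w u * τ u))) ≤ 8 * τ u := by
    have e5 : (w u + ε) * g * (2 * ((w u + ε)⁻¹ ^ 2 * (4 * w u * τ u))) =
        8 * τ u * (g * (w u / (w u + ε))) := by
      field_simp
      ring
    rw [e5]
    have h5 : g * (w u / (w u + ε)) ≤ 1 * 1 := by
      refine mul_le_mul hg1 ?_ (by positivity) zero_le_one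
      rw [div_le_one hwe]
      linarith
    have := mul_le_mul_of_nonneg_left h5 (show 0 ≤ 8 * τ u by positivity)
    linarith
  have a3 : (w u + ε) * g * (2 * ((lam * N0⁻¹) ^ 2 * (4 * Nf u * ν u))) ≤
      16 * lam ^ 2 / N0 * ((w u + ε) * ν u) := by
    have e5 : (w u + ε) * g * (2 * ((lam * N0⁻¹) ^ 2 * (4 * Nf u * ν u))) =
        8 * lam ^ 2 / N0 ^ 2 * ((w u + ε) * ν u) * (Nf u * g) := by
      field_simp
      ring
    rw [e5]
    have h6 := mul_le_mul_of_nonneg_left k2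
      (show 0 ≤ 8 * lam ^ 2 / N0 ^ 2 * ((w u + ε) * ν u) by positivity)
    refine h6.trans (le_of_eq ?_)
    field_simp
    ring
  have hd0 : 0 ≤ 1 + 1 / δ := by positivity
  have a4 := mul_le_mul_of_nonneg_left (add_le_add a2 a3) hd0
  refine le_trans (le_of_eq ?_) (add_le_add a1 a4)
  ring

/-- `t log (M / t)` is below its tangents. -/
lemma mul_log_le {t M : ℝ} (ht : 0 < t) (hM : 0 < M) (L : ℝ) :
    t * Real.log (M / t) ≤ L * t + M * Real.exp (-L) := by
  have h1 := Real.log_le_sub_one_of_pos (show 0 < M / t * Real.exp (-L) by positivity)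
  rw [Real.log_mul (by positivity) (Real.exp_pos _).ne', Real.log_exp] at h1
  have h2 := mul_le_mul_of_nonneg_left h1 ht.le
  have e : t * (M / t * Real.exp (-L) - 1) = M * Real.exp (-L) - t := by field_simp
  rw [e] at h2
  nlinarith

/-- **The lower side, pointwise in the base position, for the penalized weight.** -/
theorem low_pt (hX : C11 X DX B L) (hw : C11 w Dw Bw Lw) (hN : C11 Nf DN BN LN)
    (hε : 0 < ε) (hδ : 0 < δ) (hN0 : 0 < N0) (hlam : 2 ≤ lam) (hη : 0 ≤ η) (hη1 : η ≤ 1)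
    (hc0 : 0 ≤ c0) (hw0 : ∀ u, 0 ≤ w u) (hNf : ∀ u, 0 ≤ Nf u) (hτ0 : ∀ u, 0 ≤ τ u)
    (hν0 : ∀ u, 0 ≤ ν u) (eτ : EG τ) (eν : EG ν)
    (hτ : ∀ u, ∑ e, Dw e u ^ 2 ≤ 4 * w u * τ u) (hν : ∀ u, ∑ e, DN e u ^ 2 ≤ 4 * Nf u * ν u)
    (hXb : ∀ u, ∑ e, DX e u ^ 2 ≤ c0 * Nf u) (hx' : 0 < x') (hxx : x' < x) (hy : 0 < y0)
    (hyx : y0 ≤ x) (hM0 : 0 < M0) (hM : ∀ u, w u + ε ≤ M0) (Lg b h : ℝ) (y : κ → ℝ) :
    x * x' * (A2 y0 h x b X (qq ε lam η N0 w Nf) y *
      (W y0 h (W x b X) y - W y0 h (W x' b X) y)) ≤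
    (x - x') * (b ^ 2 / 2 * ((1 + δ) * (x ^ 2 * c0 * N0) *
        ((1 - η / 2) * A2 y0 h x b X (qq ε lam η N0 w Nf) y +
          Real.exp (-(lam * η / 2)) * A2 y0 h x b X (fun u => w u + ε) y) +
      (1 + 1 / δ) * (8 * A2 y0 h x b X τ y +
        16 * lam ^ 2 / N0 * A2 y0 h x b X (fun u => (w u + ε) * ν u) y))) +
    x * x' / y0 * (Lg * A2 y0 h x b X (qq ε lam η N0 w Nf) y + M0 * Real.exp (-Lg)) := by
  have hx : 0 < x := hx'.trans hxx
  obtain ⟨B', L', hl⟩ := c11_lq (lam := lam) (η := η) (N0 := N0) hε hw hw0 hN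
  have hU : C11 (W x b X) _ _ _ := hX.W' hx b
  have e0 : (fun u => Real.exp (lq ε lam η N0 w Nf u)) = qq ε lam η N0 w Nf :=
    funext fun u => exp_lq hε hw0 u
  have k := low_main hX hl hx' hxx hy hyx b h y
  have e1 : (fun u => Real.exp (lq ε lam η N0 w Nf u) *
      ∑ e, (x * DX e u + Dq ε lam η N0 w Nf Dw DN e u) ^ 2) = fun u =>
      qq ε lam η N0 w Nf u * ∑ e, (x * DX e u + Dq ε lam η N0 w Nf Dw DN e u) ^ 2 := by
    funext u
    rw [exp_lq hε hw0 u]
  rw [e0, e1] at k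
  -- growth
  have eq : EG (qq ε lam η N0 w Nf) := by
    rw [← e0]
    have := hl.eg_exp 1
    simpa only [one_mul] using this
  have ewe : EG fun u => w u + ε := hw.eg.add (EG.const ε)
  have ewn : EG fun u => (w u + ε) * ν u := ewe.mul eν
  have eDq : ∀ e, EG (Dq ε lam η N0 w Nf Dw DN e) := fun e => hl.eg_D e
  have eS : EG fun u => qq ε lam η N0 w Nf u *
      ∑ e, (x * DX e u + Dq ε lam η N0 w Nf Dw DN e u) ^ 2 :=
    eq.mul (EG.sum _ fun e _ => (((hX.eg_D e).const_mul x).add (eDq e)).pow 2)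
  -- linearity of `A2`
  have Aadd : ∀ {φ ψ : (κ → ℝ) → ℝ}, EG φ → EG ψ → A2 y0 h x b X (fun u => φ u + ψ u) y =
      A2 y0 h x b X φ y + A2 y0 h x b X ψ y := by
    intro φ ψ h1 h2
    unfold A2
    have h3 : Ax x b X (fun u => φ u + ψ u) = fun u => Ax x b X φ u + Ax x b X ψ u :=
      funext fun u => Ax_add hX.lip hX.B0 h1 h2 x b u
    rw [h3, Ax_add hU.lip hU.B0 (R1.eg_Ax hX h1 x b) (R1.eg_Ax hX h2 x b)]
  have Amul : ∀ (c : ℝ) (φ : (κ → ℝ) → ℝ), A2 y0 h x b X (fun u => c * φ u) y =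
      c * A2 y0 h x b X φ y := by
    intro c φ
    unfold A2
    have h3 : Ax x b X (fun u => c * φ u) = fun u => c * Ax x b X φ u :=
      funext fun u => Ax_const_mul c φ x b u
    rw [h3, Ax_const_mul]
  have Amono : ∀ {φ ψ : (κ → ℝ) → ℝ}, EG φ → EG ψ → (∀ u, φ u ≤ ψ u) →
      A2 y0 h x b X φ y ≤ A2 y0 h x b X ψ y := by
    intro φ ψ h1 h2 h3
    unfold A2
    exact Ax_mono hU.lip hU.B0 (R1.eg_Ax hX h1 x b) (R1.eg_Ax hX h2 x b)
      (fun u => Ax_mono hX.lip hX.B0 h1 h2 h3 x b u) y0 h y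
  have e2 : EG fun u => (1 + δ) * (x ^ 2 * c0 * N0) * ((1 - η / 2) * qq ε lam η N0 w Nf u +
      Real.exp (-(lam * η / 2)) * (w u + ε)) :=
    ((eq.const_mul _).add (ewe.const_mul _)).const_mul _
  have e3 : EG fun u => (1 + 1 / δ) * (8 * τ u + 16 * lam ^ 2 / N0 * ((w u + ε) * ν u)) :=
    ((eτ.const_mul 8).add (ewn.const_mul _)).const_mul _
  have k2 := Amono eS (e2.add e3) (fun u => sum_bd (x := x) hε hδ hN0 hlam hη hη1 hc0 u (hw0 u)
    (hNf u) (hτ0 u) (hν0 u) (hτ u) (hν u) (hXb u))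
  rw [Aadd e2 e3, Amul, Aadd (eq.const_mul _) (ewe.const_mul _), Amul, Amul, Amul,
    Aadd (eτ.const_mul 8) (ewn.const_mul _), Amul, Amul] at k2
  -- the entropy
  have hq0 : ∀ u, 0 < qq ε lam η N0 w Nf u := fun u => by
    rw [← exp_lq hε hw0 u]; exact Real.exp_pos _
  have hqM : ∀ u, qq ε lam η N0 w Nf u ≤ M0 := fun u => by
    have h1 : 0 < w u + ε := by linarith [hw0 u]
    unfold qq
    have := mul_le_mul_of_nonneg_left (gl_le_one lam η (Nf u / N0)) h1.le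
    linarith [hM u]
  have hApos : 0 < A2 y0 h x b X (qq ε lam η N0 w Nf) y := by
    unfold A2
    exact Ax_pos hU.lip hU.B0 (R1.eg_Ax hX eq x b)
      (fun u => Ax_pos hX.lip hX.B0 eq hq0 x b u) y0 h y
  have eql : EG fun u => qq ε lam η N0 w Nf u * Real.log (qq ε lam η N0 w Nf u) := by
    have : (fun u => qq ε lam η N0 w Nf u * Real.log (qq ε lam η N0 w Nf u)) = fun u =>
        qq ε lam η N0 w Nf u * lq ε lam η N0 w Nf u := by
      funext u
      rw [← exp_lq hε hw0 u, Real.log_exp]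
    rw [this]
    exact eq.mul hl.eg
  have k3 : Ent2 y0 h x b X (qq ε lam η N0 w Nf) y ≤
      Lg * A2 y0 h x b X (qq ε lam η N0 w Nf) y + M0 * Real.exp (-Lg) := by
    have h1 : A2 y0 h x b X (fun u => qq ε lam η N0 w Nf u *
        Real.log (qq ε lam η N0 w Nf u)) y ≤
        Real.log M0 * A2 y0 h x b X (qq ε lam η N0 w Nf) y := by
      rw [← Amul]
      refine Amono eql (eq.const_mul _) fun u => ?_
      rw [mul_comm]
      exact mul_le_mul_of_nonneg_right (Real.log_le_log (hq0 u) (hqM u)) (hq0 u).le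
    have h2 := mul_log_le hApos hM0 Lg
    rw [Real.log_div hM0.ne' hApos.ne'] at h2
    unfold Ent2
    linarith
  have c1 : 0 ≤ (x - x') * (b ^ 2 / 2) := by
    have : 0 < x - x' := by linarith
    positivity
  have c2 : 0 ≤ x * x' / y0 := by positivity
  have k4 := mul_le_mul_of_nonneg_left k2 c1
  have k5 := mul_le_mul_of_nonneg_left k3 c2
  calc _ ≤ _ := k
    _ ≤ _ := by
      refine add_le_add ?_ k5
      rw [← mul_assoc, ← mul_assoc]
      exact k4

end Vale.Agent.P146.H159
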