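import Vale.Agent.P146.H159.Low5
import Vale.Agent.P146.H946.EnC
import Vale.Agent.P146.H941.HessS
import Vale.Agent.P146.H376.UPa

/-!
The lower side for a position system: the weight `<M, C_t²>`, penalized by `|C_t|²`.
-/

open MeasureTheory ProbabilityTheory

namespace Vale.Agent.P146.H159

open Vale.Agent.P157.Lv Vale.Agent.P146.H425 Vale.Agent.P146.H325 Vale.Agent.P146.H332
  Vale.Agent.P146.H712 Vale.Agent.P146.H816 Vale.Agent.P146.R1 Vale.Agent.P146.R1C Matrix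
  Vale.Agent.P146.R1S Vale.Agent.P146.H655 Vale.Agent.P146.H946.En2
open Vale.Agent.P146.H785 (Ax lf fd_Ax)
open Vale.Agent.P146.H693 (Aw eg_Aw Aw_add Aw_const_mul uu_tw)
open Vale.Agent.P146.H376 (V2 sym_sum)

set_option linter.unusedSectionVars false

/-! ### quadratic forms -/

lemma disc_le {a b c : ℝ} (h : ∀ s : ℝ, 0 ≤ a * (s * s) + b * s + c) : b ^ 2 ≤ 4 * a * c := by
  have := discrim_le_zero h
  unfold discrim at this
  linarith

section alg

variable {n : ℕ} {M : Matrix (Fin n) (Fin n) ℝ}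

lemma psd_cs (hM : Psd M) (a d : Fin n → Fin n → ℝ) (ha : ∀ i j, a i j = a j i)
    (hd : ∀ i j, d i j = d j i) :
    (∑ i, ∑ j, M i j * ∑ l, (d i l * a l j + a i l * d l j)) ^ 2 ≤
      4 * (∑ i, ∑ j, M i j * ∑ l, a i l * a l j) * ∑ i, ∑ j, M i j * ∑ l, d i l * d l j := by
  refine disc_le fun s => ?_
  have h := psd_sum hM (fun i j => d i j + s * a i j) fun i j => by
    rw [ha i j, hd i j]
  have e : ∀ i j, M i j * ∑ l, (d i l + s * a i l) * (d l j + s * a l j) =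
      (M i j * ∑ l, a i l * a l j) * (s * s) +
        (M i j * ∑ l, (d i l * a l j + a i l * d l j)) * s + M i j * ∑ l, d i l * d l j := by
    intro i j
    simp only [Finset.mul_sum, Finset.sum_mul, ← Finset.sum_add_distrib]
    exact Finset.sum_congr rfl fun l _ => by ring
  simp only [e] at h
  simp only [Finset.sum_add_distrib, ← Finset.sum_mul] at h ⊢
  exact h

lemma fr_cs (a d : Fin n → Fin n → ℝ) :
    (∑ i, ∑ j, 2 * (a i j * d i j)) ^ 2 ≤ 4 * (∑ i, ∑ j, a i j ^ 2) * ∑ i, ∑ j, d i j ^ 2 := by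
  refine disc_le fun s => ?_
  have h : 0 ≤ ∑ i, ∑ j, (d i j + s * a i j) ^ 2 :=
    Finset.sum_nonneg fun _ _ => Finset.sum_nonneg fun _ _ => sq_nonneg _
  have e : ∀ i j, (d i j + s * a i j) ^ 2 = a i j ^ 2 * (s * s) + 2 * (a i j * d i j) * s +
      d i j ^ 2 := fun i j => by ring
  simp only [e, Finset.sum_add_distrib, ← Finset.sum_mul] at h
  exact h

end alg

section cs

variable {n : ℕ} {k x : ℝ} (S : CS n k x) {t : ℝ} {M : Matrix (Fin n) (Fin n) ℝ}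

/-- the gradient of `<M, C_t²>` -/
def dqF (S : CS n k x) (t : ℝ) (M : Matrix (Fin n) (Fin n) ℝ) (e : Pair n) (u : Pair n → ℝ) : ℝ :=
  ∑ i, ∑ j, M i j * H693.dA2 S t i j e u

/-- the gradient of `|C_t|²` -/
def dfr (S : CS n k x) (t : ℝ) (e : Pair n) (u : Pair n → ℝ) : ℝ :=
  ∑ i, ∑ j, 2 * (S.A t u i j * S.DA t e u i j)

lemma c11_A2 (ht : t < 1) (i j : Fin n) :
    ∃ B' L' : ℝ, C11 (H693.A2 S t i j) (H693.dA2 S t i j) B' L' := by
  have h : ∀ l ∈ (Finset.univ : Finset (Fin n)), ∃ B' L' : ℝ,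
      C11 (fun u => S.A t u i l * S.A t u l j)
        (fun e u => S.DA t e u i l * S.A t u l j + S.A t u i l * S.DA t e u l j) B' L' := by
    intro l _
    obtain ⟨B1, L1, h1⟩ := c11_A S ht i l
    obtain ⟨B2, L2, h2⟩ := c11_A S ht l j
    exact ⟨_, _, c11_congr (c11_prod h1 h2 (fun z => S.abs_A t z i l) fun z => S.abs_A t z l j)
      (fun y => rfl) fun e y => by ring⟩
  obtain ⟨B', L', h'⟩ := c11_sum Finset.univ h
  exact ⟨B', L', h'⟩

lemma c11_qF (ht : t < 1) (M : Matrix (Fin n) (Fin n) ℝ) :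
    ∃ B' L' : ℝ, C11 (qF S t M) (dqF S t M) B' L' := by
  have h : ∀ i ∈ (Finset.univ : Finset (Fin n)), ∃ B' L' : ℝ,
      C11 (fun u => ∑ j, M i j * H693.A2 S t i j u)
        (fun e u => ∑ j, M i j * H693.dA2 S t i j e u) B' L' := by
    intro i _
    refine c11_sum Finset.univ fun j _ => ?_
    obtain ⟨B1, L1, h1⟩ := c11_A2 S ht i j
    exact ⟨_, _, c11_mul h1 (M i j)⟩
  obtain ⟨B', L', h'⟩ := c11_sum Finset.univ h
  exact ⟨B', L', h'⟩

lemma c11_frA (ht : t < 1) :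
    ∃ B' L' : ℝ, C11 (fun u => fr (S.A t u)) (dfr S t) B' L' := by
  have h : ∀ i ∈ (Finset.univ : Finset (Fin n)), ∃ B' L' : ℝ,
      C11 (fun u => ∑ j, S.A t u i j ^ 2)
        (fun e u => ∑ j, 2 * (S.A t u i j * S.DA t e u i j)) B' L' := by
    intro i _
    refine c11_sum Finset.univ fun j _ => ?_
    obtain ⟨B1, L1, h1⟩ := c11_A S ht i j
    exact ⟨_, _, c11_congr (c11_prod h1 h1 (fun z => S.abs_A t z i j) fun z => S.abs_A t z i j)
      (fun y => by ring) fun e y => by ring⟩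
  obtain ⟨B', L', h'⟩ := c11_sum Finset.univ h
  exact ⟨B', L', h'⟩

lemma sum_dqF (hM : Psd M) (u : Pair n → ℝ) :
    ∑ e, dqF S t M e u ^ 2 ≤ 4 * qF S t M u * En S t M u := by
  have h : ∀ e : Pair n, dqF S t M e u ^ 2 ≤ 4 * qF S t M u *
      ∑ i, ∑ j, M i j * ∑ l, S.DA t e u i l * S.DA t e u l j := fun e =>
    psd_cs hM (fun i j => S.A t u i j) (fun i j => S.DA t e u i j) (S.A_comm t u)
      fun i j => S.DA_comm t e u i j
  refine (Finset.sum_le_sum fun e _ => h e).trans (le_of_eq ?_)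
  rw [← Finset.mul_sum]
  rfl

lemma sum_dfr (u : Pair n → ℝ) :
    ∑ e, dfr S t e u ^ 2 ≤ 4 * fr (S.A t u) * ∑ e : Pair n, fr (S.DA t e u) := by
  have h : ∀ e : Pair n, dfr S t e u ^ 2 ≤ 4 * fr (S.A t u) * fr (S.DA t e u) := fun e =>
    fr_cs (fun i j => S.A t u i j) fun i j => S.DA t e u i j
  refine (Finset.sum_le_sum fun e _ => h e).trans (le_of_eq ?_)
  rw [← Finset.mul_sum]

lemma sum_dd (u : Pair n → ℝ) :
    ∑ e, dd x t S.F S.D e u ^ 2 ≤ k ^ 2 / 2 * fr (S.A t u) := by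
  have h1 := sym_sum (M := fun i j => S.A t u i j) (S.A_comm t u) fun i => S.A_self t u i
  have h2 : ∑ e, dd x t S.F S.D e u ^ 2 = k ^ 2 * ∑ e : Pair n, S.A t u e.1.1 e.1.2 ^ 2 := by
    rw [Finset.mul_sum]
    refine Finset.sum_congr rfl fun e _ => ?_
    rw [S.dd_eq]
    ring
  have h3 : fr (S.A t u) = n + 2 * ∑ e : Pair n, S.A t u e.1.1 e.1.2 ^ 2 := h1
  rw [h2, h3]
  have h4 : (0 : ℝ) ≤ k ^ 2 * n := by positivity
  nlinarith

lemma sDA_nonneg (u : Pair n → ℝ) : 0 ≤ ∑ e : Pair n, fr (S.DA t e u) :=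
  Finset.sum_nonneg fun _ _ => Finset.sum_nonneg fun _ _ => Finset.sum_nonneg fun _ _ =>
    sq_nonneg _

/-- the penalized weight -/
noncomputable def wq (S : CS n k x) (t ε lam η N0 : ℝ) (M : Matrix (Fin n) (Fin n) ℝ)
    (u : Pair n → ℝ) : ℝ := qq ε lam η N0 (qF S t M) (fun u => fr (S.A t u)) u

/-- **The lower side for a position system, pointwise in the base position.** -/
theorem low_cs {bM x' y0 b ε δ η lam N0 : ℝ} (ht : t < 1) (hM : Psd M)
    (hb : ∀ i j, |M i j| ≤ bM) (hbM : 0 ≤ bM) (hε : 0 < ε) (hδ : 0 < δ) (hN0 : 0 < N0)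
    (hlam : 2 ≤ lam)
    (hη : 0 ≤ η) (hη1 : η ≤ 1) (hx' : 0 < x') (hxx : x' < x) (hy : 0 < y0) (hyx : y0 ≤ x)
    (Lg h : ℝ) (z : Pair n → ℝ) :
    x * x' * (A2 y0 h x b (uu x t S.F) (wq S t ε lam η N0 M) z *
      (W y0 h (W x b (uu x t S.F)) z - W y0 h (W x' b (uu x t S.F)) z)) ≤
    (x - x') * (b ^ 2 / 2 * ((1 + δ) * (x ^ 2 * (k ^ 2 / 2) * N0) *
        ((1 - η / 2) * A2 y0 h x b (uu x t S.F) (wq S t ε lam η N0 M) z +
          Real.exp (-(lam * η / 2)) * A2 y0 h x b (uu x t S.F) (fun u => qF S t M u + ε) z) +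
      (1 + 1 / δ) * (8 * A2 y0 h x b (uu x t S.F) (En S t M) z +
        16 * lam ^ 2 / N0 * A2 y0 h x b (uu x t S.F) (fun u => (qF S t M u + ε) *
          ∑ e : Pair n, fr (S.DA t e u)) z))) +
    x * x' / y0 * (Lg * A2 y0 h x b (uu x t S.F) (wq S t ε lam η N0 M) z +
      ((n : ℝ) ^ 3 * bM + ε) * Real.exp (-Lg)) := by
  obtain ⟨Bw, Lw, hw⟩ := c11_qF S ht M
  obtain ⟨BN, LN, hN⟩ := c11_frA S ht
  have hq0 : ∀ u, 0 ≤ qF S t M u := fun u => qF_nonneg hM u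
  refine low_pt (c11_uu S.c11 S.x0 t) hw hN hε hδ hN0 hlam hη hη1 (by positivity)
    hq0 (fun u => frA_nonneg t u) (fun u => En_nonneg hM u) (fun u => sDA_nonneg S u)
    (eg_En t M) (eg_sDA t) (fun u => sum_dqF S hM u) (fun u => sum_dfr S u)
    (fun u => sum_dd S u) hx' hxx hy hyx (by positivity) (fun u => ?_) Lg b h z
  have := (le_abs_self _).trans (abs_qF (S := S) hb t u)
  linarith

end cs

end Vale.Agent.P146.H159
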