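import Vale.Agent.P146.H159.Low6

/-!
The lower side for a position system, integrated over the base.
-/

open MeasureTheory ProbabilityTheory

namespace Vale.Agent.P146.H159

open Vale.Agent.P157.Lv Vale.Agent.P146.H425 Vale.Agent.P146.H325 Vale.Agent.P146.H332
  Vale.Agent.P146.H712 Vale.Agent.P146.H816 Vale.Agent.P146.R1 Vale.Agent.P146.R1C Matrix
  Vale.Agent.P146.R1S Vale.Agent.P146.H655 Vale.Agent.P146.H946.En2
open Vale.Agent.P146.H785 (Ax lf fd_Ax)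
open Vale.Agent.P146.H693 (Aw eg_Aw Aw_add Aw_const_mul uu_tw Pm Tl)

set_option linter.unusedSectionVars false

section gen

variable {κ : Type} [Fintype κ] {F φ ψ X : (κ → ℝ) → ℝ} {D DX : κ → (κ → ℝ) → ℝ}
  {B L x b y0 h : ℝ}

lemma Ax0 (b : ℝ) (F φ : (κ → ℝ) → ℝ) (y : κ → ℝ) :
    Ax 0 b F φ y = ∫ z, φ (y + b • z) ∂(gI κ) := by
  unfold Ax
  simp

lemma eg_Be (hX : C11 X DX B L) (hx : 0 < x) (hφ : EG φ) (y0 h b : ℝ) :
    EG (A2 y0 h x b X φ) := by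
  unfold A2
  exact R1.eg_Ax (hX.W' hx b) (R1.eg_Ax hX hφ x b) y0 h

lemma Be_add (hX : C11 X DX B L) (hx : 0 < x) (hφ : EG φ) (hψ : EG ψ) (y0 h b : ℝ) (y : κ → ℝ) :
    A2 y0 h x b X (fun u => φ u + ψ u) y = A2 y0 h x b X φ y + A2 y0 h x b X ψ y := by
  have hU : C11 (W x b X) _ _ _ := hX.W' hx b
  unfold A2
  have h3 : Ax x b X (fun u => φ u + ψ u) = fun u => Ax x b X φ u + Ax x b X ψ u :=
    funext fun u => H785.Ax_add hX.lip hX.B0 hφ hψ x b u
  rw [h3, H785.Ax_add hU.lip hU.B0 (R1.eg_Ax hX hφ x b) (R1.eg_Ax hX hψ x b)]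

lemma Be_mul (y0 h x b : ℝ) (X : (κ → ℝ) → ℝ) (c : ℝ) (φ : (κ → ℝ) → ℝ) (y : κ → ℝ) :
    A2 y0 h x b X (fun u => c * φ u) y = c * A2 y0 h x b X φ y := by
  unfold A2
  have h3 : Ax x b X (fun u => c * φ u) = fun u => c * Ax x b X φ u :=
    funext fun u => H785.Ax_const_mul c φ x b u
  rw [h3, H785.Ax_const_mul]

lemma Be_const (hX : C11 X DX B L) (hx : 0 < x) (y0 h b c : ℝ) (y : κ → ℝ) :
    A2 y0 h x b X (fun _ => c) y = c := by
  have hU : C11 (W x b X) _ _ _ := hX.W' hx b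
  unfold A2
  have h3 : Ax x b X (fun _ => c) = fun _ => c :=
    funext fun u => H785.Ax_const hX.lip hX.B0 c x b u
  rw [h3, H785.Ax_const hU.lip hU.B0]

lemma Be_sum (hX : C11 X DX B L) (hx : 0 < x) {ι : Type*} (s : Finset ι)
    {φ : ι → (κ → ℝ) → ℝ} (hφ : ∀ i ∈ s, EG (φ i)) (y0 h b : ℝ) (y : κ → ℝ) :
    A2 y0 h x b X (fun u => ∑ i ∈ s, φ i u) y = ∑ i ∈ s, A2 y0 h x b X (φ i) y := by
  classical
  induction s using Finset.induction_on with
  | empty => simpa using Be_const hX hx y0 h b 0 y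
  | insert a t ha ih =>
    rw [Finset.sum_insert ha, ← ih fun i hi => hφ i (Finset.mem_insert_of_mem hi)]
    rw [← Be_add hX hx (hφ a (Finset.mem_insert_self _ _))
      (EG.sum _ fun i hi => hφ i (Finset.mem_insert_of_mem hi))]
    congr 1
    funext u
    rw [Finset.sum_insert ha]

lemma Be_mono (hX : C11 X DX B L) (hx : 0 < x) (hφ : EG φ) (hψ : EG ψ) (h3 : ∀ u, φ u ≤ ψ u)
    (y0 h b : ℝ) (y : κ → ℝ) : A2 y0 h x b X φ y ≤ A2 y0 h x b X ψ y := by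
  have hU : C11 (W x b X) _ _ _ := hX.W' hx b
  unfold A2
  exact H785.Ax_mono hU.lip hU.B0 (R1.eg_Ax hX hφ x b) (R1.eg_Ax hX hψ x b)
    (fun u => H785.Ax_mono hX.lip hX.B0 hφ hψ h3 x b u) y0 h y

lemma int5 {f1 f2 f3 f4 : (κ → ℝ) → ℝ} (h1 : EG f1) (h2 : EG f2) (h3 : EG f3) (h4 : EG f4)
    (c1 c2 c3 c4 c5 : ℝ) :
    ∫ g, (c1 * f1 g + (c2 * f2 g + (c3 * f3 g + (c4 * f4 g + c5)))) ∂(gI κ) =
      c1 * (∫ g, f1 g ∂(gI κ)) + (c2 * (∫ g, f2 g ∂(gI κ)) + (c3 * (∫ g, f3 g ∂(gI κ)) +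
        (c4 * (∫ g, f4 g ∂(gI κ)) + c5))) := by
  have e4 : EG fun g => c4 * f4 g + c5 := (h4.const_mul c4).add (EG.const c5)
  have e3 : EG fun g => c3 * f3 g + (c4 * f4 g + c5) := (h3.const_mul c3).add e4
  have e2 : EG fun g => c2 * f2 g + (c3 * f3 g + (c4 * f4 g + c5)) := (h2.const_mul c2).add e3
  rw [integral_add (h1.const_mul c1).integrable e2.integrable,
    integral_add (h2.const_mul c2).integrable e3.integrable,
    integral_add (h3.const_mul c3).integrable e4.integrable,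
    integral_add (h4.const_mul c4).integrable (EG.const c5).integrable, integral_const_mul,
    integral_const_mul, integral_const_mul, integral_const_mul]
  simp

lemma gl_meas (lam η : ℝ) : Measurable (gl lam η) := by
  unfold gl sp
  fun_prop

end gen

section cs

variable {n : ℕ} {k x : ℝ} (S : CS n k x) {y tw t c : ℝ} {m σ : ℕ → ℝ}
  {M : Matrix (Fin n) (Fin n) ℝ} {φ : (Pair n → ℝ) → ℝ}

/-- **the mean `E_1` of a two-layer law** -/
theorem E1_two (h1 : tw ≤ t) (h2 : t ≤ 1) (hm1 : m 1 = 0) (z : Pair n → ℝ) :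
    E1 S tw m σ 2 t φ z = ∫ g, A2 (m 0) (σ 0) x (√(t - tw)) (uu x t S.F) φ (z + σ 1 • g)
      ∂(gI (Pair n)) := by
  have e1 : W x (√(t - tw)) (uu x t S.F) = uu x tw S.F :=
    (funext fun z => uu_tw S h1 h2 z).symm
  have e0 : E1 S tw m σ 2 t φ z = Ax (m 1) (σ 1) (FD (uu x tw S.F) m σ 1)
    (Ax (m 0) (σ 0) (uu x tw S.F) (Aw S tw t φ)) z := rfl
  rw [e0, hm1, Ax0]
  unfold A2
  rw [e1]
  rfl

/-- the cutoff -/
noncomputable def gc (S : CS n k x) (t lam η N0 : ℝ) (u : Pair n → ℝ) : ℝ :=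
  gl lam η (fr (S.A t u) / N0)

lemma eg_gc (t lam η N0 : ℝ) : EG (gc S t lam η N0) := by
  refine EG.of_bdd (C := 1) ?_ fun u => ?_
  · exact (gl_meas lam η).comp ((H946.En2.eg_frA (S := S) t).meas.div_const _)
  · unfold gc
    rw [abs_of_pos (gl_pos _ _ _)]
    exact gl_le_one _ _ _

lemma wq_eq (t ε lam η N0 : ℝ) (M : Matrix (Fin n) (Fin n) ℝ) (u : Pair n → ℝ) :
    wq S t ε lam η N0 M u = qF S t M u * gc S t lam η N0 u + ε * gc S t lam η N0 u := by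
  unfold wq qq gc
  ring

lemma eg_wq (t ε lam η N0 : ℝ) (M : Matrix (Fin n) (Fin n) ℝ) : EG (wq S t ε lam η N0 M) := by
  have h : wq S t ε lam η N0 M = fun u => qF S t M u * gc S t lam η N0 u +
    ε * gc S t lam η N0 u := funext fun u => wq_eq S t ε lam η N0 M u
  rw [h]
  exact ((eg_qF t M).mul (eg_gc S t lam η N0)).add ((eg_gc S t lam η N0).const_mul ε)

lemma wq_nonneg (hM : Psd M) {ε : ℝ} (hε : 0 ≤ ε) (t lam η N0 : ℝ) (u : Pair n → ℝ) :
    0 ≤ wq S t ε lam η N0 M u :=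
  mul_nonneg (add_nonneg (qF_nonneg hM u) hε) (gl_pos _ _ _).le

/-- the gain of the exponent `x` against `x'` -/
noncomputable def gn (S : CS n k x) (y0 h tw t x' : ℝ) (z : Pair n → ℝ) : ℝ :=
  W y0 h (W x (√(t - tw)) (uu x t S.F)) z - W y0 h (W x' (√(t - tw)) (uu x t S.F)) z

lemma eg_gn {y0 h x' : ℝ} (hy : 0 < y0) (hx' : 0 < x') : EG (gn S y0 h tw t x') :=
  (((c11_uu S.c11 S.x0 t).W' S.x0 _).W' hy h).eg.sub (((c11_uu S.c11 S.x0 t).W' hx' _).W' hy h).eg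

/-- **The lower side, integrated over the layer above the deep position.** -/
theorem low_E1 {bM x' ε δ η lam N0 : ℝ} (h1 : tw ≤ t) (ht : t < 1) (hm0 : m 0 = y)
    (hm1 : m 1 = 0) (hM : Psd M)
    (hb : ∀ i j, |M i j| ≤ bM) (hbM : 0 ≤ bM) (hε : 0 < ε) (hδ : 0 < δ) (hN0 : 0 < N0)
    (hlam : 2 ≤ lam)
    (hη : 0 ≤ η) (hη1 : η ≤ 1) (hx' : 0 < x') (hxx : x' < x) (hy : 0 < y) (hyx : y ≤ x)
    (Lg : ℝ) (z : Pair n → ℝ) :
    x * x' * (∫ g, A2 y (σ 0) x (√(t - tw)) (uu x t S.F) (wq S t ε lam η N0 M) (z + σ 1 • g) *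
      gn S y (σ 0) tw t x' (z + σ 1 • g) ∂(gI (Pair n))) ≤
    ((x - x') * ((t - tw) / 2 * ((1 + δ) * (x ^ 2 * (k ^ 2 / 2) * N0) * (1 - η / 2))) +
      x * x' / y * Lg) * E1 S tw m σ 2 t (wq S t ε lam η N0 M) z +
    ((x - x') * ((t - tw) / 2 * ((1 + δ) * (x ^ 2 * (k ^ 2 / 2) * N0) *
      Real.exp (-(lam * η / 2)))) * (E1 S tw m σ 2 t (qF S t M) z + ε) +
    ((x - x') * ((t - tw) / 2 * ((1 + 1 / δ) * 8)) * E1 S tw m σ 2 t (En S t M) z +
    ((x - x') * ((t - tw) / 2 * ((1 + 1 / δ) * (16 * lam ^ 2 / N0))) *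
      (E1 S tw m σ 2 t (EnT S t M) z +
        ε * E1 S tw m σ 2 t (fun u => ∑ e : Pair n, fr (S.DA t e u)) z) +
    x * x' / y * (((n : ℝ) ^ 3 * bM + ε) * Real.exp (-Lg))))) := by
  have hm : Pm m 2 := fun j hj => by
    have : j = 0 := by omega
    rw [this, hm0]; exact hy
  have hX := c11_uu S.c11 S.x0 t
  have ewq := eg_wq S t ε lam η N0 M
  have ew := (eg_qF (S := S) t M).add (EG.const ε)
  have eE := eg_En (S := S) t M
  have eT := ew.mul (eg_sDA (S := S) t)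
  have p1 : EG (fun z' => A2 y (σ 0) x (√(t - tw)) (uu x t S.F) (wq S t ε lam η N0 M) z' *
      gn S y (σ 0) tw t x' z') := (eg_Be hX S.x0 ewq _ _ _).mul (eg_gn S hy hx')
  have key : ∀ g : Pair n → ℝ, _ := fun g => low_cs S (b := √(t - tw)) ht hM hb hbM hε hδ hN0
    hlam hη hη1 hx' hxx hy hyx Lg (σ 0) (z + σ 1 • g)
  have hsq : √(t - tw) ^ 2 = t - tw := Real.sq_sqrt (by linarith)
  rw [hsq] at key
  set P1 := A2 y (σ 0) x (√(t - tw)) (uu x t S.F) (wq S t ε lam η N0 M) with hP1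
  set P2 := A2 y (σ 0) x (√(t - tw)) (uu x t S.F) (fun u => qF S t M u + ε) with hP2
  set P3 := A2 y (σ 0) x (√(t - tw)) (uu x t S.F) (En S t M) with hP3
  set P4 := A2 y (σ 0) x (√(t - tw)) (uu x t S.F) (fun u => (qF S t M u + ε) *
          ∑ e : Pair n, fr (S.DA t e u)) with hP4
  have q1 : EG P1 := eg_Be hX S.x0 ewq _ _ _
  have q2 : EG P2 := eg_Be hX S.x0 ew _ _ _
  have q3 : EG P3 := eg_Be hX S.x0 eE _ _ _
  have q4 : EG P4 := eg_Be hX S.x0 eT _ _ _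
  have E1e : ∀ φ : (Pair n → ℝ) → ℝ, E1 S tw m σ 2 t φ z =
      ∫ g, A2 y (σ 0) x (√(t - tw)) (uu x t S.F) φ (z + σ 1 • g) ∂(gI (Pair n)) := fun φ => by
    rw [E1_two S h1 ht.le hm1, hm0]
  have f2 : E1 S tw m σ 2 t (qF S t M) z + ε = ∫ g, P2 (z + σ 1 • g) ∂(gI (Pair n)) := by
    rw [← E1e, E1_add hm (eg_qF t M) (EG.const ε), E1_const hm]
  have f4 : E1 S tw m σ 2 t (EnT S t M) z +
        ε * E1 S tw m σ 2 t (fun u => ∑ e : Pair n, fr (S.DA t e u)) z =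
        ∫ g, P4 (z + σ 1 • g) ∂(gI (Pair n)) := by
    rw [← E1e, ← E1_const_mul, ← E1_add hm (eg_EnT t M) ((eg_sDA (S := S) t).const_mul ε)]
    congr 1
    funext u
    unfold EnT
    ring
  rw [f2, f4, E1e, E1e, ← hP1, ← hP3]
  set c1 := (x - x') * ((t - tw) / 2 * ((1 + δ) * (x ^ 2 * (k ^ 2 / 2) * N0) * (1 - η / 2))) +
      x * x' / y * Lg with hc1
  set c2 := (x - x') * ((t - tw) / 2 * ((1 + δ) * (x ^ 2 * (k ^ 2 / 2) * N0) *
      Real.exp (-(lam * η / 2)))) with hc2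
  set c3 := (x - x') * ((t - tw) / 2 * ((1 + 1 / δ) * 8)) with hc3
  set c4 := (x - x') * ((t - tw) / 2 * ((1 + 1 / δ) * (16 * lam ^ 2 / N0))) with hc4
  set c5 := x * x' / y * (((n : ℝ) ^ 3 * bM + ε) * Real.exp (-Lg)) with hc5
  have key2 : ∀ g : Pair n → ℝ, x * x' * (P1 (z + σ 1 • g) * gn S y (σ 0) tw t x' (z + σ 1 • g)) ≤
      c1 * P1 (z + σ 1 • g) + (c2 * P2 (z + σ 1 • g) + (c3 * P3 (z + σ 1 • g) +
        (c4 * P4 (z + σ 1 • g) + c5))) := by
    intro g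
    refine (key g).trans (le_of_eq ?_)
    rw [hc1, hc2, hc3, hc4, hc5]
    ring
  have r0 := (EG.add_smul p1 z (σ 1)).const_mul (x * x')
  have r1 : EG fun g : Pair n → ℝ => c1 * P1 (z + σ 1 • g) + (c2 * P2 (z + σ 1 • g) +
      (c3 * P3 (z + σ 1 • g) + (c4 * P4 (z + σ 1 • g) + c5))) :=
    ((EG.add_smul q1 z (σ 1)).const_mul c1).add (((EG.add_smul q2 z (σ 1)).const_mul c2).add
      (((EG.add_smul q3 z (σ 1)).const_mul c3).add (((EG.add_smul q4 z (σ 1)).const_mul c4).add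
        (EG.const c5))))
  have h3 := integral_mono r0.integrable r1.integrable key2
  rw [integral_const_mul, int5 (EG.add_smul q1 z (σ 1)) (EG.add_smul q2 z (σ 1))
    (EG.add_smul q3 z (σ 1)) (EG.add_smul q4 z (σ 1))] at h3
  exact h3

/-! ### the weight as a bilinear form -/

/-- the deep factors -/
def fY (ε : ℝ) (Y : (Pair n → ℝ) → Matrix (Fin n) (Fin n) ℝ) (p : Option (Fin n × Fin n))
    (v : Pair n → ℝ) : ℝ :=
  match p with
  | some q => Y v q.1 q.2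
  | none => ε

/-- the factors at the time `t` -/
noncomputable def ps (S : CS n k x) (t lam η N0 : ℝ) (p : Option (Fin n × Fin n))
    (u : Pair n → ℝ) : ℝ :=
  match p with
  | some q => H693.A2 S t q.1 q.2 u * gc S t lam η N0 u
  | none => gc S t lam η N0 u

lemma eg_fY {ε : ℝ} {Y : (Pair n → ℝ) → Matrix (Fin n) (Fin n) ℝ}
    (hY : ∀ i j, EG fun z => Y z i j) (p : Option (Fin n × Fin n)) : EG (fY ε Y p) := by
  rcases p with _ | q
  · exact EG.const ε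
  · exact hY q.1 q.2

lemma eg_ps (t lam η N0 : ℝ) (p : Option (Fin n × Fin n)) : EG (ps S t lam η N0 p) := by
  rcases p with _ | q
  · exact eg_gc S t lam η N0
  · exact (H693.eg_A2 S t q.1 q.2).mul (eg_gc S t lam η N0)

lemma wq_sum (t ε lam η N0 : ℝ) (Y : (Pair n → ℝ) → Matrix (Fin n) (Fin n) ℝ) (v u : Pair n → ℝ) :
    wq S t ε lam η N0 (Y v) u = ∑ p, fY ε Y p v * ps S t lam η N0 p u := by
  rw [wq_eq, Fintype.sum_option, Fintype.sum_prod_type]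
  have h1 : fY ε Y none v * ps S t lam η N0 none u = ε * gc S t lam η N0 u := rfl
  have h2 : ∀ i j, fY ε Y (some (i, j)) v * ps S t lam η N0 (some (i, j)) u =
      Y v i j * H693.A2 S t i j u * gc S t lam η N0 u := fun i j => by
    have : fY ε Y (some (i, j)) v * ps S t lam η N0 (some (i, j)) u =
      Y v i j * (H693.A2 S t i j u * gc S t lam η N0 u) := rfl
    rw [this]; ring
  simp only [h1, h2]
  unfold qF
  rw [Finset.sum_mul]
  simp only [Finset.sum_mul]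
  ring

lemma Be_wq (y0 h b t ε lam η N0 : ℝ) (Y : (Pair n → ℝ) → Matrix (Fin n) (Fin n) ℝ)
    (v z : Pair n → ℝ) :
    A2 y0 h x b (uu x t S.F) (wq S t ε lam η N0 (Y v)) z =
      ∑ p, fY ε Y p v * A2 y0 h x b (uu x t S.F) (ps S t lam η N0 p) z := by
  have h1 : wq S t ε lam η N0 (Y v) = fun u => ∑ p, fY ε Y p v * ps S t lam η N0 p u :=
    funext fun u => wq_sum S t ε lam η N0 Y v u
  rw [h1, Be_sum (c11_uu S.c11 S.x0 t) S.x0 Finset.univ
    (fun p _ => (eg_ps S t lam η N0 p).const_mul _)]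
  exact Finset.sum_congr rfl fun p _ => Be_mul _ _ _ _ _ _ _ _

lemma eg_bil {κ : Type} [Fintype κ] [DecidableEq κ] {ι : Type} [Fintype ι]
    {f G : ι → (κ → ℝ) → ℝ} {φ : (κ → ℝ) → ℝ} (hf : ∀ i, EG (f i)) (hG : ∀ i, EG (G i))
    (hφ : EG φ) (a b : ℝ) :
    EG fun g : κ → ℝ => ∫ g', (∑ i, f i (a • g) * G i (a • g + b • g')) *
      φ (a • g + b • g') ∂(gI κ) := by
  have e1 : (fun g : κ → ℝ => ∫ g', (∑ i, f i (a • g) * G i (a • g + b • g')) *
      φ (a • g + b • g') ∂(gI κ)) = fun g => ∑ i, f i (a • g) *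
        ∫ g', G i (a • g + b • g') * φ (a • g + b • g') ∂(gI κ) := by
    funext g
    have e2 : (fun g' : κ → ℝ => (∑ i, f i (a • g) * G i (a • g + b • g')) *
      φ (a • g + b • g')) = fun g' => ∑ i, f i (a • g) * (G i (a • g + b • g') *
        φ (a • g + b • g')) := by
      funext g'
      rw [Finset.sum_mul]
      exact Finset.sum_congr rfl fun i _ => by ring
    rw [e2, integral_finsetSum _ fun i _ =>
      ((EG.add_smul ((hG i).mul hφ) (a • g) b).const_mul _).integrable]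
    exact Finset.sum_congr rfl fun i _ => integral_const_mul _ _
  rw [e1]
  exact EG.sum _ fun i _ => (EG.smul' (hf i) a).mul
    (EG.smul' (EG.conv ((hG i).mul hφ) b) a)

/-! ### the numbers -/

/-- the mass of the penalized weight -/
noncomputable def Qm (S : CS n k x) (tw : ℝ) (m σ : ℕ → ℝ) (c t ε lam η N0 : ℝ)
    (Y : (Pair n → ℝ) → Matrix (Fin n) (Fin n) ℝ) : ℝ :=
  ∫ g, E1 S tw m σ 2 t (wq S t ε lam η N0 (Y (c • g))) (c • g) ∂(gI (Pair n))

/-- the gain under the penalized weight -/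
noncomputable def Gm (S : CS n k x) (tw : ℝ) (m σ : ℕ → ℝ) (c t ε lam η N0 x' : ℝ)
    (Y : (Pair n → ℝ) → Matrix (Fin n) (Fin n) ℝ) : ℝ :=
  ∫ g, ∫ g', (∑ p, fY ε Y p (c • g) * A2 (m 0) (σ 0) x (√(t - tw)) (uu x t S.F)
    (ps S t lam η N0 p) (c • g + σ 1 • g')) * gn S (m 0) (σ 0) tw t x' (c • g + σ 1 • g')
      ∂(gI (Pair n)) ∂(gI (Pair n))

lemma Qm_eq (h1 : tw ≤ t) (h2 : t ≤ 1) (hm1 : m 1 = 0) (c ε lam η N0 : ℝ)
    (Y : (Pair n → ℝ) → Matrix (Fin n) (Fin n) ℝ) :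
    Qm S tw m σ c t ε lam η N0 Y = ∫ g, ∫ g', ∑ p, fY ε Y p (c • g) *
      A2 (m 0) (σ 0) x (√(t - tw)) (uu x t S.F) (ps S t lam η N0 p) (c • g + σ 1 • g')
        ∂(gI (Pair n)) ∂(gI (Pair n)) := by
  unfold Qm
  refine integral_congr_ae (Filter.Eventually.of_forall fun g => ?_)
  simp only
  rw [E1_two S h1 h2 hm1]
  refine integral_congr_ae (Filter.Eventually.of_forall fun g' => ?_)
  simp only
  rw [Be_wq]

lemma sDA_le (ht : 0 < t) (u : Pair n → ℝ) :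
    ∑ e : Pair n, fr (S.DA t e u) ≤ (n : ℝ) ^ 4 * k ^ 2 := by
  have h1 : ∀ e : Pair n, fr (S.DA t e u) ≤ (n : ℝ) ^ 2 * k ^ 2 := by
    intro e
    unfold fr
    have h2 : ∀ i ∈ (Finset.univ : Finset (Fin n)), ∑ j, S.DA t e u i j ^ 2 ≤ n * k ^ 2 := by
      intro i _
      have h3 : ∀ j ∈ (Finset.univ : Finset (Fin n)), S.DA t e u i j ^ 2 ≤ k ^ 2 := by
        intro j _
        exact S.DA_sq_le ht e u i j
      have h4 := Finset.sum_le_sum h3
      simpa using h4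
    have h5 := Finset.sum_le_sum h2
    rw [Finset.sum_const, Finset.card_univ, Fintype.card_fin, nsmul_eq_mul] at h5
    exact h5.trans (le_of_eq (by ring))
  have h2 := Finset.sum_le_sum (fun e (_ : e ∈ (Finset.univ : Finset (Pair n))) => h1 e)
  rw [Finset.sum_const, Finset.card_univ, nsmul_eq_mul] at h2
  refine h2.trans ?_
  have h3 : (Fintype.card (Pair n) : ℝ) ≤ (n : ℝ) ^ 2 := by
    have : Fintype.card (Pair n) ≤ Fintype.card (Fin n × Fin n) :=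
      Fintype.card_subtype_le _
    rw [Fintype.card_prod, Fintype.card_fin] at this
    calc (Fintype.card (Pair n) : ℝ) ≤ ((n * n : ℕ) : ℝ) := by exact_mod_cast this
      _ = (n : ℝ) ^ 2 := by push_cast; ring
  calc (Fintype.card (Pair n) : ℝ) * ((n : ℝ) ^ 2 * k ^ 2) ≤ (n : ℝ) ^ 2 * ((n : ℝ) ^ 2 * k ^ 2) :=
        mul_le_mul_of_nonneg_right h3 (by positivity)
    _ = _ := by ring

variable {Y : (Pair n → ℝ) → Matrix (Fin n) (Fin n) ℝ}

/-- **The lower side, integrated.** -/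
theorem low_int {bM x' ε δ η lam N0 : ℝ} (h1 : tw ≤ t) (ht : t < 1) (ht0 : 0 < t) (hm0 : m 0 = y)
    (hm1 : m 1 = 0) (hY : ∀ i j, EG fun z => Y z i j) (hp : ∀ z, Psd (Y z))
    (hb : ∀ z i j, |Y z i j| ≤ bM) (hbM : 0 ≤ bM) (hε : 0 < ε) (hδ : 0 < δ) (hN0 : 0 < N0)
    (hlam : 2 ≤ lam)
    (hη : 0 ≤ η) (hη1 : η ≤ 1) (hx' : 0 < x') (hxx : x' < x) (hy : 0 < y) (hyx : y ≤ x)
    (Lg : ℝ) :
    x * x' * Gm S tw m σ c t ε lam η N0 x' Y ≤
    ((x - x') * ((t - tw) / 2 * ((1 + δ) * (x ^ 2 * (k ^ 2 / 2) * N0) * (1 - η / 2))) +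
      x * x' / y * Lg) * Qm S tw m σ c t ε lam η N0 Y +
    ((x - x') * ((t - tw) / 2 * ((1 + δ) * (x ^ 2 * (k ^ 2 / 2) * N0) *
      Real.exp (-(lam * η / 2)))) * (NW S tw m σ 2 c Y t + ε) +
    ((x - x') * ((t - tw) / 2 * ((1 + 1 / δ) * 8)) * EnW S tw m σ 2 c Y t +
    ((x - x') * ((t - tw) / 2 * ((1 + 1 / δ) * (16 * lam ^ 2 / N0))) *
      (EnTW S tw m σ 2 c Y t + ε * ((n : ℝ) ^ 4 * k ^ 2)) +
    x * x' / y * (((n : ℝ) ^ 3 * bM + ε) * Real.exp (-Lg))))) := by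
  have hm : Pm m 2 := fun j hj => by
    have : j = 0 := by omega
    rw [this, hm0]; exact hy
  have hX := c11_uu S.c11 S.x0 t
  have hG : ∀ p, EG (A2 (m 0) (σ 0) x (√(t - tw)) (uu x t S.F) (ps S t lam η N0 p)) := fun p =>
    eg_Be hX S.x0 (eg_ps S t lam η N0 p) _ _ _
  have egn : EG (gn S (m 0) (σ 0) tw t x') := by
    rw [hm0]; exact eg_gn S hy hx'
  have g0 := eg_bil (fun p => eg_fY (ε := ε) hY p) hG egn c (σ 1)
  have g1 : EG fun g : Pair n → ℝ =>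
      E1 S tw m σ 2 t (wq S t ε lam η N0 (Y (c • g))) (c • g) := by
    have h3 := eg_form (S := S) (w := tw) (t := t) (σ := σ) hm hY (eg_gc S t lam η N0) c
    have h4 := eg_sc (eg_E1 (S := S) (w := tw) (t := t) (σ := σ) hm
      ((eg_gc S t lam η N0).const_mul ε)) c
    have h5 : (fun g : Pair n → ℝ => E1 S tw m σ 2 t (wq S t ε lam η N0 (Y (c • g))) (c • g)) =
        fun g => E1 S tw m σ 2 t (fun u => qF S t (Y (c • g)) u * gc S t lam η N0 u) (c • g) +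
          E1 S tw m σ 2 t (fun u => ε * gc S t lam η N0 u) (c • g) := by
      funext g
      rw [← E1_add hm ((eg_qF t _).mul (eg_gc S t lam η N0))
        ((eg_gc S t lam η N0).const_mul ε)]
      congr 1
      funext u
      exact wq_eq S t ε lam η N0 _ u
    rw [h5]
    exact h3.add h4
  have g2 : EG fun g : Pair n → ℝ => E1 S tw m σ 2 t (qF S t (Y (c • g))) (c • g) + ε := by
    have h3 := eg_NW (S := S) (w := tw) (σ := σ) hm c t hY
    have h5 : (fun g : Pair n → ℝ => E1 S tw m σ 2 t (qF S t (Y (c • g))) (c • g) + ε) =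
        fun g => ∑ i, ∑ j, Y (c • g) i j * Q1 S tw m σ 2 t (c • g) i j + ε := by
      funext g
      rw [E1_qF hm]
    rw [h5]
    exact h3.add (EG.const ε)
  have g3 := eg_EnW (S := S) (w := tw) (t := t) (σ := σ) hm c hY
  have g4 : EG fun g : Pair n → ℝ => E1 S tw m σ 2 t (EnT S t (Y (c • g))) (c • g) +
      ε * E1 S tw m σ 2 t (fun u => ∑ e : Pair n, fr (S.DA t e u)) (c • g) :=
    (eg_EnTW (S := S) (w := tw) (t := t) (σ := σ) hm hY c).add
      ((eg_sc (eg_E1 (S := S) (w := tw) (t := t) (σ := σ) hm (eg_sDA (S := S) t)) c).const_mul ε)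
  have key : ∀ g : Pair n → ℝ, _ := fun g => low_E1 S (σ := σ) h1 ht hm0 hm1 (hp (c • g))
    (hb (c • g)) hbM hε hδ hN0 hlam hη hη1 hx' hxx hy hyx Lg (c • g)
  set c1 := (x - x') * ((t - tw) / 2 * ((1 + δ) * (x ^ 2 * (k ^ 2 / 2) * N0) * (1 - η / 2))) +
      x * x' / y * Lg with hc1
  set c2 := (x - x') * ((t - tw) / 2 * ((1 + δ) * (x ^ 2 * (k ^ 2 / 2) * N0) *
      Real.exp (-(lam * η / 2)))) with hc2
  set c3 := (x - x') * ((t - tw) / 2 * ((1 + 1 / δ) * 8)) with hc3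
  set c4 := (x - x') * ((t - tw) / 2 * ((1 + 1 / δ) * (16 * lam ^ 2 / N0))) with hc4
  set c5 := x * x' / y * (((n : ℝ) ^ 3 * bM + ε) * Real.exp (-Lg)) with hc5
  have r1 : EG fun g : Pair n → ℝ =>
      c1 * E1 S tw m σ 2 t (wq S t ε lam η N0 (Y (c • g))) (c • g) +
      (c2 * (E1 S tw m σ 2 t (qF S t (Y (c • g))) (c • g) + ε) +
      (c3 * E1 S tw m σ 2 t (En S t (Y (c • g))) (c • g) +
        (c4 * (E1 S tw m σ 2 t (EnT S t (Y (c • g))) (c • g) +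
      ε * E1 S tw m σ 2 t (fun u => ∑ e : Pair n, fr (S.DA t e u)) (c • g)) + c5))) :=
    (g1.const_mul c1).add ((g2.const_mul c2).add ((g3.const_mul c3).add
      ((g4.const_mul c4).add (EG.const c5))))
  have key2 : ∀ g : Pair n → ℝ, x * x' * (∫ g', (∑ p, fY ε Y p (c • g) *
      A2 (m 0) (σ 0) x (√(t - tw)) (uu x t S.F) (ps S t lam η N0 p) (c • g + σ 1 • g')) *
        gn S (m 0) (σ 0) tw t x' (c • g + σ 1 • g') ∂(gI (Pair n))) ≤
      c1 * E1 S tw m σ 2 t (wq S t ε lam η N0 (Y (c • g))) (c • g) +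
      (c2 * (E1 S tw m σ 2 t (qF S t (Y (c • g))) (c • g) + ε) +
      (c3 * E1 S tw m σ 2 t (En S t (Y (c • g))) (c • g) +
        (c4 * (E1 S tw m σ 2 t (EnT S t (Y (c • g))) (c • g) +
      ε * E1 S tw m σ 2 t (fun u => ∑ e : Pair n, fr (S.DA t e u)) (c • g)) + c5))) := by
    intro g
    refine le_trans (le_of_eq ?_) (key g)
    congr 1
    refine integral_congr_ae (Filter.Eventually.of_forall fun g' => ?_)
    simp only
    rw [← Be_wq, hm0]
  have h3 := integral_mono (g0.const_mul (x * x')).integrable r1.integrable key2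
  rw [integral_const_mul, int5 g1 g2 g3 g4] at h3
  have e2 : ∫ g, (E1 S tw m σ 2 t (qF S t (Y (c • g))) (c • g) + ε) ∂(gI (Pair n)) =
      NW S tw m σ 2 c Y t + ε := by
    have h4 : ∀ g : Pair n → ℝ, E1 S tw m σ 2 t (qF S t (Y (c • g))) (c • g) + ε =
      ∑ i, ∑ j, Y (c • g) i j * Q1 S tw m σ 2 t (c • g) i j + ε := fun g => by rw [E1_qF hm]
    simp only [h4]
    rw [integral_add (eg_NW (S := S) (w := tw) (σ := σ) hm c t hY).integrable
      (integrable_const ε)]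
    simp [NW]
  have e4 : ∫ g, (E1 S tw m σ 2 t (EnT S t (Y (c • g))) (c • g) +
      ε * E1 S tw m σ 2 t (fun u => ∑ e : Pair n, fr (S.DA t e u)) (c • g)) ∂(gI (Pair n)) ≤
      EnTW S tw m σ 2 c Y t + ε * ((n : ℝ) ^ 4 * k ^ 2) := by
    have h4 := (eg_EnTW (S := S) (w := tw) (t := t) (σ := σ) hm hY c).integrable
    have h5 := eg_sc (eg_E1 (S := S) (w := tw) (t := t) (σ := σ) hm (eg_sDA (S := S) t)) c
    rw [integral_add h4 (h5.const_mul ε).integrable, integral_const_mul]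
    refine add_le_add le_rfl (mul_le_mul_of_nonneg_left ?_ hε.le)
    refine (integral_mono h5.integrable (integrable_const ((n : ℝ) ^ 4 * k ^ 2))
      fun g => ?_).trans (le_of_eq (by simp))
    have h6 := E1_mono (S := S) (w := tw) (t := t) (σ := σ) hm (eg_sDA (S := S) t)
      (EG.const ((n : ℝ) ^ 4 * k ^ 2)) (fun u => sDA_le S ht0 u) (c • g)
    rw [E1_const hm] at h6
    exact h6
  rw [e2] at h3
  have hc4' : 0 ≤ c4 := by
    have : 0 < x - x' := by linarith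
    have h5 : 0 ≤ t - tw := by linarith
    rw [hc4]; positivity
  have h7 := mul_le_mul_of_nonneg_left e4 hc4'
  have e5 : Gm S tw m σ c t ε lam η N0 x' Y = ∫ g, ∫ g', (∑ p, fY ε Y p (c • g) *
      A2 (m 0) (σ 0) x (√(t - tw)) (uu x t S.F) (ps S t lam η N0 p) (c • g + σ 1 • g')) *
        gn S (m 0) (σ 0) tw t x' (c • g + σ 1 • g') ∂(gI (Pair n)) ∂(gI (Pair n)) := rfl
  have e6 : Qm S tw m σ c t ε lam η N0 Y = ∫ g, E1 S tw m σ 2 t
    (wq S t ε lam η N0 (Y (c • g))) (c • g) ∂(gI (Pair n)) := rfl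
  have e7 : EnW S tw m σ 2 c Y t = ∫ g, E1 S tw m σ 2 t (En S t (Y (c • g))) (c • g)
    ∂(gI (Pair n)) := rfl
  rw [e5, e6, e7]
  linarith

end cs

end Vale.Agent.P146.H159
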