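import Vale.Agent.P146.H159.Low7
import Vale.Agent.P146.H767.G3P

/-!
The lower side: the numbers.
-/

open MeasureTheory ProbabilityTheory Filter Topology

namespace Vale.Agent.P146.H159

open Vale.Agent.P157.Lv Vale.Agent.P146.H425 Vale.Agent.P146.H325 Vale.Agent.P146.H332
  Vale.Agent.P146.H712 Vale.Agent.P146.H816 Vale.Agent.P146.R1 Vale.Agent.P146.R1C Matrix
  Vale.Agent.P146.R1S Vale.Agent.P146.H655 Vale.Agent.P146.H946.En2
open Vale.Agent.P146.H785 (Ax lf fd_Ax)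
open Vale.Agent.P146.H693 (Aw eg_Aw Aw_add Aw_const_mul uu_tw Pm Tl)
open Vale.Agent.P146.H376 (V2)
open Vale.Agent.P146.H432 (Dn Gn AntiN Dn_tan' Gn_nonneg Gn_mono Dn_mono Dn_nonneg ev_small ev_big)

set_option linter.unusedSectionVars false

lemma al1 {η : ℝ} (hη : 0 ≤ η) : 1 - η / 8 ≤ (1 - η / 16) * (1 - η / 16) := by
  have : (1 - η / 16) * (1 - η / 16) = 1 - η / 8 + (η / 16) ^ 2 := by ring
  rw [this]
  have := sq_nonneg (η / 16)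
  linarith

lemma al2 {η : ℝ} : (1 + η / 8) * (1 - η / 2) ≤ 1 - 3 * η / 8 := by
  have : (1 + η / 8) * (1 - η / 2) = 1 - 3 * η / 8 - (η / 4) ^ 2 := by ring
  rw [this]
  have := sq_nonneg (η / 4)
  linarith

lemma al3 {x s b2 k2 N0 Γ : ℝ} (hb : b2 ≤ s) (hN0 : 0 < N0) (hk2 : 0 < k2)
    (hN : k2 * N0 * s = 4 * Γ) : b2 / 2 * (x ^ 2 * (k2 / 2) * N0) ≤ x ^ 2 * Γ := by
  have a1 : b2 * (k2 * N0 * x ^ 2 / 4) ≤ s * (k2 * N0 * x ^ 2 / 4) :=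
    mul_le_mul_of_nonneg_right hb (by positivity)
  calc b2 / 2 * (x ^ 2 * (k2 / 2) * N0) = b2 * (k2 * N0 * x ^ 2 / 4) := by ring
    _ ≤ s * (k2 * N0 * x ^ 2 / 4) := a1
    _ = k2 * N0 * s * (x ^ 2 / 4) := by ring
    _ = 4 * Γ * (x ^ 2 / 4) := by rw [hN]
    _ = _ := by ring

lemma al4 {x x' y : ℝ} (hx' : 0 < x') (hxx : x' < x) (hy : x / 8 ≤ y) : x * x' / y ≤ 8 * x := by
  have hx : 0 < x := hx'.trans hxx
  have hy0 : 0 < y := by linarith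
  rw [div_le_iff₀ hy0]
  have h1 := mul_le_mul_of_nonneg_left hxx.le hx.le
  have h2 := mul_le_mul_of_nonneg_left hy (show 0 ≤ 8 * x by positivity)
  calc x * x' ≤ x * x := h1
    _ = 8 * x * (x / 8) := by ring
    _ ≤ _ := h2

lemma al5 {η : ℝ} (hη : 0 < η) (hη1 : η ≤ 1) : 1 + 1 / (η / 8) ≤ 9 / η := by
  rw [one_div_div]
  have : (1 : ℝ) ≤ 1 / η := by rw [le_div_iff₀ hη]; linarith
  have e : 9 / η = 1 / η + 8 / η := by ring
  linarith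

/-- **the algebra** -/
lemma alg_fin {x x' y s b2 η k2 N0 Γ Lg e1 Q A2 A3 A4 l2 MM Gv : ℝ} (hx' : 0 < x')
    (hxx : x' < x) (hy : x / 8 ≤ y) (hs : 0 < s) (hb0 : 0 ≤ b2) (hb : b2 ≤ s) (hΓ : 0 < Γ)
    (hη : 0 < η) (hη1 : η ≤ 1) (hN0 : 0 < N0) (hk2 : 0 < k2) (hN : k2 * N0 * s = 4 * Γ)
    (r1 : (1 - η / 16) * x ≤ x') (hQ : 0 ≤ Q) (hA2 : 0 ≤ A2) (hA3 : 0 ≤ A3)
    (hA4 : 0 ≤ A4) (he1 : 0 ≤ e1) (hl2 : 0 ≤ l2) (hLg : 0 ≤ Lg) (hM : 0 ≤ MM)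
    (r2 : (1 - η / 16) * ((x - x') * Γ) * Q ≤ Gv)
    (r3 : 8 * x * Lg ≤ η / 8 * ((x - x') * (x ^ 2 * Γ)))
    (low : x * x' * Gv ≤ ((x - x') * (b2 / 2 * ((1 + η / 8) * (x ^ 2 * (k2 / 2) * N0) *
      (1 - η / 2))) + x * x' / y * Lg) * Q +
      ((x - x') * (b2 / 2 * ((1 + η / 8) * (x ^ 2 * (k2 / 2) * N0) * e1)) * A2 +
      ((x - x') * (b2 / 2 * ((1 + 1 / (η / 8)) * 8)) * A3 +
      ((x - x') * (b2 / 2 * ((1 + 1 / (η / 8)) * (16 * l2 / N0))) * A4 + x * x' / y * MM)))) :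
    η / 8 * ((x - x') * (x ^ 2 * Γ)) * Q ≤ (x - x') * (2 * (x ^ 2 * Γ) * e1 * A2 +
      36 * s / η * A3 + 72 * s / η * (l2 / N0) * A4) + 8 * x * MM := by
  have hx : 0 < x := hx'.trans hxx
  have hd : 0 < x - x' := by linarith
  obtain ⟨Z, hZ⟩ : ∃ Z, Z = (x - x') * (x ^ 2 * Γ) := ⟨_, rfl⟩
  have hZ0 : 0 < Z := by rw [hZ]; positivity
  have l1 : (1 - η / 8) * (Z * Q) ≤ x * x' * Gv := by
    have a1 : x * ((1 - η / 16) * x) ≤ x * x' := mul_le_mul_of_nonneg_left r1 hx.le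
    have a2 : (0 : ℝ) ≤ 1 - η / 16 := by linarith
    have a3 : 0 ≤ (1 - η / 16) * ((x - x') * Γ) * Q := by positivity
    calc (1 - η / 8) * (Z * Q) ≤ ((1 - η / 16) * (1 - η / 16)) * (Z * Q) :=
          mul_le_mul_of_nonneg_right (al1 hη.le) (by positivity)
      _ = (x * ((1 - η / 16) * x)) * ((1 - η / 16) * ((x - x') * Γ) * Q) := by rw [hZ]; ring
      _ ≤ (x * x') * ((1 - η / 16) * ((x - x') * Γ) * Q) := mul_le_mul_of_nonneg_right a1 a3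
      _ ≤ x * x' * Gv := mul_le_mul_of_nonneg_left r2 (by positivity)
  have m0 : b2 / 2 * (x ^ 2 * (k2 / 2) * N0) ≤ x ^ 2 * Γ := al3 hb hN0 hk2 hN
  have hb1 : 0 ≤ b2 / 2 * (x ^ 2 * (k2 / 2) * N0) := by positivity
  have m1 : (x - x') * (b2 / 2 * ((1 + η / 8) * (x ^ 2 * (k2 / 2) * N0) * (1 - η / 2))) ≤
      (1 - 3 * η / 8) * Z := by
    have a5 : (0 : ℝ) ≤ 1 - 3 * η / 8 := by linarith
    calc (x - x') * (b2 / 2 * ((1 + η / 8) * (x ^ 2 * (k2 / 2) * N0) * (1 - η / 2))) =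
          (x - x') * (((1 + η / 8) * (1 - η / 2)) * (b2 / 2 * (x ^ 2 * (k2 / 2) * N0))) := by ring
      _ ≤ (x - x') * ((1 - 3 * η / 8) * (x ^ 2 * Γ)) :=
          mul_le_mul_of_nonneg_left (mul_le_mul al2 m0 hb1 a5) hd.le
      _ = _ := by rw [hZ]; ring
  have m2 : (x - x') * (b2 / 2 * ((1 + η / 8) * (x ^ 2 * (k2 / 2) * N0) * e1)) * A2 ≤
      (x - x') * (2 * (x ^ 2 * Γ) * e1 * A2) := by
    have a1 : 1 + η / 8 ≤ 2 := by linarith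
    have a2 : (1 + η / 8) * (b2 / 2 * (x ^ 2 * (k2 / 2) * N0)) ≤ 2 * (x ^ 2 * Γ) :=
      mul_le_mul a1 m0 hb1 (by norm_num)
    have a3 := mul_le_mul_of_nonneg_right a2 (show 0 ≤ (x - x') * (e1 * A2) by positivity)
    calc _ = (1 + η / 8) * (b2 / 2 * (x ^ 2 * (k2 / 2) * N0)) * ((x - x') * (e1 * A2)) := by ring
      _ ≤ _ := a3
      _ = _ := by ring
  have hδ1 := al5 hη hη1
  have hδ2 : 0 ≤ 1 + 1 / (η / 8) := by positivity
  have hb9 : b2 * (1 + 1 / (η / 8)) ≤ s * (9 / η) := mul_le_mul hb hδ1 hδ2 hs.le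
  have m3 : (x - x') * (b2 / 2 * ((1 + 1 / (η / 8)) * 8)) * A3 ≤
      (x - x') * (36 * s / η * A3) := by
    have a3 := mul_le_mul_of_nonneg_right hb9 (show 0 ≤ (x - x') * (4 * A3) by positivity)
    calc _ = b2 * (1 + 1 / (η / 8)) * ((x - x') * (4 * A3)) := by ring
      _ ≤ _ := a3
      _ = _ := by ring
  have m4 : (x - x') * (b2 / 2 * ((1 + 1 / (η / 8)) * (16 * l2 / N0))) * A4 ≤
      (x - x') * (72 * s / η * (l2 / N0) * A4) := by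
    have a3 := mul_le_mul_of_nonneg_right hb9
      (show 0 ≤ (x - x') * (8 * (l2 / N0) * A4) by positivity)
    calc _ = b2 * (1 + 1 / (η / 8)) * ((x - x') * (8 * (l2 / N0) * A4)) := by ring
      _ ≤ _ := a3
      _ = _ := by ring
  have m5 : x * x' / y ≤ 8 * x := al4 hx' hxx hy
  have m6 := mul_le_mul_of_nonneg_right m5 hM
  rw [← hZ] at r3 ⊢
  have m7 : x * x' / y * Lg ≤ η / 8 * Z := (mul_le_mul_of_nonneg_right m5 hLg).trans r3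
  have m8 := mul_le_mul_of_nonneg_right (add_le_add m1 m7) hQ
  have m9 : (1 - η / 8) * (Z * Q) ≤ ((1 - 3 * η / 8) * Z + η / 8 * Z) * Q +
      ((x - x') * (2 * (x ^ 2 * Γ) * e1 * A2) + ((x - x') * (36 * s / η * A3) +
        ((x - x') * (72 * s / η * (l2 / N0) * A4) + 8 * x * MM))) :=
    l1.trans (low.trans (add_le_add m8 (add_le_add m2 (add_le_add m3 (add_le_add m4 m6)))))
  have e1 : (x - x') * (2 * (x ^ 2 * Γ) * e1 * A2 + 36 * s / η * A3 +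
      72 * s / η * (l2 / N0) * A4) = (x - x') * (2 * (x ^ 2 * Γ) * e1 * A2) +
        ((x - x') * (36 * s / η * A3) + (x - x') * (72 * s / η * (l2 / N0) * A4)) := by ring
  have e2 : ((1 - 3 * η / 8) * Z + η / 8 * Z) * Q = (1 - η / 8) * (Z * Q) - η / 8 * Z * Q := by
    ring
  rw [e2] at m9
  rw [e1]
  linarith

/-! ### the weights -/

section cs

variable {n : ℕ} {k x : ℝ} (S : CS n k x) {t : ℝ}
  {Y : (Pair n → ℝ) → Matrix (Fin n) (Fin n) ℝ}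

lemma wt_nonneg (hp : ∀ z, Psd (Y z)) {ε : ℝ} (hε : 0 ≤ ε) (hY : ∀ i j, EG fun z => Y z i j)
    (y0 h b t lam η N0 : ℝ) (v z : Pair n → ℝ) :
    0 ≤ ∑ p, fY ε Y p v * A2 y0 h x b (uu x t S.F) (ps S t lam η N0 p) z := by
  rw [← Be_wq]
  have h1 := Be_mono (c11_uu S.c11 S.x0 t) S.x0 (EG.const 0) (eg_wq S t ε lam η N0 (Y v))
    (fun u => wq_nonneg S (hp v) hε t lam η N0 u) y0 h b z
  rwa [Be_const (c11_uu S.c11 S.x0 t) S.x0] at h1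

lemma wt_le (hp : ∀ z, Psd (Y z)) {ε bM : ℝ} (hε : 0 ≤ ε) (hb : ∀ z i j, |Y z i j| ≤ bM)
    (y0 h b t lam η N0 : ℝ) (v z : Pair n → ℝ) :
    ∑ p, fY ε Y p v * A2 y0 h x b (uu x t S.F) (ps S t lam η N0 p) z ≤ (n : ℝ) ^ 3 * bM + ε := by
  rw [← Be_wq]
  have h1 := Be_mono (c11_uu S.c11 S.x0 t) S.x0 (eg_wq S t ε lam η N0 (Y v))
    (EG.const ((n : ℝ) ^ 3 * bM + ε)) (fun u => ?_) y0 h b z
  · rwa [Be_const (c11_uu S.c11 S.x0 t) S.x0] at h1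
  · have h2 := (le_abs_self _).trans (abs_qF (S := S) (hb v) t u)
    have h3 : 0 ≤ qF S t (Y v) u + ε := add_nonneg (qF_nonneg (hp v) u) hε
    have h4 := mul_le_mul_of_nonneg_left (gl_le_one lam η (fr (S.A t u) / N0)) h3
    unfold wq qq
    linarith

end cs

/-! ### the gain -/

/-- the lower bound of the gain -/
lemma g_low {D D' Γ Γ' x x' η t1 t2 t3 t4 r c τs DM : ℝ} (hxx : x' < x) (hΓ : 0 ≤ Γ)
    (h1 : D' + (x - x') * Γ' ≤ D) (h2 : Γ ≤ (1 + t1) * Γ') (hΓ' : 0 ≤ Γ') (ht1 : t1 ≤ η / 64)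
    (hD' : D' ≤ D) (hD : D ≤ x * Γ) (hr : x - x' = r * x) (hτ0 : 0 ≤ τs)
    (hτ : τs ≤ t2 * r) (ht2 : t2 ≤ η / 64) (hc : c ≤ t3 * r) (hc0 : 0 ≤ c) (ht3 : t3 ≤ η / 64)
    (hDM : DM ≤ t4 * ((x - x') * Γ)) (ht4 : t4 ≤ η / 64) (hη : 0 ≤ η) (ht10 : 0 ≤ t1)
    (hD0 : 0 ≤ D) (hx : 0 < x) :
    (1 - η / 16) * ((x - x') * Γ) ≤ D - (1 + τs) * D' - c * D - DM := by
  have hd : 0 < x - x' := by linarith
  have hr0 : 0 < r := by
    by_contra hh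
    have : r * x ≤ 0 := mul_nonpos_of_nonpos_of_nonneg (not_lt.1 hh) hx.le
    linarith
  obtain ⟨Z, hZ⟩ : ∃ Z, Z = (x - x') * Γ := ⟨_, rfl⟩
  have hZ0 : 0 ≤ Z := by rw [hZ]; positivity
  rw [← hZ] at hDM ⊢
  -- the slope
  have a1 : Z - η / 64 * Z ≤ (x - x') * Γ' := by
    have b1 : (x - x') * Γ ≤ (x - x') * ((1 + t1) * Γ') := mul_le_mul_of_nonneg_left h2 hd.le
    have b2 : Γ' ≤ Γ' * (1 + t1) := by nlinarith
    rw [← hZ] at b1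
    have b3 : 0 ≤ (x - x') * Γ' := by positivity
    have b4 : Z ≤ (1 + t1) * ((x - x') * Γ') := by linarith
    have b5 : (1 - t1) * Z ≤ (x - x') * Γ' := by
      rcases le_or_gt 1 t1 with h | h
      · have : (1 - t1) * Z ≤ 0 := mul_nonpos_of_nonpos_of_nonneg (by linarith) hZ0
        linarith
      · have b6 := mul_le_mul_of_nonneg_left b4 (show 0 ≤ 1 - t1 by linarith)
        have b7 : (1 - t1) * ((1 + t1) * ((x - x') * Γ')) =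
          (x - x') * Γ' - t1 ^ 2 * ((x - x') * Γ') := by ring
        have b8 : 0 ≤ t1 ^ 2 * ((x - x') * Γ') := by positivity
        linarith
    have b9 := mul_le_mul_of_nonneg_right ht1 hZ0
    linarith
  have a2 : r * D ≤ Z := by
    have := mul_le_mul_of_nonneg_left hD hr0.le
    have e : r * (x * Γ) = Z := by rw [hZ, hr]; ring
    linarith
  have a3 : τs * D' ≤ η / 64 * Z := by
    have b1 : τs * D' ≤ τs * D := mul_le_mul_of_nonneg_left hD' hτ0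
    have b2 : τs * D ≤ t2 * r * D := mul_le_mul_of_nonneg_right hτ hD0
    have b3 : t2 * r ≤ η / 64 * r := mul_le_mul_of_nonneg_right ht2 hr0.le
    have b4 : t2 * r * D ≤ η / 64 * r * D := mul_le_mul_of_nonneg_right b3 hD0
    have b5 := mul_le_mul_of_nonneg_left a2 (show 0 ≤ η / 64 by positivity)
    linarith
  have a4 : c * D ≤ η / 64 * Z := by
    have b2 : c * D ≤ t3 * r * D := mul_le_mul_of_nonneg_right hc hD0
    have b3 : t3 * r ≤ η / 64 * r := mul_le_mul_of_nonneg_right ht3 hr0.le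
    have b4 : t3 * r * D ≤ η / 64 * r * D := mul_le_mul_of_nonneg_right b3 hD0
    have b5 := mul_le_mul_of_nonneg_left a2 (show 0 ≤ η / 64 by positivity)
    linarith
  have a5 : DM ≤ η / 64 * Z := hDM.trans (mul_le_mul_of_nonneg_right ht4 hZ0)
  linarith

/-- **The situation of the lower side** at the exponent `x`, the window `s`, the layer `τ` with the
exponent `y` under it, the late time `1 - l`. -/
structure LoH (n : ℕ) (β e a d w ch c5 c6 c7 x y s τ l : ℝ) : Prop where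
  x_lo : (n : ℝ) ^ (-(1 / 6) + e) ≤ x
  x_up : x ≤ (n : ℝ) ^ (-a)
  x1 : x ≤ 1
  s_lo : (n : ℝ) ^ (-w) * x ^ 2 ≤ s
  τ0 : 0 ≤ τ
  τ_up : τ ≤ (n : ℝ) ^ (-ch) * s
  sτ : s + τ < 1
  y_lo : x / 8 ≤ y
  y_up : y ≤ (1 - (n : ℝ) ^ (-c5)) * x
  l0 : 0 < l
  l_up : l ≤ s
  low : (n : ℝ) ^ (1 - d) * s * x ^ 3 ≤ Dn n β x s
  val : Dn n β x s ≤ x * Gn n β x s
  reg : Gn n β x s ≤ (1 + (n : ℝ) ^ (-c6)) * Gn n β ((1 - (n : ℝ) ^ (-c5)) * x) s
  late : ∃ ε : ℝ, 0 < ε ∧ ε ≤ 1 / 2 ∧ 4 * ε * Dn n β (2 * x) (s + τ) +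
    ε * Dn n β ((x - (1 - (n : ℝ) ^ (-c5)) * x) / ε) l ≤
      (n : ℝ) ^ (-c7) * ((x - (1 - (n : ℝ) ^ (-c5)) * x) * Gn n β x s)

lemma ev_log {a C : ℝ} (ha : 0 < a) : ∀ᶠ n : ℕ in atTop, C * Real.log n ≤ (n : ℝ) ^ a := by
  have h1 := (isLittleO_log_rpow_atTop ha).def (c := 1 / (|C| + 1)) (by positivity)
  have h2 := tendsto_natCast_atTop_atTop.eventually h1
  filter_upwards [h2, eventually_ge_atTop 1] with n h3 hn
  have hn1 : (1 : ℝ) ≤ n := by exact_mod_cast hn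
  have hl : 0 ≤ Real.log n := Real.log_nonneg hn1
  rw [Real.norm_eq_abs, Real.norm_eq_abs, abs_of_nonneg hl,
    abs_of_nonneg (Real.rpow_nonneg (by linarith) _), div_mul_eq_mul_div, one_mul,
    le_div_iff₀ (by positivity)] at h3
  have h4 : C ≤ |C| := le_abs_self C
  nlinarith

end Vale.Agent.P146.H159
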