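import Vale.Agent.P146.H159.Low8

/-!
The lower side for the free energy: the gain and the mass of the penalized weight.
-/

open MeasureTheory ProbabilityTheory Filter Topology

namespace Vale.Agent.P146.H159

open Vale.Agent.P157.Lv Vale.Agent.P146.H425 Vale.Agent.P146.H325 Vale.Agent.P146.H332
  Vale.Agent.P146.H712 Vale.Agent.P146.H816 Vale.Agent.P146.R1 Vale.Agent.P146.R1C Matrix
  Vale.Agent.P146.R1S Vale.Agent.P146.H655 Vale.Agent.P146.H946.En2
open Vale.Agent.P146.H785 (Ax lf fd_Ax)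
open Vale.Agent.P146.H693 (Aw eg_Aw Aw_add Aw_const_mul uu_tw Pm Tl)
open Vale.Agent.P146.H376 (V2)
open Vale.Agent.P146.H432 (Dn Gn AntiN Dn_tan' Gn_nonneg Gn_mono Dn_mono Dn_nonneg ev_small ev_big)

set_option linter.unusedSectionVars false

section cs

variable {n : ℕ} {k x : ℝ} (S : CS n k x)

lemma gn_eq {y s τ l x' : ℝ} (hl0 : 0 ≤ l) (hl : l ≤ s) (z : Pair n → ℝ) :
    gn S y (√τ) (1 - s) (1 - l) x' z = V2 y τ x s S.F z -
      W y (√τ) (W x' (√(s - l)) (uu x (1 - l) S.F)) z := by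
  have e1 : (1 - l : ℝ) - (1 - s) = s - l := by ring
  have e2 : W x (√(1 - l - (1 - s))) (uu x (1 - l) S.F) = uu x (1 - s) S.F :=
    (funext fun z => uu_tw S (by linarith) (by linarith) z).symm
  unfold gn
  rw [e2, e1]
  rfl

end cs

/-- **The gain under the penalized weight.** -/
theorem gain_ev {β a0 a e d w c ch c5 c6 c7 κ η : ℝ} (hβ : 0 < β) (hU : H695.UpM β a0)
    (haa : a0 < a) (hd : 0 ≤ d) (hw : 0 ≤ w) (hc : 2 * (d + w) + 2 * c < 5 * e) (h5 : 0 < c5)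
    (h5c : c5 < c) (h5h : c5 < ch) (h6 : 0 < c6) (h7 : 0 < c7) (hη : 0 < η) :
    ∀ᶠ n : ℕ in atTop, AntiN n β → ∀ x y s τ l : ℝ, LoH n β e a d w ch c5 c6 c7 x y s τ l →
      ∀ (hk : 0 < β / √n) (hx : 0 < x) (hx1 : x ≤ 1) (m σ : ℕ → ℝ) (b1 ε0 lam N0 : ℝ)
      (Y : (Pair n → ℝ) → Matrix (Fin n) (Fin n) ℝ), m 0 = y → m 1 = 0 → σ 0 = √τ → 0 ≤ b1 →
      0 ≤ σ 1 → b1 ^ 2 + σ 1 ^ 2 = 1 - (s + τ) → (∀ i j, EG fun z => Y z i j) →
      (∀ z, Psd (Y z)) → (∀ z i j, |Y z i j| ≤ n) → 0 ≤ ε0 → ε0 ≤ 1 →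
      (n : ℝ) ^ (-κ) ≤ Qm (skCS n hk hx hx1) (1 - s) m σ b1 (1 - l) ε0 lam η N0 Y →
      (1 - η / 16) * ((x - (1 - (n : ℝ) ^ (-c5)) * x) * Gn n β x s) *
        Qm (skCS n hk hx hx1) (1 - s) m σ b1 (1 - l) ε0 lam η N0 Y ≤
        Gm (skCS n hk hx hx1) (1 - s) m σ b1 (1 - l) ε0 lam η N0
          ((1 - (n : ℝ) ^ (-c5)) * x) Y := by
  filter_upwards [H767.gain3_p (Q := 5 + κ) hβ hU haa hd hw (by linarith : 0 ≤ c) hc,
    ev_small (a := c6) (δ := η / 64) h6 (by positivity),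
    ev_small (a := c7) (δ := η / 64) h7 (by positivity),
    ev_small (a := c - c5) (δ := η / 64) (by linarith) (by positivity),
    ev_small (a := ch - c5) (δ := η / 64) (by linarith) (by positivity),
    ev_small (a := c5) (δ := 1) h5 one_pos, eventually_ge_atTop 2]
    with n hg e6 e7 ec eh e5 hn hA x y s τ l H hk hx hx1 m σ b1 ε0 lam N0 Y hm0 hm1 hσ0 hb1 hσ1
      hbb hY hp hb hε0 hε1 hQ
  have hn2 : (2 : ℝ) ≤ n := by exact_mod_cast hn
  have hn0 : (0 : ℝ) < n := by linarith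
  set S := skCS n hk hx hx1 with hS
  set r := (n : ℝ) ^ (-c5) with hr
  have hr0 : 0 < r := by rw [hr]; positivity
  set x' := (1 - r) * x with hx'
  have hx'0 : 0 < x' := by rw [hx']; have : 0 < 1 - r := by linarith
                           positivity
  have hxx : x' < x := by rw [hx']; nlinarith
  have hy0 : 0 < y := by have := H.y_lo; linarith
  have hs0 : 0 < s := lt_of_lt_of_le (by positivity) H.s_lo
  have hls : l < 1 := by have := H.l_up; have := H.sτ; have := H.τ0; linarith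
  have hQ0 : 0 < Qm S (1 - s) m σ b1 (1 - l) ε0 lam η N0 Y := lt_of_lt_of_le (by positivity) hQ
  have h1t : (1 - s : ℝ) ≤ 1 - l := by have := H.l_up; linarith
  have ht1 : (1 - l : ℝ) ≤ 1 := by have := H.l0; linarith
  obtain ⟨ε, hε, hε2, hlate⟩ := H.late
  have key := hg hA x x' y s τ l ε b1 (σ 1) H.x_lo H.x_up H.x1 H.s_lo H.τ0 H.sτ H.y_lo H.y_up hxx
    H.l0.le H.l_up hε hε2 H.low hb1 hσ1 hbb (Option (Fin n × Fin n)) (fY ε0 Y)
    (fun p => A2 (m 0) (σ 0) x (√(1 - l - (1 - s))) (uu x (1 - l) S.F)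
      (ps S (1 - l) lam η N0 p))
    (fun p => eg_fY hY p) (fun p => eg_Be (c11_uu S.c11 S.x0 _) S.x0 (eg_ps S _ lam η N0 p) _ _ _)
    (fun v u => wt_nonneg S hp hε0 hY _ _ _ _ lam η N0 v u)
    (Qm S (1 - s) m σ b1 (1 - l) ε0 lam η N0 Y) hQ0 (Qm_eq S h1t ht1 hm1 b1 ε0 lam η N0 Y).symm
    (fun v u => by
      refine (wt_le S hp hε0 hb _ _ _ _ lam η N0 v u).trans ?_
      have h3 : (n : ℝ) ^ 3 * n + ε0 ≤ (n : ℝ) ^ 5 := by
        have a1 : (n : ℝ) ^ 5 = n * (n ^ 3 * n) := by ring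
        have a2 : (1 : ℝ) ≤ n ^ 3 * n := by
          have : (1 : ℝ) ≤ n := by linarith
          have := one_le_pow₀ (n := 4) this
          calc (1 : ℝ) ≤ n ^ 4 := this
            _ = _ := by ring
        rw [a1]
        nlinarith
      refine h3.trans ?_
      have h4 : (n : ℝ) ^ (5 + κ) * (n : ℝ) ^ (-κ) = (n : ℝ) ^ 5 := by
        rw [← Real.rpow_add hn0, ← Real.rpow_natCast]
        congr 1
        push_cast
        ring
      rw [← h4]
      exact mul_le_mul_of_nonneg_left hQ (by positivity))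
  have hG : Gm S (1 - s) m σ b1 (1 - l) ε0 lam η N0 x' Y =
      ∫ g, (∫ g', (∑ p, fY ε0 Y p (b1 • g) * A2 (m 0) (σ 0) x (√(1 - l - (1 - s)))
        (uu x (1 - l) S.F) (ps S (1 - l) lam η N0 p) (b1 • g + σ 1 • g')) *
          (V2 y τ x s (lz (β / √n) (SkS (n := n))) (b1 • g + σ 1 • g') -
            W y (√τ) (W x' (√(s - l)) (uu x (1 - l) (lz (β / √n) (SkS (n := n)))))
              (b1 • g + σ 1 • g')) ∂(gI (Pair n))) ∂(gI (Pair n)) := by
    unfold Gm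
    rw [hm0, hσ0]
    refine integral_congr_ae (Filter.Eventually.of_forall fun g => ?_)
    refine integral_congr_ae (Filter.Eventually.of_forall fun g' => ?_)
    simp only
    rw [gn_eq S H.l0.le H.l_up]
    rfl
  rw [hG]
  refine le_trans ?_ key
  refine mul_le_mul_of_nonneg_right ?_ hQ0.le
  have hs1 : s ≤ 1 := by have := H.sτ; have := H.τ0; linarith
  have hD := Dn_tan' n β hx'0 hx hs0.le hs1
  have hxr : x - x' = r * x := by rw [hx']; ring
  refine g_low (t1 := (n : ℝ) ^ (-c6)) (t2 := (n : ℝ) ^ (-(ch - c5))) (t3 := (n : ℝ) ^ (-(c - c5)))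
    (t4 := (n : ℝ) ^ (-c7)) (r := r) (Γ' := Gn n β x' s) hxx (Gn_nonneg n β hx hs0.le) hD H.reg
    (Gn_nonneg n β hx'0 hs0.le) e6.le (Dn_mono n β hx'0 hxx.le hs0.le hs1) H.val hxr
    (div_nonneg H.τ0 hs0.le) ?_ eh.le ?_ (by positivity) ec.le hlate e7.le hη.le (by positivity)
    (Dn_nonneg n β hx hs0.le hs1) hx
  · rw [div_le_iff₀ hs0, hr, ← Real.rpow_add hn0]
    have e1 : -(ch - c5) + -c5 = -ch := by ring
    rw [e1]
    exact H.τ_up
  · rw [hr, ← Real.rpow_add hn0]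
    exact le_of_eq (by congr 1; ring)

end Vale.Agent.P146.H159
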