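import Vale.Agent.P146.H159.Low9

/-!
The lower side for the free energy: the mass of the penalized weight is small.
-/

open MeasureTheory ProbabilityTheory Filter Topology

namespace Vale.Agent.P146.H159

open Vale.Agent.P157.Lv Vale.Agent.P146.H425 Vale.Agent.P146.H325 Vale.Agent.P146.H332
  Vale.Agent.P146.H712 Vale.Agent.P146.H816 Vale.Agent.P146.R1 Vale.Agent.P146.R1C Matrix
  Vale.Agent.P146.R1S Vale.Agent.P146.H655 Vale.Agent.P146.H946.En2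
open Vale.Agent.P146.H785 (Ax lf fd_Ax)
open Vale.Agent.P146.H693 (Aw eg_Aw Aw_add Aw_const_mul uu_tw Pm Tl)
open Vale.Agent.P146.H376 (V2)
open Vale.Agent.P146.H432 (Dn Gn AntiN Dn_tan' Gn_nonneg Gn_mono Dn_mono Dn_nonneg ev_small ev_big)

set_option linter.unusedSectionVars false

section num

variable {n : ℕ} {β e a d w ch c5 c6 c7 x y s τ l : ℝ}

lemma LoH.x0 (H : LoH n β e a d w ch c5 c6 c7 x y s τ l) (hn : 0 < n) : 0 < x :=
  lt_of_lt_of_le (Real.rpow_pos_of_pos (Nat.cast_pos.2 hn) _) H.x_lo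

lemma LoH.s0 (H : LoH n β e a d w ch c5 c6 c7 x y s τ l) (hn : 0 < n) : 0 < s := by
  have h1 : 0 < (n : ℝ) ^ (-w) := Real.rpow_pos_of_pos (Nat.cast_pos.2 hn) _
  have h2 := H.x0 hn
  exact lt_of_lt_of_le (by positivity) H.s_lo

lemma LoH.P1 (H : LoH n β e a d w ch c5 c6 c7 x y s τ l) (hn : 0 < n) :
    (n : ℝ) ^ (1 - d) * s * x ^ 4 ≤ x ^ 2 * Gn n β x s := by
  have hx := H.x0 hn
  calc (n : ℝ) ^ (1 - d) * s * x ^ 4 = x * ((n : ℝ) ^ (1 - d) * s * x ^ 3) := by ring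
    _ ≤ x * (x * Gn n β x s) := mul_le_mul_of_nonneg_left (H.low.trans H.val) hx.le
    _ = _ := by ring

lemma LoH.P2 (H : LoH n β e a d w ch c5 c6 c7 x y s τ l) (hn : 0 < n) :
    (n : ℝ) ^ (6 * e - d - w) ≤ (n : ℝ) ^ (1 - d) * s * x ^ 4 := by
  have hx := H.x0 hn
  have hn0 : (0 : ℝ) < n := Nat.cast_pos.2 hn
  have h1 : (n : ℝ) ^ (-1 + 6 * e) ≤ x ^ 6 := by
    have h2 := pow_le_pow_left₀ (Real.rpow_nonneg hn0.le _) H.x_lo 6
    rwa [← Real.rpow_natCast, ← Real.rpow_mul hn0.le,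
      show (-(1 / 6) + e) * ((6 : ℕ) : ℝ) = -1 + 6 * e by push_cast; ring] at h2
  calc (n : ℝ) ^ (6 * e - d - w) = (n : ℝ) ^ (1 - d) * (n : ℝ) ^ (-w) * (n : ℝ) ^ (-1 + 6 * e) := by
        rw [← Real.rpow_add hn0, ← Real.rpow_add hn0]; congr 1; ring
    _ ≤ (n : ℝ) ^ (1 - d) * (n : ℝ) ^ (-w) * x ^ 6 := by gcongr
    _ = (n : ℝ) ^ (1 - d) * ((n : ℝ) ^ (-w) * x ^ 2) * x ^ 4 := by ring
    _ ≤ (n : ℝ) ^ (1 - d) * s * x ^ 4 := by
        have := H.s_lo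
        gcongr

end num

/-- the parameter of the cutoff -/
noncomputable def lamn (n : ℕ) (κ η : ℝ) : ℝ := 2 * (κ + 1) * Real.log n / η

/-- the level `n² ρ²` -/
noncomputable def N0n (n : ℕ) (β x s : ℝ) : ℝ := 4 * n * Gn n β x s / (β ^ 2 * s)

lemma exp_log_mul {n K : ℝ} (hn : 0 < n) : Real.exp (-(K * Real.log n)) = n ^ (-K) := by
  rw [Real.rpow_def_of_pos hn]
  congr 1
  ring

/-! ### the four error terms -/

lemma fin_num {x x' r P η T A Q E1 E2 E3 MM : ℝ} (hx : 0 < x) (hr : 0 < r) (hP : 0 < P)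
    (hη : 0 < η) (hxr : x - x' = r * x) (hTA : 0 ≤ T * A) (hQ : T * A < Q)
    (fin : η / 8 * ((x - x') * P) * Q ≤ (x - x') * (E1 + E2 + E3) + 8 * x * MM)
    (b1 : E1 ≤ P * (η / 64) * (T * A)) (b2 : E2 ≤ P * (η / 64) * (T * A))
    (b3 : E3 ≤ P * (η / 64) * (T * A)) (b4 : 8 * x * MM ≤ r * x * (P * (η / 64) * (T * A))) :
    False := by
  rw [hxr] at fin
  have h0 : 0 < r * x := by positivity
  have h1 : (r * x) * (E1 + E2 + E3) ≤ (r * x) * (3 * (P * (η / 64) * (T * A))) :=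
    mul_le_mul_of_nonneg_left (by linarith) h0.le
  have h2 : η / 8 * (r * x * P) * (T * A) < η / 8 * (r * x * P) * Q :=
    mul_lt_mul_of_pos_left hQ (by positivity)
  have h3 : (r * x) * (3 * (P * (η / 64) * (T * A))) + r * x * (P * (η / 64) * (T * A)) =
      η / 8 * (r * x * P) * (T * A) / 2 := by ring
  have h4 : 0 ≤ η / 8 * (r * x * P) * (T * A) := by positivity
  linarith

lemma bnd1 {n P η κ A : ℝ} (hn : 2 ≤ n) (hP : 0 < P) (hη : 0 < η) (hA : 1 ≤ A)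
    (h : 256 / η < n ^ (1 : ℝ)) :
    2 * P * Real.exp (-(2 * (κ + 1) * Real.log n / η * η / 2)) * (A + n ^ (-2 : ℝ)) ≤
      P * (η / 64) * (n ^ (-κ) * A) := by
  have hn0 : 0 < n := by linarith
  have e1 : 2 * (κ + 1) * Real.log n / η * η / 2 = (κ + 1) * Real.log n := by field_simp
  rw [e1, exp_log_mul hn0]
  have e2 : n ^ (-(κ + 1)) = n ^ (-κ) * n⁻¹ := by
    rw [← Real.rpow_neg_one, ← Real.rpow_add hn0]; congr 1; ring
  rw [e2]
  have h1 : n ^ (-2 : ℝ) ≤ 1 := Real.rpow_le_one_of_one_le_of_nonpos (by linarith) (by norm_num)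
  rw [Real.rpow_one] at h
  have h2 : n⁻¹ ≤ η / 256 := by
    rw [inv_le_comm₀ hn0 (by positivity), inv_div]
    exact h.le
  have h3 : 0 ≤ n ^ (-κ) := Real.rpow_nonneg hn0.le _
  calc 2 * P * (n ^ (-κ) * n⁻¹) * (A + n ^ (-2 : ℝ)) ≤
        2 * P * (n ^ (-κ) * (η / 256)) * (A + A) := by gcongr; linarith
    _ = _ := by ring

lemma bnd2 {n P s η κ α g A A3 : ℝ} (hn : 2 ≤ n) (hP : n ^ g ≤ P) (hs : 0 < s) (hη : 0 < η)
    (hA : 0 < A) (h3 : A3 ≤ n ^ α / s * A) (h : 36 * 64 / η ^ 2 < n ^ (g - α - κ)) :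
    36 * s / η * A3 ≤ P * (η / 64) * (n ^ (-κ) * A) := by
  have hn0 : 0 < n := by linarith
  have h4 : 36 * s / η * A3 ≤ 36 * s / η * (n ^ α / s * A) :=
    mul_le_mul_of_nonneg_left h3 (by positivity)
  have h5 : 36 * 64 / η ^ 2 * (n ^ α * n ^ κ) ≤ P := by
    refine le_trans ?_ hP
    have h6 : n ^ g = n ^ (g - α - κ) * (n ^ α * n ^ κ) := by
      rw [← Real.rpow_add hn0, ← Real.rpow_add hn0]; congr 1; ring
    rw [h6]
    exact mul_le_mul_of_nonneg_right h.le (by positivity)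
  have h7 : 0 ≤ η / 64 * (n ^ (-κ) * A) := by positivity
  have h8 := mul_le_mul_of_nonneg_right h5 h7
  refine h4.trans (le_trans (le_of_eq ?_) (h8.trans (le_of_eq (by ring))))
  have h9 : n ^ κ * n ^ (-κ) = 1 := by rw [← Real.rpow_add hn0, add_neg_cancel, Real.rpow_zero]
  calc 36 * s / η * (n ^ α / s * A) = 36 / η * n ^ α * A * 1 := by field_simp
    _ = 36 / η * n ^ α * A * (n ^ κ * n ^ (-κ)) := by rw [h9]
    _ = _ := by field_simp

lemma bnd3 {n P s x Γ β η κ α g d A A4 N0 l2 : ℝ} (hn : 2 ≤ n) (hPg : n ^ g ≤ P)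
    (hP : n ^ (1 - d) * s * x ^ 4 ≤ P) (hx : 0 < x) (hs : 0 < s) (hη : 0 < η) (hβ : 0 < β)
    (hΓ : 0 < Γ) (hPe : P = x ^ 2 * Γ) (hN : N0 = 4 * n * Γ / (β ^ 2 * s)) (hl2 : 0 ≤ l2)
    (hA : 0 < A) (h4 : A4 ≤ 2 * (n ^ α * (n * x) ^ 2 / s * A))
    (h : 144 * 64 / η ^ 2 * (β ^ 2 / 4) * l2 ≤ n ^ (g - d - α - κ)) :
    72 * s / η * (l2 / N0) * A4 ≤ P * (η / 64) * (n ^ (-κ) * A) := by
  have hn0 : 0 < n := by linarith
  have hP0 : 0 < P := by rw [hPe]; positivity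
  have hN0 : 0 < N0 := by rw [hN]; positivity
  have h5 : 72 * s / η * (l2 / N0) * A4 ≤
      72 * s / η * (l2 / N0) * (2 * (n ^ α * (n * x) ^ 2 / s * A)) :=
    mul_le_mul_of_nonneg_left h4 (by positivity)
  have e1 : 72 * s / η * (l2 / N0) * (2 * (n ^ α * (n * x) ^ 2 / s * A)) * P =
      144 / η * (β ^ 2 / 4) * l2 * (n ^ α * (n * s * x ^ 4)) * A := by
    rw [hPe, hN]
    field_simp
    ring
  have h9 : n ^ κ * n ^ (-κ) = 1 := by rw [← Real.rpow_add hn0, add_neg_cancel, Real.rpow_zero]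
  have h6 : 144 * 64 / η ^ 2 * (β ^ 2 / 4) * l2 * (n ^ α * n ^ κ * (n * s * x ^ 4)) ≤ P * P := by
    have a1 : n ^ (g - d - α - κ) * (n ^ α * n ^ κ * (n * s * x ^ 4)) =
        n ^ g * (n ^ (1 - d) * s * x ^ 4) := by
      have a2 : n ^ g * n ^ (1 - d) = n ^ (g - d - α - κ) * (n ^ α * n ^ κ) * n ^ (1 : ℝ) := by
        rw [← Real.rpow_add hn0, ← Real.rpow_add hn0, ← Real.rpow_add hn0, ← Real.rpow_add hn0]
        congr 1; ring
      rw [Real.rpow_one] at a2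
      calc _ = n ^ (g - d - α - κ) * (n ^ α * n ^ κ) * n * (s * x ^ 4) := by ring
        _ = n ^ g * n ^ (1 - d) * (s * x ^ 4) := by rw [← a2]
        _ = _ := by ring
    calc _ ≤ n ^ (g - d - α - κ) * (n ^ α * n ^ κ * (n * s * x ^ 4)) :=
          mul_le_mul_of_nonneg_right h (by positivity)
      _ = n ^ g * (n ^ (1 - d) * s * x ^ 4) := a1
      _ ≤ P * P := mul_le_mul hPg hP (by positivity) hP0.le
  refine h5.trans (le_of_mul_le_mul_right ?_ hP0)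
  rw [e1]
  have h7 : 0 ≤ η / 64 * (n ^ (-κ) * A) := by positivity
  have h8 := mul_le_mul_of_nonneg_right h6 h7
  refine le_trans (le_of_eq ?_) (h8.trans (le_of_eq (by ring)))
  calc 144 / η * (β ^ 2 / 4) * l2 * (n ^ α * (n * s * x ^ 4)) * A =
        144 / η * (β ^ 2 / 4) * l2 * (n ^ α * (n * s * x ^ 4)) * A * 1 := by ring
    _ = 144 / η * (β ^ 2 / 4) * l2 * (n ^ α * (n * s * x ^ 4)) * A * (n ^ κ * n ^ (-κ)) := by
        rw [h9]
    _ = _ := by field_simp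

lemma bnd4 {n P x r η κ c5 A : ℝ} (hn : 2 ≤ n) (hP : 1 ≤ P) (hx : 0 < x) (hη : 0 < η)
    (hA : 1 ≤ A) (hr : r = n ^ (-c5)) (h : 1024 / η < n ^ (2 : ℝ)) :
    8 * x * ((n ^ 3 * n + n ^ (-2 : ℝ)) * Real.exp (-((κ + 6 + c5) * Real.log n))) ≤
      r * x * (P * (η / 64) * (n ^ (-κ) * A)) := by
  have hn0 : 0 < n := by linarith
  rw [exp_log_mul hn0]
  have h1 : n ^ (-2 : ℝ) ≤ 1 := Real.rpow_le_one_of_one_le_of_nonpos (by linarith) (by norm_num)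
  have h2 : n ^ 3 * n + n ^ (-2 : ℝ) ≤ 2 * n ^ (4 : ℝ) := by
    have a1 : n ^ (4 : ℝ) = n ^ 3 * n := by
      rw [show (4 : ℝ) = ((4 : ℕ) : ℝ) by norm_num, Real.rpow_natCast]; ring
    have a2 : 1 ≤ n ^ 3 * n := by
      have := one_le_pow₀ (n := 4) (show (1 : ℝ) ≤ n by linarith)
      calc (1 : ℝ) ≤ n ^ 4 := this
        _ = _ := by ring
    rw [a1]
    linarith
  have e2 : n ^ (4 : ℝ) * n ^ (-(κ + 6 + c5)) = n ^ (-c5) * n ^ (-κ) * n ^ (-2 : ℝ) := by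
    rw [← Real.rpow_add hn0, ← Real.rpow_add hn0, ← Real.rpow_add hn0]; congr 1; ring
  have h3 : n ^ (-2 : ℝ) ≤ η / 1024 := by
    rw [Real.rpow_neg hn0.le, inv_le_comm₀ (by positivity) (by positivity), inv_div]
    exact h.le
  have hκ : 0 < n ^ (-κ) := Real.rpow_pos_of_pos hn0 _
  have hc : 0 < n ^ (-c5) := Real.rpow_pos_of_pos hn0 _
  have hK : 0 < n ^ (-(κ + 6 + c5)) := Real.rpow_pos_of_pos hn0 _
  calc 8 * x * ((n ^ 3 * n + n ^ (-2 : ℝ)) * n ^ (-(κ + 6 + c5))) ≤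
        8 * x * (2 * n ^ (4 : ℝ) * n ^ (-(κ + 6 + c5))) := by gcongr
    _ = 16 * x * (n ^ (4 : ℝ) * n ^ (-(κ + 6 + c5))) := by ring
    _ = 16 * x * (n ^ (-c5) * n ^ (-κ) * n ^ (-2 : ℝ)) := by rw [e2]
    _ ≤ 16 * x * (n ^ (-c5) * n ^ (-κ) * (η / 1024)) := by gcongr
    _ = n ^ (-c5) * x * (1 * (η / 64) * (n ^ (-κ) * 1)) := by ring
    _ ≤ r * x * (P * (η / 64) * (n ^ (-κ) * A)) := by rw [hr]; gcongr

lemma bnd5 {n x s α A β T e : ℝ} (hn : 2 ≤ n) (hx : n ^ (-(1 / 6) + e) ≤ x) (he : 0 ≤ e)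
    (hs : 0 < s) (hs1 : s ≤ 1) (hα : 0 ≤ α) (hA : 1 ≤ A) (hβ : β ^ 2 < n ^ (1 / 2 : ℝ))
    (hT : T ≤ n ^ α * (n * x) ^ 2 / s * A) :
    T + n ^ (-2 : ℝ) * (n ^ 4 * (β ^ 2 / n)) ≤ 2 * (n ^ α * (n * x) ^ 2 / s * A) := by
  have hn0 : 0 < n := by linarith
  have h1 : n ^ (-(1 / 6) : ℝ) ≤ x := (Real.rpow_le_rpow_of_exponent_le (by linarith)
    (by linarith)).trans hx
  have hx0 : 0 < x := (Real.rpow_pos_of_pos hn0 _).trans_le h1
  have h2 : n ^ (-2 : ℝ) * (n ^ 4 * (β ^ 2 / n)) = n * β ^ 2 := by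
    have : n ^ (-2 : ℝ) = (n ^ 2)⁻¹ := by
      rw [Real.rpow_neg hn0.le]
      congr 1
      rw [show (2 : ℝ) = ((2 : ℕ) : ℝ) by norm_num, Real.rpow_natCast]
    rw [this]
    field_simp
  have h3 : n * β ^ 2 ≤ (n * x) ^ 2 := by
    have a1 : n * β ^ 2 ≤ n ^ (1 : ℝ) * n ^ (1 / 2 : ℝ) := by
      rw [Real.rpow_one]
      exact mul_le_mul_of_nonneg_left hβ.le hn0.le
    rw [← Real.rpow_add hn0] at a1
    have a2 : n ^ ((5 : ℝ) / 6) ≤ n * x := by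
      have := mul_le_mul_of_nonneg_left h1 hn0.le
      refine le_trans (le_of_eq ?_) this
      nth_rewrite 2 [← Real.rpow_one n]
      rw [← Real.rpow_add hn0]
      congr 1; norm_num
    have a3 := pow_le_pow_left₀ (Real.rpow_nonneg hn0.le _) a2 2
    rw [← Real.rpow_natCast, ← Real.rpow_mul hn0.le] at a3
    refine a1.trans (le_trans ?_ a3)
    exact Real.rpow_le_rpow_of_exponent_le (by linarith) (by norm_num)
  have h4 : (n * x) ^ 2 ≤ n ^ α * (n * x) ^ 2 / s * A := by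
    have b1 : 1 ≤ n ^ α := Real.one_le_rpow (by linarith) hα
    have b2 : (n * x) ^ 2 ≤ n ^ α * (n * x) ^ 2 := le_mul_of_one_le_left (sq_nonneg _) b1
    have b3 : n ^ α * (n * x) ^ 2 ≤ n ^ α * (n * x) ^ 2 / s := by
      rw [le_div_iff₀ hs]
      exact mul_le_of_le_one_right (by positivity) hs1
    exact (b2.trans b3).trans (le_mul_of_one_le_right (by positivity) hA)
  rw [h2]
  linarith

/-- **The mass of the penalized weight is small.** -/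
theorem mass_ev {β a0 a e d w c ch c5 c6 c7 α κ η : ℝ} (hβ : 0 < β) (hU : H695.UpM β a0)
    (haa : a0 < a) (hd : 0 ≤ d) (hw : 0 ≤ w) (hc : 2 * (d + w) + 2 * c < 5 * e) (h5 : 0 < c5)
    (h5c : c5 < c) (h5h : c5 < ch) (h6 : 0 < c6) (h7 : 0 < c7) (hη : 0 < η) (hη1 : η ≤ 1)
    (hκ : 0 < κ) (hα : 0 ≤ α) (_h5g : c5 + d + w < 6 * e) (hg : κ + α + 2 * d + w < 6 * e)
    (he : e ≤ 1 / 6) :
    ∀ᶠ n : ℕ in atTop, AntiN n β → ∀ x y s τ l : ℝ, LoH n β e a d w ch c5 c6 c7 x y s τ l →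
      ∀ (hk : 0 < β / √n) (hx : 0 < x) (hx1 : x ≤ 1) (m σ : ℕ → ℝ) (b1 : ℝ)
      (Y : (Pair n → ℝ) → Matrix (Fin n) (Fin n) ℝ), m 0 = y → m 1 = 0 → σ 0 = √τ → 0 ≤ b1 →
      0 ≤ σ 1 → b1 ^ 2 + σ 1 ^ 2 = 1 - (s + τ) → (∀ i j, EG fun z => Y z i j) →
      (∀ z, Psd (Y z)) → (∀ z i j, |Y z i j| ≤ n) →
      1 ≤ NW (skCS n hk hx hx1) (1 - s) m σ 2 b1 Y (1 - l) →
      EnW (skCS n hk hx hx1) (1 - s) m σ 2 b1 Y (1 - l) ≤
        (n : ℝ) ^ α / s * NW (skCS n hk hx hx1) (1 - s) m σ 2 b1 Y (1 - l) →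
      EnTW (skCS n hk hx hx1) (1 - s) m σ 2 b1 Y (1 - l) ≤
        (n : ℝ) ^ α * (n * x) ^ 2 / s * NW (skCS n hk hx hx1) (1 - s) m σ 2 b1 Y (1 - l) →
      Qm (skCS n hk hx hx1) (1 - s) m σ b1 (1 - l) ((n : ℝ) ^ (-2 : ℝ)) (lamn n κ η) η
        (N0n n β x s) Y ≤
        (n : ℝ) ^ (-κ) * NW (skCS n hk hx hx1) (1 - s) m σ 2 b1 Y (1 - l) := by
  have hγ : 0 < 6 * e - 2 * d - w - α - κ := by linarith
  filter_upwards [gain_ev (κ := κ) (η := η) hβ hU haa hd hw hc h5 h5c h5h h6 h7 hη,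
    ev_small (a := c5) (δ := η / 16) h5 (by positivity),
    ev_log (a := 6 * e - d - w - c5) (C := 64 * (κ + 6 + c5) / η) (by linarith),
    ev_log (a := (6 * e - 2 * d - w - α - κ) / 2)
      (C := √(144 * 64 / η ^ 2 * (β ^ 2 / 4)) * (2 * (κ + 1) / η)) (by linarith),
    ev_big (a := 6 * e - d - w - α - κ) (C := 36 * 64 / η ^ 2) (by linarith),
    ev_big (a := 1) (C := 256 / η) one_pos, ev_big (a := 2) (C := 1024 / η) (by norm_num),
    ev_log (a := 1) (C := 1) one_pos,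
    ev_big (a := 1 / 2) (C := β ^ 2) (by norm_num),
    (tendsto_natCast_atTop_atTop (R := ℝ)).eventually
      ((Real.tendsto_log_atTop).eventually_ge_atTop (η / (κ + 1))), eventually_ge_atTop 2]
    with n hgn e5 elg elg2 eb1 eb2 eb3 _ eβ elog hn hA x y s τ l H hk hx hx1 m σ b1 Y hm0 hm1 hσ0
      hb1 hσ1 hbb hY hp hb hN hE hT
  have hn2 : (2 : ℝ) ≤ n := by exact_mod_cast hn
  have hn0 : (0 : ℝ) < n := by linarith
  have hnp : 0 < n := by omega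
  set S := skCS n hk hx hx1 with hS
  set A := NW S (1 - s) m σ 2 b1 Y (1 - l) with hAdef
  set Q := Qm S (1 - s) m σ b1 (1 - l) ((n : ℝ) ^ (-2 : ℝ)) (lamn n κ η) η (N0n n β x s) Y
    with hQdef
  by_contra hcon
  rw [not_le] at hcon
  have hA0 : 0 < A := by linarith
  have hpκ : 0 < (n : ℝ) ^ (-κ) := Real.rpow_pos_of_pos hn0 _
  have hQκ : (n : ℝ) ^ (-κ) ≤ Q := by
    refine le_trans ?_ hcon.le
    exact le_mul_of_one_le_right hpκ.le hN
  have hQ0 : 0 < Q := hpκ.trans_le hQκ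
  have hs0 := H.s0 hnp
  have hP1 := H.P1 hnp
  have hP2 := H.P2 hnp
  set Γ := Gn n β x s with hΓdef
  set P := x ^ 2 * Γ with hPdef
  have hP0 : 0 < P := by
    have : 0 < (n : ℝ) ^ (6 * e - d - w) := Real.rpow_pos_of_pos hn0 _
    linarith
  have hPg : (n : ℝ) ^ (6 * e - d - w) ≤ P := hP2.trans hP1
  have hΓ : 0 < Γ := by
    by_contra h
    have : x ^ 2 * Γ ≤ 0 := mul_nonpos_of_nonneg_of_nonpos (by positivity) (not_lt.1 h)
    linarith
  have hpm2 : (n : ℝ) ^ (-2 : ℝ) ≤ 1 := Real.rpow_le_one_of_one_le_of_nonpos (by linarith)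
    (by norm_num)
  have hpm0 : 0 < (n : ℝ) ^ (-2 : ℝ) := Real.rpow_pos_of_pos hn0 _
  have r2 := hgn hA x y s τ l H hk hx hx1 m σ b1 ((n : ℝ) ^ (-2 : ℝ)) (lamn n κ η) (N0n n β x s)
    Y hm0 hm1 hσ0 hb1 hσ1 hbb hY hp hb hpm0.le hpm2 hQκ
  rw [← hS, ← hQdef, ← hΓdef] at r2
  set r := (n : ℝ) ^ (-c5) with hr
  have hr0 : 0 < r := Real.rpow_pos_of_pos hn0 _
  set x' := (1 - r) * x with hx'
  have hr1 : r < 1 := by linarith
  have hx'0 : 0 < x' := by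
    have : 0 < 1 - r := by linarith
    rw [hx']; positivity
  have hxx : x' < x := by rw [hx']; exact mul_lt_of_lt_one_left hx (by linarith)
  have hxr : x - x' = r * x := by rw [hx']; ring
  have hN00 : 0 < N0n n β x s := by unfold N0n; positivity
  have hlog0 : 0 < Real.log n := Real.log_pos (by linarith)
  have hlam : 2 ≤ lamn n κ η := by
    unfold lamn
    rw [le_div_iff₀ hη]
    have h3 : η / (κ + 1) ≤ Real.log n := elog
    rw [div_le_iff₀ (by linarith)] at h3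
    linarith
  have hLg0 : 0 ≤ (κ + 6 + c5) * Real.log n := by positivity
  have hk2 : (0 : ℝ) < (β / √n) ^ 2 := by positivity
  have hk2e : (β / √n) ^ 2 = β ^ 2 / n := by rw [div_pow, Real.sq_sqrt hn0.le]
  have hNs : (β / √n) ^ 2 * N0n n β x s * s = 4 * Γ := by
    rw [hk2e]
    unfold N0n
    rw [← hΓdef]
    field_simp
  have hls : l ≤ s := H.l_up
  have hl0 : 0 < l := H.l0
  have hs1 : s < 1 := by have := H.sτ; have := H.τ0; linarith
  have hy0 : 0 < y := by have := H.y_lo; linarith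
  have hyx : y ≤ x := H.y_up.trans hxx.le
  have low := low_int S (σ := σ) (tw := 1 - s) (t := 1 - l) (c := b1) (bM := (n : ℝ))
    (ε := (n : ℝ) ^ (-2 : ℝ)) (δ := η / 8) (η := η) (lam := lamn n κ η) (N0 := N0n n β x s)
    (x' := x') (by linarith) (by linarith) (by linarith) hm0 hm1 hY hp hb hn0.le hpm0
    (by positivity) hN00 hlam hη.le hη1 hx'0 hxx hy0 hyx ((κ + 6 + c5) * Real.log n)
  have e1t : (1 - l : ℝ) - (1 - s) = s - l := by ring
  rw [e1t] at low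
  have hε4 : 0 ≤ (n : ℝ) ^ (-2 : ℝ) * ((n : ℝ) ^ 4 * (β / √n) ^ 2) := by positivity
  have hEn0 : 0 ≤ EnTW S (1 - s) m σ 2 b1 Y (1 - l) := EnTW_nonneg b1 hp
  have hEw0 : 0 ≤ EnW S (1 - s) m σ 2 b1 Y (1 - l) := EnW_nonneg b1 hp
  have fin := alg_fin (Γ := Γ) (l2 := (lamn n κ η) ^ 2) (b2 := s - l) (k2 := (β / √n) ^ 2)
    (N0 := N0n n β x s) (Lg := (κ + 6 + c5) * Real.log n) (Q := Q)
    (A2 := A + (n : ℝ) ^ (-2 : ℝ)) (A3 := EnW S (1 - s) m σ 2 b1 Y (1 - l))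
    (A4 := EnTW S (1 - s) m σ 2 b1 Y (1 - l) +
      (n : ℝ) ^ (-2 : ℝ) * ((n : ℝ) ^ 4 * (β / √n) ^ 2))
    (e1 := Real.exp (-(lamn n κ η * η / 2)))
    (MM := ((n : ℝ) ^ 3 * n + (n : ℝ) ^ (-2 : ℝ)) * Real.exp (-((κ + 6 + c5) * Real.log n)))
    (η := η) (y := y) hx'0 hxx H.y_lo hs0 (by linarith) (by linarith) hΓ hη hη1 hN00 hk2 hNs
    (by rw [hx']; exact mul_le_mul_of_nonneg_right (by linarith) hx.le) hQ0.le (by positivity) hEw0 (by positivity) (Real.exp_pos _).le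
    (sq_nonneg _) hLg0 (by positivity) r2 ?_ low
  · -- the contradiction
    have hP1' : 1 ≤ P := by
      refine le_trans ?_ hPg
      exact Real.one_le_rpow (by linarith) (by linarith)
    have hlamn : lamn n κ η = 2 * (κ + 1) * Real.log n / η := rfl
    refine fin_num (T := (n : ℝ) ^ (-κ)) (A := A) hx hr0 hP0 hη hxr (by positivity) hcon fin
      ?_ ?_ ?_ ?_
    · rw [hlamn]
      exact bnd1 hn2 hP0 hη hN eb2
    · exact bnd2 (α := α) (g := 6 * e - d - w) hn2 hPg hs0 hη hA0 hE eb1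
    · refine bnd3 (α := α) (g := 6 * e - d - w) (d := d) (Γ := Γ) (β := β) (x := x) hn2 hPg hP1 hx
        hs0 hη hβ hΓ rfl rfl (sq_nonneg _) hA0 ?_ ?_
      · rw [hk2e]
        exact bnd5 hn2 H.x_lo (by linarith) hs0 hs1.le hα hN eβ hT
      · have a1 := pow_le_pow_left₀ (by positivity) elg2 2
        have a2 : ((n : ℝ) ^ ((6 * e - 2 * d - w - α - κ) / 2)) ^ 2 =
            (n : ℝ) ^ (6 * e - d - w - d - α - κ) := by
          rw [← Real.rpow_natCast, ← Real.rpow_mul hn0.le]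
          congr 1; push_cast; ring
        rw [a2] at a1
        refine le_trans (le_of_eq ?_) a1
        rw [hlamn]
        have a3 : (√(144 * 64 / η ^ 2 * (β ^ 2 / 4)) * (2 * (κ + 1) / η) * Real.log n) ^ 2 =
            √(144 * 64 / η ^ 2 * (β ^ 2 / 4)) ^ 2 * (2 * (κ + 1) * Real.log n / η) ^ 2 := by
          ring
        rw [a3, Real.sq_sqrt (by positivity)]
    · exact bnd4 (P := P) (A := A) hn2 hP1' hx hη hN hr eb3
  · -- `r3`
    rw [hxr]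
    have h1 : 64 * (κ + 6 + c5) / η * Real.log n ≤ r * P := by
      refine elg.trans ?_
      have h2 : (n : ℝ) ^ (6 * e - d - w - c5) = r * (n : ℝ) ^ (6 * e - d - w) := by
        rw [hr, ← Real.rpow_add hn0]; congr 1; ring
      rw [h2]
      exact mul_le_mul_of_nonneg_left hPg hr0.le
    have h2 := mul_le_mul_of_nonneg_left h1 (show 0 ≤ η / 8 * x by positivity)
    calc 8 * x * ((κ + 6 + c5) * Real.log n) =
          η / 8 * x * (64 * (κ + 6 + c5) / η * Real.log n) := by field_simp; ring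
      _ ≤ η / 8 * x * (r * P) := h2
      _ = _ := by rw [hPdef]; ring

end Vale.Agent.P146.H159
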