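import Vale.Agent.P146.H159.LowA

/-!
The lower side for the free energy: the lower share and the mean of `|C|`.
-/

open MeasureTheory ProbabilityTheory Filter Topology

namespace Vale.Agent.P146.H159

open Vale.Agent.P157.Lv Vale.Agent.P146.H425 Vale.Agent.P146.H325 Vale.Agent.P146.H332
  Vale.Agent.P146.H712 Vale.Agent.P146.H816 Vale.Agent.P146.R1 Vale.Agent.P146.R1C Matrix
  Vale.Agent.P146.R1S Vale.Agent.P146.H655 Vale.Agent.P146.H946.En2
open Vale.Agent.P146.H785 (Ax lf fd_Ax)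
open Vale.Agent.P146.H693 (Aw eg_Aw Aw_add Aw_const_mul uu_tw Pm Tl)
open Vale.Agent.P146.H376 (V2)
open Vale.Agent.P146.H432 (Dn Gn AntiN Dn_tan' Gn_nonneg Gn_mono Dn_mono Dn_nonneg ev_small ev_big)

set_option linter.unusedSectionVars false

section cs

variable {n : ℕ} {k x : ℝ} (S : CS n k x) {w t c : ℝ} {m σ : ℕ → ℝ} {N : ℕ}
  {Y : (Pair n → ℝ) → Matrix (Fin n) (Fin n) ℝ}

/-- `E <Y, C_t²> 1{|C_t|² ≤ Nb}` -/
noncomputable def LSW (S : CS n k x) (w : ℝ) (m σ : ℕ → ℝ) (N : ℕ) (c : ℝ)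
    (Y : (Pair n → ℝ) → Matrix (Fin n) (Fin n) ℝ) (t Nb : ℝ) : ℝ :=
  ∫ g, E1 S w m σ N t (fun u => qF S t (Y (c • g)) u * (1 - bd S Nb t u)) (c • g) ∂(gI (Pair n))

/-- `E <Y, C_t²> |C_t|` -/
noncomputable def RSW (S : CS n k x) (w : ℝ) (m σ : ℕ → ℝ) (N : ℕ) (c : ℝ)
    (Y : (Pair n → ℝ) → Matrix (Fin n) (Fin n) ℝ) (t : ℝ) : ℝ :=
  ∫ g, E1 S w m σ N t (fun u => qF S t (Y (c • g)) u * √(fr (S.A t u))) (c • g) ∂(gI (Pair n))

lemma eg_bc (Nb t : ℝ) : EG fun u => 1 - bd S Nb t u := (EG.const 1).sub (eg_bd S Nb t)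

lemma eg_rt (t : ℝ) : EG fun u => √(fr (S.A t u)) := by
  refine EG.of_bdd (C := (n : ℝ)) ?_ fun u => ?_
  · exact (H946.En2.eg_frA (S := S) t).meas.sqrt
  · rw [abs_of_nonneg (Real.sqrt_nonneg _)]
    have := Real.sqrt_le_sqrt (frA_le (S := S) t u)
    rwa [Real.sqrt_sq (Nat.cast_nonneg n)] at this

/-- the lower share is at most twice the mass of the penalized weight -/
theorem LSW_le_Qm (hm : Pm m 2) (hY : ∀ i j, EG fun z => Y z i j) (hp : ∀ z, Psd (Y z))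
    {ε lam η N0 : ℝ} (hε : 0 ≤ ε) (hlam : 0 ≤ lam) (hN0 : 0 < N0) :
    LSW S w m σ 2 c Y t ((1 - η) * N0) ≤ 2 * Qm S w m σ c t ε lam η N0 Y := by
  unfold LSW Qm
  rw [← integral_const_mul]
  have h1 : EG fun g : Pair n → ℝ =>
      E1 S w m σ 2 t (wq S t ε lam η N0 (Y (c • g))) (c • g) := by
    have h3 := eg_form (S := S) (w := w) (t := t) (σ := σ) hm hY (eg_gc S t lam η N0) c
    have h4 := eg_sc (eg_E1 (S := S) (w := w) (t := t) (σ := σ) hm
      ((eg_gc S t lam η N0).const_mul ε)) c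
    have h5 : (fun g : Pair n → ℝ => E1 S w m σ 2 t (wq S t ε lam η N0 (Y (c • g))) (c • g)) =
        fun g => E1 S w m σ 2 t (fun u => qF S t (Y (c • g)) u * gc S t lam η N0 u) (c • g) +
          E1 S w m σ 2 t (fun u => ε * gc S t lam η N0 u) (c • g) := by
      funext g
      rw [← E1_add hm ((eg_qF t _).mul (eg_gc S t lam η N0))
        ((eg_gc S t lam η N0).const_mul ε)]
      congr 1
      funext u
      exact wq_eq S t ε lam η N0 _ u
    rw [h5]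
    exact h3.add h4
  refine integral_mono (eg_form (S := S) (w := w) (t := t) (σ := σ) hm hY
    (eg_bc S ((1 - η) * N0) t) c).integrable (h1.const_mul 2).integrable fun g => ?_
  simp only
  rw [← E1_const_mul]
  refine E1_mono hm ((eg_qF t _).mul (eg_bc S _ t)) ((eg_wq S t ε lam η N0 _).const_mul 2)
    (fun u => ?_) (c • g)
  have hq := qF_nonneg (S := S) (t := t) (hp (c • g)) u
  have hg := gl_pos lam η (fr (S.A t u) / N0)
  unfold wq qq bd
  simp only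
  split_ifs with h
  · have h3 : 1 / 2 ≤ gl lam η (fr (S.A t u) / N0) :=
      gl_half hlam (by rw [div_le_iff₀ hN0]; exact h)
    have h4 : (qF S t (Y (c • g)) u + ε) * (1 / 2) ≤
        (qF S t (Y (c • g)) u + ε) * gl lam η (fr (S.A t u) / N0) :=
      mul_le_mul_of_nonneg_left h3 (by linarith)
    linarith
  · have : 0 ≤ (qF S t (Y (c • g)) u + ε) * gl lam η (fr (S.A t u) / N0) :=
      mul_nonneg (by linarith) hg.le
    linarith

/-- the mean of `|C|` from the lower share -/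
theorem root_ge (hm : Pm m N) (hY : ∀ i j, EG fun z => Y z i j) (hp : ∀ z, Psd (Y z))
    (Nb : ℝ) : √Nb * (NW S w m σ N c Y t - LSW S w m σ N c Y t Nb) ≤ RSW S w m σ N c Y t := by
  have e1 : NW S w m σ N c Y t = ∫ g, E1 S w m σ N t (fun u => qF S t (Y (c • g)) u * 1) (c • g)
      ∂(gI (Pair n)) := by
    unfold NW
    refine integral_congr_ae (Filter.Eventually.of_forall fun g => ?_)
    simp only [mul_one]
    rw [← E1_qF hm]
  have g1 := eg_form (S := S) (w := w) (t := t) (σ := σ) hm hY (EG.const 1) c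
  have g2 := eg_form (S := S) (w := w) (t := t) (σ := σ) hm hY (eg_bc S Nb t) c
  have g3 := eg_form (S := S) (w := w) (t := t) (σ := σ) hm hY (eg_rt S t) c
  rw [e1]
  unfold LSW RSW
  rw [← integral_sub g1.integrable g2.integrable, ← integral_const_mul]
  refine integral_mono ((g1.sub g2).const_mul _).integrable g3.integrable fun g => ?_
  simp only
  rw [← E1_sub hm ((eg_qF t _).mul (EG.const 1)) ((eg_qF t _).mul (eg_bc S Nb t)),
    ← E1_const_mul]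
  refine E1_mono hm ((((eg_qF t _).mul (EG.const 1)).sub ((eg_qF t _).mul
    (eg_bc S Nb t))).const_mul _) ((eg_qF t _).mul (eg_rt S t)) (fun u => ?_) (c • g)
  have hq := qF_nonneg (S := S) (t := t) (hp (c • g)) u
  unfold bd
  split_ifs with h
  · have : 0 ≤ qF S t (Y (c • g)) u * √(fr (S.A t u)) := mul_nonneg hq (Real.sqrt_nonneg _)
    simpa using this
  · have h3 := Real.sqrt_le_sqrt (not_le.1 h).le
    have h4 := mul_le_mul_of_nonneg_left h3 hq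
    linarith

end cs

/-- **The lower side.**  The share of `|C|² ≤ (1 - η) n² ρ²` under the weight `<Y, C²>` is
small. -/
theorem share_ev {β a0 a e d w c ch c5 c6 c7 α κ η : ℝ} (hβ : 0 < β) (hU : H695.UpM β a0)
    (haa : a0 < a) (hd : 0 ≤ d) (hw : 0 ≤ w) (hc : 2 * (d + w) + 2 * c < 5 * e) (h5 : 0 < c5)
    (h5c : c5 < c) (h5h : c5 < ch) (h6 : 0 < c6) (h7 : 0 < c7) (hη : 0 < η) (hη1 : η ≤ 1)
    (hκ : 0 < κ) (hα : 0 ≤ α) (h5g : c5 + d + w < 6 * e) (hg : κ + α + 2 * d + w < 6 * e)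
    (he : e ≤ 1 / 6) :
    ∀ᶠ n : ℕ in atTop, AntiN n β → ∀ x y s τ l : ℝ, LoH n β e a d w ch c5 c6 c7 x y s τ l →
      ∀ (hk : 0 < β / √n) (hx : 0 < x) (hx1 : x ≤ 1) (m σ : ℕ → ℝ) (b1 : ℝ)
      (Y : (Pair n → ℝ) → Matrix (Fin n) (Fin n) ℝ), m 0 = y → m 1 = 0 → σ 0 = √τ → 0 ≤ b1 →
      0 ≤ σ 1 → b1 ^ 2 + σ 1 ^ 2 = 1 - (s + τ) → (∀ i j, EG fun z => Y z i j) →
      (∀ z, Psd (Y z)) → (∀ z i j, |Y z i j| ≤ n) →
      1 ≤ NW (skCS n hk hx hx1) (1 - s) m σ 2 b1 Y (1 - l) →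
      EnW (skCS n hk hx hx1) (1 - s) m σ 2 b1 Y (1 - l) ≤
        (n : ℝ) ^ α / s * NW (skCS n hk hx hx1) (1 - s) m σ 2 b1 Y (1 - l) →
      EnTW (skCS n hk hx hx1) (1 - s) m σ 2 b1 Y (1 - l) ≤
        (n : ℝ) ^ α * (n * x) ^ 2 / s * NW (skCS n hk hx hx1) (1 - s) m σ 2 b1 Y (1 - l) →
      LSW (skCS n hk hx hx1) (1 - s) m σ 2 b1 Y (1 - l) ((1 - η) * N0n n β x s) ≤
          2 * (n : ℝ) ^ (-κ) * NW (skCS n hk hx hx1) (1 - s) m σ 2 b1 Y (1 - l) ∧
        √((1 - η) * N0n n β x s) * ((1 - 2 * (n : ℝ) ^ (-κ)) *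
          NW (skCS n hk hx hx1) (1 - s) m σ 2 b1 Y (1 - l)) ≤
            RSW (skCS n hk hx hx1) (1 - s) m σ 2 b1 Y (1 - l) := by
  filter_upwards [mass_ev hβ hU haa hd hw hc h5 h5c h5h h6 h7 hη hη1 hκ hα h5g hg he,
    eventually_ge_atTop 2] with n hn1 hn hA x y s τ l H hk hx hx1 m σ b1 Y hm0 hm1 hσ0
      hb1 hσ1 hbb hY hp hb hN hE hT
  have key := hn1 hA x y s τ l H hk hx hx1 m σ b1 Y hm0 hm1 hσ0 hb1 hσ1 hbb hY hp hb hN hE hT
  have hn2 : (2 : ℝ) ≤ n := by exact_mod_cast hn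
  have hn0 : (0 : ℝ) < n := by linarith
  have hnp : 0 < n := by omega
  have hy0 : 0 < y := by have := H.y_lo; linarith
  have hm : Pm m 2 := fun j hj => by
    have : j = 0 := by omega
    rw [this, hm0]; exact hy0
  have hs0 := H.s0 hnp
  have hP1 := H.P1 hnp
  have hP2 := H.P2 hnp
  have hΓ : 0 < Gn n β x s := by
    by_contra h
    have h1 : x ^ 2 * Gn n β x s ≤ 0 :=
      mul_nonpos_of_nonneg_of_nonpos (by positivity) (not_lt.1 h)
    have : 0 < (n : ℝ) ^ (6 * e - d - w) := Real.rpow_pos_of_pos hn0 _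
    linarith
  have hN00 : 0 < N0n n β x s := by unfold N0n; positivity
  have hlam : 0 ≤ lamn n κ η := by
    unfold lamn
    have : 0 ≤ Real.log n := Real.log_nonneg (by linarith)
    positivity
  have h1 := LSW_le_Qm (skCS n hk hx hx1) (w := 1 - s) (t := 1 - l) (c := b1) (σ := σ) (η := η)
    hm hY hp (Real.rpow_nonneg hn0.le (-2 : ℝ)) hlam hN00
  have h2 : LSW (skCS n hk hx hx1) (1 - s) m σ 2 b1 Y (1 - l) ((1 - η) * N0n n β x s) ≤
      2 * (n : ℝ) ^ (-κ) * NW (skCS n hk hx hx1) (1 - s) m σ 2 b1 Y (1 - l) := by linarith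
  refine ⟨h2, ?_⟩
  refine le_trans ?_ (root_ge (skCS n hk hx hx1) hm hY hp ((1 - η) * N0n n β x s))
  refine mul_le_mul_of_nonneg_left ?_ (Real.sqrt_nonneg _)
  linarith

end Vale.Agent.P146.H159
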