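import Vale.Agent.P146.H159.LowB
import Vale.Agent.P146.H391.Late
import Vale.Agent.P146.H499.PsdR
import Vale.Agent.P146.H522.TwoRow

/-!
The lower side in the letters of the rows.
-/

open MeasureTheory ProbabilityTheory Filter Topology

namespace Vale.Agent.P146.H159

open Vale.Agent.P157.Lv Vale.Agent.P146.H425 Vale.Agent.P146.H325 Vale.Agent.P146.H332
  Vale.Agent.P146.H712 Vale.Agent.P146.H816 Vale.Agent.P146.R1 Vale.Agent.P146.R1C Matrix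
  Vale.Agent.P146.R1S Vale.Agent.P146.H655 Vale.Agent.P146.H946.En2
open Vale.Agent.P146.H785 (Ax lf fd_Ax)
open Vale.Agent.P146.H693 (Aw eg_Aw Aw_add Aw_const_mul uu_tw Pm Tl)
open Vale.Agent.P146.H376 (V2 n_le_nA)
open Vale.Agent.P146.H95.R2 (Tw Yq nA)
open Vale.Agent.P146.H499.RepT (nRs qsf)
open Vale.Agent.P146.H522 (Reg rho rho_sq)
open Vale.Agent.P146.H432 (Dn Gn AntiN Dn_tan' Gn_nonneg Gn_mono Dn_mono Dn_nonneg ev_small ev_big)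

set_option linter.unusedSectionVars false

section cs

variable {n : ℕ} {k x : ℝ} (S : CS n k x) {w t c : ℝ} {m σ m' σ' : ℕ → ℝ}

/-- the mean `E_1` of two layers depends on the first two entries only -/
lemma E1_ext (h0 : m 0 = m' 0) (h1 : m 1 = m' 1) (s0 : σ 0 = σ' 0) (s1 : σ 1 = σ' 1)
    (φ : (Pair n → ℝ) → ℝ) (z : Pair n → ℝ) :
    E1 S w m σ 2 t φ z = E1 S w m' σ' 2 t φ z := by
  have e : ∀ m σ : ℕ → ℝ, E1 S w m σ 2 t φ z = Ax (m 1) (σ 1) (W (m 0) (σ 0) (uu x w S.F))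
    (Ax (m 0) (σ 0) (uu x w S.F) (Aw S w t φ)) z := fun m σ => rfl
  rw [e, e, h0, h1, s0, s1]

lemma Q1_ext (h0 : m 0 = m' 0) (h1 : m 1 = m' 1) (s0 : σ 0 = σ' 0) (s1 : σ 1 = σ' 1)
    (z : Pair n → ℝ) : Q1 S w m σ 2 t z = Q1 S w m' σ' 2 t z := by
  funext i j
  exact E1_ext S h0 h1 s0 s1 _ z

lemma NQ_ext (h0 : m 0 = m' 0) (h1 : m 1 = m' 1) (s0 : σ 0 = σ' 0) (s1 : σ 1 = σ' 1) :
    NQ S w m σ 2 c t = NQ S w m' σ' 2 c t := by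
  unfold NQ
  simp only [Q1_ext S h0 h1 s0 s1]

lemma EnQ_ext (h0 : m 0 = m' 0) (h1 : m 1 = m' 1) (s0 : σ 0 = σ' 0) (s1 : σ 1 = σ' 1) :
    EnQ S w m σ 2 c t = EnQ S w m' σ' 2 c t := by
  unfold EnQ
  simp only [Q1_ext S h0 h1 s0 s1, E1_ext S h0 h1 s0 s1]

lemma EnTQ_ext (h0 : m 0 = m' 0) (h1 : m 1 = m' 1) (s0 : σ 0 = σ' 0) (s1 : σ 1 = σ' 1) :
    EnTQ S w m σ 2 c t = EnTQ S w m' σ' 2 c t := by
  unfold EnTQ
  simp only [Q1_ext S h0 h1 s0 s1, E1_ext S h0 h1 s0 s1]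

lemma NW_Q1 {N : ℕ} : NW S w m σ N c (Q1 S w m σ N t) t = NQ S w m σ N c t := by
  unfold NW NQ
  refine integral_congr_ae (Filter.Eventually.of_forall fun g => ?_)
  simp only
  unfold fr
  exact Finset.sum_congr rfl fun i _ => Finset.sum_congr rfl fun j _ => by ring

/-- the letters of the rows -/
lemma nA_NQ {y t0 ta tw t2 : ℝ} (h1 : tw ≤ t2) (h2 : t2 ≤ 1) :
    nA S ⟨x, y, t0, ta, tw, t2⟩ = NQ S tw (fun j => (Tw.m ⟨x, y, t0, ta, tw, t2⟩) (1 + j))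
      (fun j => (Tw.σ ⟨x, y, t0, ta, tw, t2⟩) (1 + j)) 2 (√t0) t2 :=
  NQ_eq (S := S) (w := tw) (t := t2) (m := Tw.m ⟨x, y, t0, ta, tw, t2⟩)
    (σ := Tw.σ ⟨x, y, t0, ta, tw, t2⟩) h1 h2 rfl rfl 2 (√t0)

lemma nRs_RSW {y t0 ta tw t2 : ℝ} (h1 : tw ≤ t2) (h2 : t2 ≤ 1) :
    nRs S ⟨x, y, t0, ta, tw, t2⟩ = RSW S tw (fun j => (Tw.m ⟨x, y, t0, ta, tw, t2⟩) (1 + j))
      (fun j => (Tw.σ ⟨x, y, t0, ta, tw, t2⟩) (1 + j)) 2 (√t0)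
      (Q1 S tw (fun j => (Tw.m ⟨x, y, t0, ta, tw, t2⟩) (1 + j))
        (fun j => (Tw.σ ⟨x, y, t0, ta, tw, t2⟩) (1 + j)) 2 t2) t2 := by
  unfold H499.RepT.nRs RSW
  refine integral_congr_ae (Filter.Eventually.of_forall fun g => ?_)
  have e1 : Yq S ⟨x, y, t0, ta, tw, t2⟩ g = Q1 S tw
      (fun j => (Tw.m ⟨x, y, t0, ta, tw, t2⟩) (1 + j))
        (fun j => (Tw.σ ⟨x, y, t0, ta, tw, t2⟩) (1 + j)) 2 t2 (√t0 • g) :=
    QR_eq_Q1 (S := S) (w := tw) (t := t2) (m := Tw.m ⟨x, y, t0, ta, tw, t2⟩)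
      (σ := Tw.σ ⟨x, y, t0, ta, tw, t2⟩) h1 h2 rfl rfl 2 _
  simp only
  rw [e1]
  exact Tl_eq_E1 (S := S) (w := tw) (t := t2) (m := Tw.m ⟨x, y, t0, ta, tw, t2⟩)
    (σ := Tw.σ ⟨x, y, t0, ta, tw, t2⟩) h1 h2 rfl rfl _ 2 _

end cs

lemma N0n_eq {n : ℕ} {β x s : ℝ} (hn : 0 < n) (hβ : 0 < β) (hx : 0 < x) (hs : 0 < s) :
    N0n n β x s = (n * rho n β x s) ^ 2 := by
  have hn' : (0 : ℝ) < n := Nat.cast_pos.2 hn
  rw [mul_pow, rho_sq hn hβ hx hs]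
  unfold N0n
  field_simp

/-- **The lower side in the letters of the rows.**  `E <Y, C²> |C| ≥ (1 - η) n ρ E <Y, C²>`. -/
theorem lor_ev {β a0 a e d w c ch c5 c6 c7 α κ η : ℝ} (hβ : 0 < β) (hU : H695.UpM β a0)
    (haa : a0 < a) (hd : 0 ≤ d) (hw : 0 ≤ w) (hc : 2 * (d + w) + 2 * c < 5 * e) (h5 : 0 < c5)
    (h5c : c5 < c) (h5h : c5 < ch) (h6 : 0 < c6) (h7 : 0 < c7) (hη : 0 < η) (hη1 : η ≤ 1)
    (hκ : 0 < κ) (hα : 0 ≤ α) (h5g : c5 + d + w < 6 * e) (hg : κ + α + 2 * d + w < 6 * e)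
    (he : e ≤ 1 / 6) :
    ∀ᶠ n : ℕ in atTop, AntiN n β → ∀ x y s τ l t0 : ℝ,
      LoH n β e a d w ch c5 c6 c7 x y s τ l → 0 ≤ t0 → t0 ≤ 1 - s - τ →
      ∀ (hk : 0 < β / √n) (hx : 0 < x) (hx1 : x ≤ 1) (m σ : ℕ → ℝ), m 0 = y → m 1 = 0 →
      σ 0 = √τ → σ 1 = √(1 - s - τ - t0) →
      EnQ (skCS n hk hx hx1) (1 - s) m σ 2 (√t0) (1 - l) ≤
        (n : ℝ) ^ α / s * NQ (skCS n hk hx hx1) (1 - s) m σ 2 (√t0) (1 - l) →
      EnTQ (skCS n hk hx hx1) (1 - s) m σ 2 (√t0) (1 - l) ≤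
        (n : ℝ) ^ α * (n * x) ^ 2 / s * NQ (skCS n hk hx hx1) (1 - s) m σ 2 (√t0) (1 - l) →
      LSW (skCS n hk hx hx1) (1 - s) m σ 2 (√t0)
          (Q1 (skCS n hk hx hx1) (1 - s) m σ 2 (1 - l)) (1 - l)
          ((1 - η) * (n * rho n β x s) ^ 2) ≤
        2 * (n : ℝ) ^ (-κ) * nA (skCS n hk hx hx1) ⟨x, y, t0, 1 - s - τ, 1 - s, 1 - l⟩ ∧
      (1 - η) * (n * rho n β x s) *
          nA (skCS n hk hx hx1) ⟨x, y, t0, 1 - s - τ, 1 - s, 1 - l⟩ ≤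
        nRs (skCS n hk hx hx1) ⟨x, y, t0, 1 - s - τ, 1 - s, 1 - l⟩ := by
  filter_upwards [share_ev (η := η) hβ hU haa hd hw hc h5 h5c h5h h6 h7 hη hη1 hκ hα h5g hg he,
    share_ev (η := η / 2) hβ hU haa hd hw hc h5 h5c h5h h6 h7 (by positivity) (by linarith) hκ hα
      h5g hg he, ev_small (a := κ) (δ := η / 4) hκ (by positivity), eventually_ge_atTop 2]
    with n hn1 hn2' eκ hn hA x y s τ l t0 H h0 ht0 hk hx hx1 m σ hm0 hm1 hσ0 hσ1 hE hT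
  have hn2 : (2 : ℝ) ≤ n := by exact_mod_cast hn
  have hn0 : (0 : ℝ) < n := by linarith
  have hnp : 0 < n := by omega
  have hy0 : 0 < y := by have := H.y_lo; linarith
  have hm : Pm m 2 := fun j hj => by
    have : j = 0 := by omega
    rw [this, hm0]; exact hy0
  have hs0 := H.s0 hnp
  have h1l : (1 - s : ℝ) ≤ 1 - l := by have := H.l_up; linarith
  have hl1 : (1 - l : ℝ) ≤ 1 := by have := H.l0; linarith
  have eNQ : nA (skCS n hk hx hx1) ⟨x, y, t0, 1 - s - τ, 1 - s, 1 - l⟩ =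
      NQ (skCS n hk hx hx1) (1 - s) m σ 2 (√t0) (1 - l) := by
    rw [nA_NQ _ h1l hl1]
    refine NQ_ext _ hm0.symm hm1.symm ?_ hσ1.symm
    rw [hσ0]
    show √(1 - s - (1 - s - τ)) = √τ
    congr 1; ring
  have eNW : NW (skCS n hk hx hx1) (1 - s) m σ 2 (√t0)
      (Q1 (skCS n hk hx hx1) (1 - s) m σ 2 (1 - l)) (1 - l) =
      nA (skCS n hk hx hx1) ⟨x, y, t0, 1 - s - τ, 1 - s, 1 - l⟩ := by
    rw [NW_Q1, eNQ]
  have hN : (1 : ℝ) ≤ nA (skCS n hk hx hx1) ⟨x, y, t0, 1 - s - τ, 1 - s, 1 - l⟩ := by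
    have := n_le_nA (skCS n hk hx hx1) (t0 := t0) (ta := 1 - s - τ) (tw := 1 - s) (t2 := 1 - l)
      hy0
    linarith
  have hbb : √t0 ^ 2 + σ 1 ^ 2 = 1 - (s + τ) := by
    rw [hσ1, Real.sq_sqrt h0, Real.sq_sqrt (by linarith)]; ring
  have hYb : ∀ z i j, |Q1 (skCS n hk hx hx1) (1 - s) m σ 2 (1 - l) z i j| ≤ n := fun z i j =>
    abs_Q1 hm z i j
  have hE' : EnW (skCS n hk hx hx1) (1 - s) m σ 2 (√t0)
      (Q1 (skCS n hk hx hx1) (1 - s) m σ 2 (1 - l)) (1 - l) ≤ (n : ℝ) ^ α / s *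
      NW (skCS n hk hx hx1) (1 - s) m σ 2 (√t0)
      (Q1 (skCS n hk hx hx1) (1 - s) m σ 2 (1 - l)) (1 - l) := by
    rw [eNW, eNQ]; exact hE
  have hT' : EnTW (skCS n hk hx hx1) (1 - s) m σ 2 (√t0)
      (Q1 (skCS n hk hx hx1) (1 - s) m σ 2 (1 - l)) (1 - l) ≤ (n : ℝ) ^ α * (n * x) ^ 2 / s *
      NW (skCS n hk hx hx1) (1 - s) m σ 2 (√t0)
      (Q1 (skCS n hk hx hx1) (1 - s) m σ 2 (1 - l)) (1 - l) := by
    rw [eNW, eNQ]; exact hT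
  have k1 := hn1 hA x y s τ l H hk hx hx1 m σ (√t0)
    (Q1 (skCS n hk hx hx1) (1 - s) m σ 2 (1 - l)) hm0 hm1 hσ0 (Real.sqrt_nonneg _)
    (by rw [hσ1]; exact Real.sqrt_nonneg _) hbb (fun i j => eg_Q1 hm i j)
    (fun z => Q1_psd hm z) hYb (by rw [eNW]; exact hN) hE' hT'
  have k2 := hn2' hA x y s τ l H hk hx hx1 m σ (√t0)
    (Q1 (skCS n hk hx hx1) (1 - s) m σ 2 (1 - l)) hm0 hm1 hσ0 (Real.sqrt_nonneg _)
    (by rw [hσ1]; exact Real.sqrt_nonneg _) hbb (fun i j => eg_Q1 hm i j)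
    (fun z => Q1_psd hm z) hYb (by rw [eNW]; exact hN) hE' hT'
  rw [eNW, N0n_eq hnp hβ hx hs0] at k1 k2
  refine ⟨k1.1, ?_⟩
  have eRS : nRs (skCS n hk hx hx1) ⟨x, y, t0, 1 - s - τ, 1 - s, 1 - l⟩ =
      RSW (skCS n hk hx hx1) (1 - s) m σ 2 (√t0)
        (Q1 (skCS n hk hx hx1) (1 - s) m σ 2 (1 - l)) (1 - l) := by
    rw [nRs_RSW _ h1l hl1]
    have s0 : (fun j => (Tw.σ ⟨x, y, t0, 1 - s - τ, 1 - s, 1 - l⟩) (1 + j)) 0 = σ 0 := by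
      rw [hσ0]
      show √(1 - s - (1 - s - τ)) = √τ
      congr 1; ring
    have s1 : (fun j => (Tw.σ ⟨x, y, t0, 1 - s - τ, 1 - s, 1 - l⟩) (1 + j)) 1 = σ 1 := hσ1.symm
    unfold RSW
    have e3 : ∀ z, Q1 (skCS n hk hx hx1) (1 - s)
        (fun j => (Tw.m ⟨x, y, t0, 1 - s - τ, 1 - s, 1 - l⟩) (1 + j))
        (fun j => (Tw.σ ⟨x, y, t0, 1 - s - τ, 1 - s, 1 - l⟩) (1 + j)) 2 (1 - l) z =
        Q1 (skCS n hk hx hx1) (1 - s) m σ 2 (1 - l) z := fun z =>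
      Q1_ext _ hm0.symm hm1.symm s0 s1 z
    simp only [e3]
    refine integral_congr_ae (Filter.Eventually.of_forall fun g => ?_)
    exact E1_ext _ hm0.symm hm1.symm s0 s1 _ _
  rw [eRS]
  refine le_trans ?_ k2.2
  have hρ : 0 ≤ n * rho n β x s := mul_nonneg hn0.le (Real.sqrt_nonneg _)
  have h3 : (1 - η / 2) * (n * rho n β x s) ≤ √((1 - η / 2) * (n * rho n β x s) ^ 2) := by
    refine Real.le_sqrt_of_sq_le ?_
    rw [mul_pow]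
    refine mul_le_mul_of_nonneg_right ?_ (sq_nonneg _)
    have h4 : (0 : ℝ) ≤ 1 - η / 2 := by linarith
    calc (1 - η / 2) ^ 2 = (1 - η / 2) * (1 - η / 2) := by ring
      _ ≤ 1 * (1 - η / 2) := mul_le_mul_of_nonneg_right (by linarith) h4
      _ = _ := one_mul _
  have h5' : (0 : ℝ) ≤ 1 - 2 * (n : ℝ) ^ (-κ) := by linarith
  have hA0 : 0 ≤ nA (skCS n hk hx hx1) ⟨x, y, t0, 1 - s - τ, 1 - s, 1 - l⟩ := by linarith
  calc (1 - η) * (n * rho n β x s) *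
        nA (skCS n hk hx hx1) ⟨x, y, t0, 1 - s - τ, 1 - s, 1 - l⟩ ≤
      ((1 - η / 2) * (1 - 2 * (n : ℝ) ^ (-κ))) * (n * rho n β x s) *
        nA (skCS n hk hx hx1) ⟨x, y, t0, 1 - s - τ, 1 - s, 1 - l⟩ := by
        refine mul_le_mul_of_nonneg_right (mul_le_mul_of_nonneg_right ?_ hρ) hA0
        have h6 : (1 - η / 2) * (1 - η / 2) ≤ (1 - η / 2) * (1 - 2 * (n : ℝ) ^ (-κ)) :=
          mul_le_mul_of_nonneg_left (by linarith) (by linarith)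
        have h7' : (1 - η / 2) * (1 - η / 2) = 1 - η + (η / 2) ^ 2 := by ring
        have := sq_nonneg (η / 2)
        linarith
    _ = ((1 - η / 2) * (n * rho n β x s)) * ((1 - 2 * (n : ℝ) ^ (-κ)) *
        nA (skCS n hk hx hx1) ⟨x, y, t0, 1 - s - τ, 1 - s, 1 - l⟩) := by ring
    _ ≤ _ := mul_le_mul_of_nonneg_right h3 (mul_nonneg h5' hA0)

end Vale.Agent.P146.H159
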