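import Vale.Agent.P146.H159.LowC

/-!
The lower side at a regular point.
-/

open MeasureTheory ProbabilityTheory Filter Topology

namespace Vale.Agent.P146.H159

open Vale.Agent.P157.Lv Vale.Agent.P146.H425 Vale.Agent.P146.H325 Vale.Agent.P146.H332
  Vale.Agent.P146.H712 Vale.Agent.P146.H816 Vale.Agent.P146.R1 Vale.Agent.P146.R1C Matrix
  Vale.Agent.P146.R1S Vale.Agent.P146.H655 Vale.Agent.P146.H946.En2
open Vale.Agent.P146.H95.R2 (Tw Yq nA)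
open Vale.Agent.P146.H499.RepT (nRs)
open Vale.Agent.P146.H522 (Reg rho)
open Vale.Agent.P146.H432 (Dn Gn AntiN Dn_tan' Gn_nonneg Gn_mono Dn_mono Dn_nonneg ev_small ev_big)

set_option linter.unusedSectionVars false

/-- everything but the late number -/
lemma loH_core {n : ℕ} {β e σ d w θ ch c7 x y s τ l : ℝ} (hn : 2 ≤ n) (hσ : 0 < σ)
    (hw : 0 ≤ w) (h20 : (n : ℝ) ^ (-(72 * σ)) < 1 / 20) (H : Reg n β e σ d w θ x s) (hθ : θ ≤ 1)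
    (hτ0 : 0 ≤ τ) (hτ : τ ≤ (n : ℝ) ^ (-ch) * s) (hsτ : s + τ < 1) (hy0 : x / 8 ≤ y)
    (hy1 : y ≤ 19 / 20 * x) (hl0 : 0 < l) (hl : l ≤ s)
    (late : ∃ ε : ℝ, 0 < ε ∧ ε ≤ 1 / 2 ∧ 4 * ε * Dn n β (2 * x) (s + τ) +
      ε * Dn n β ((x - (1 - (n : ℝ) ^ (-(72 * σ))) * x) / ε) l ≤
        (n : ℝ) ^ (-c7) * ((x - (1 - (n : ℝ) ^ (-(72 * σ))) * x) * Gn n β x s)) :
    LoH n β e (136 * σ) (d + σ) (w + σ) ch (72 * σ) (10 * σ) c7 x y s τ l := by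
  have hnp : 0 < n := by omega
  have hx0 := H.x0 hnp
  have hs0 := H.s0 hnp
  have hs1 := H.s1 hnp hσ.le hw
  have hG := Gn_nonneg n β hx0 hs0.le
  refine ⟨H.x_lo, H.x_up, H.le1 hnp hσ.le, H.s_lo, hτ0, hτ, hsτ, hy0, ?_, hl0, hl, H.low, ?_,
    ?_, late⟩
  · refine hy1.trans (mul_le_mul_of_nonneg_right (by linarith) hx0.le)
  · refine H.val.trans ?_
    exact mul_le_of_le_one_left (mul_nonneg hx0.le hG) hθ
  · refine le_trans ?_ H.reg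
    refine Gn_mono n β hx0 ?_ hs0.le hs1
    have : 0 ≤ (n : ℝ) ^ (-(72 * σ)) := Real.rpow_nonneg (Nat.cast_nonneg n) _
    nlinarith

/-- **The situation of the lower side from a regular point and the upper bound at one large
exponent.** -/
theorem loH_ub {β a0 e σ d w ch c7 c1 c3 α : ℝ} (hU : H695.UpM β a0) (haa : a0 < 136 * σ)
    (he : 0 ≤ e) (hσ : 0 < σ) (hd : 0 ≤ d) (hw : 0 ≤ w) (hc7 : 0 ≤ c7) (hc3 : 0 ≤ c3)
    (h1 : d + w + 2 * σ + c7 < c1) (h2 : α + d + σ + 2 * c1 + c7 < c3) :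
    ∀ᶠ n : ℕ in atTop, ∀ θ x y s τ l : ℝ, Reg n β e σ d w θ x s → θ ≤ 1 → 0 ≤ τ →
      τ ≤ (n : ℝ) ^ (-ch) * s → s + τ < 1 → x / 8 ≤ y → y ≤ 19 / 20 * x → 0 < l →
      l ≤ (n : ℝ) ^ (-c3) * s →
      Dn n β ((n : ℝ) ^ c1 * x) l ≤ (n : ℝ) ^ (1 + α) * l * ((n : ℝ) ^ c1 * x) ^ 3 →
      LoH n β e (136 * σ) (d + σ) (w + σ) ch (72 * σ) (10 * σ) c7 x y s τ l := by
  filter_upwards [H391.late3 (β := β) (d := d + σ) (w := w + σ) (α := α) (c1 := c1) (c3 := c3)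
      (c := c7) hU haa he (by linarith) (by linarith) hc7 (by linarith) (by linarith),
    ev_small (a := 72 * σ) (δ := 1 / 20) (by linarith) (by norm_num), eventually_ge_atTop 2]
    with n h3 h20 hn θ x y s τ l H hθ hτ0 hτ hsτ hy0 hy1 hl0 hl hub
  have hn2 : (2 : ℝ) ≤ n := by exact_mod_cast hn
  have hnp : 0 < n := by omega
  have hx0 := H.x0 hnp
  have hs0 := H.s0 hnp
  have hr0 : 0 < (n : ℝ) ^ (-(72 * σ)) := Real.rpow_pos_of_pos (by linarith) _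
  have hls : l ≤ s := by
    refine hl.trans (mul_le_of_le_one_left hs0.le ?_)
    exact Real.rpow_le_one_of_one_le_of_nonpos (by linarith) (by linarith)
  have hG := Gn_nonneg n β hx0 hs0.le
  have hval : Dn n β x s ≤ x * Gn n β x s :=
    H.val.trans (mul_le_of_le_one_left (mul_nonneg hx0.le hG) hθ)
  have key := h3 x ((1 - (n : ℝ) ^ (-(72 * σ))) * x) s τ l
    ((x - (1 - (n : ℝ) ^ (-(72 * σ))) * x) / ((n : ℝ) ^ c1 * x)) H.x_lo H.x_up H.s_lo hτ0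
    hsτ.le (mul_pos (by linarith) hx0) (mul_lt_of_lt_one_left hx0 (by linarith)) hl H.low hval
    hub rfl
  exact loH_core hn hσ hw h20 H hθ hτ0 hτ hsτ hy0 hy1 hl0 hls ⟨_, key.1, key.2.1, key.2.2.2⟩

/-- **The same, without any upper bound, for a very late time.** -/
theorem loH_triv {β a0 e σ d w ch c7 c3 : ℝ} (hU : H695.UpM β a0) (haa : a0 < 136 * σ)
    (he : 0 ≤ e) (hσ : 0 < σ) (hd : 0 ≤ d) (hw : 0 ≤ w) (hc7 : 0 ≤ c7)
    (h2 : d + σ + c7 < c3) :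
    ∀ᶠ n : ℕ in atTop, ∀ θ x y s τ l : ℝ, Reg n β e σ d w θ x s → θ ≤ 1 → 0 ≤ τ →
      τ ≤ (n : ℝ) ^ (-ch) * s → s + τ < 1 → x / 8 ≤ y → y ≤ 19 / 20 * x → 0 < l →
      l ≤ (n : ℝ) ^ (-c3) * x ^ 2 * s →
      LoH n β e (136 * σ) (d + σ) (w + σ) ch (72 * σ) (10 * σ) c7 x y s τ l := by
  filter_upwards [H391.late3_triv (β := β) (d := d + σ) (w := w + σ)
      (c1 := d + w + 2 * σ + c7 + 1) (c3 := c3)
      (c := c7) hU haa he (by linarith) (by linarith) hc7 (by linarith) (by linarith),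
    ev_small (a := 72 * σ) (δ := 1 / 20) (by linarith) (by norm_num), eventually_ge_atTop 2]
    with n h3 h20 hn θ x y s τ l H hθ hτ0 hτ hsτ hy0 hy1 hl0 hl
  have hn2 : (2 : ℝ) ≤ n := by exact_mod_cast hn
  have hnp : 0 < n := by omega
  have hx0 := H.x0 hnp
  have hs0 := H.s0 hnp
  have hx1 := H.le1 hnp hσ.le
  have hr0 : 0 < (n : ℝ) ^ (-(72 * σ)) := Real.rpow_pos_of_pos (by linarith) _
  have hls : l ≤ s := by
    refine hl.trans (mul_le_of_le_one_left hs0.le ?_)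
    have a1 : (n : ℝ) ^ (-c3) ≤ 1 := Real.rpow_le_one_of_one_le_of_nonpos (by linarith)
      (by linarith)
    have a2 : x ^ 2 ≤ 1 := pow_le_one₀ hx0.le hx1
    calc (n : ℝ) ^ (-c3) * x ^ 2 ≤ 1 * 1 := mul_le_mul a1 a2 (by positivity) (by norm_num)
      _ = 1 := by norm_num
  have hG := Gn_nonneg n β hx0 hs0.le
  have hval : Dn n β x s ≤ x * Gn n β x s :=
    H.val.trans (mul_le_of_le_one_left (mul_nonneg hx0.le hG) hθ)
  have key := h3 x ((1 - (n : ℝ) ^ (-(72 * σ))) * x) s τ l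
    ((x - (1 - (n : ℝ) ^ (-(72 * σ))) * x) / ((n : ℝ) ^ (d + w + 2 * σ + c7 + 1) * x))
    H.x_lo H.x_up H.s_lo hτ0 hsτ.le (mul_pos (by linarith) hx0)
    (mul_lt_of_lt_one_left hx0 (by linarith)) hl0.le (by linarith) hl H.low hval rfl
  exact loH_core hn hσ hw h20 H hθ hτ0 hτ hsτ hy0 hy1 hl0 hls ⟨_, key.1, key.2.1, key.2.2.2⟩

/-- **The row `lor` at a regular point.**  `α`: loss of the two rates; `κ`: precision of the
share. -/
theorem lor_reg {β a0 e σ d w ch c7 α κ η : ℝ} (hβ : 0 < β) (hU : H695.UpM β a0)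
    (haa : a0 < 136 * σ) (hσ : 0 < σ) (hd : 0 ≤ d) (hw : 0 ≤ w) (hch : 72 * σ < ch)
    (hc7 : 0 < c7) (hc : 2 * (d + w + 2 * σ) + 146 * σ < 5 * e)
    (hη : 0 < η) (hη1 : η ≤ 1) (hκ : 0 < κ) (hα : 0 ≤ α)
    (_h5g : d + w + 74 * σ < 6 * e) (hg : κ + α + 2 * d + w + 3 * σ < 6 * e) (he : e ≤ 1 / 6) :
    ∀ᶠ n : ℕ in atTop, AntiN n β → ∀ x y s τ l t0 : ℝ,
      LoH n β e (136 * σ) (d + σ) (w + σ) ch (72 * σ) (10 * σ) c7 x y s τ l →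
      0 ≤ t0 → t0 ≤ 1 - s - τ →
      ∀ (hk : 0 < β / √n) (hx : 0 < x) (hx1 : x ≤ 1) (m σ' : ℕ → ℝ), m 0 = y → m 1 = 0 →
      σ' 0 = √τ → σ' 1 = √(1 - s - τ - t0) →
      EnQ (skCS n hk hx hx1) (1 - s) m σ' 2 (√t0) (1 - l) ≤
        (n : ℝ) ^ α / s * NQ (skCS n hk hx hx1) (1 - s) m σ' 2 (√t0) (1 - l) →
      EnTQ (skCS n hk hx hx1) (1 - s) m σ' 2 (√t0) (1 - l) ≤
        (n : ℝ) ^ α * (n * x) ^ 2 / s * NQ (skCS n hk hx hx1) (1 - s) m σ' 2 (√t0) (1 - l) →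
      LSW (skCS n hk hx hx1) (1 - s) m σ' 2 (√t0)
          (Q1 (skCS n hk hx hx1) (1 - s) m σ' 2 (1 - l)) (1 - l)
          ((1 - η) * (n * rho n β x s) ^ 2) ≤
        2 * (n : ℝ) ^ (-κ) * nA (skCS n hk hx hx1) ⟨x, y, t0, 1 - s - τ, 1 - s, 1 - l⟩ ∧
      (1 - η) * (n * rho n β x s) *
          nA (skCS n hk hx hx1) ⟨x, y, t0, 1 - s - τ, 1 - s, 1 - l⟩ ≤
        nRs (skCS n hk hx hx1) ⟨x, y, t0, 1 - s - τ, 1 - s, 1 - l⟩ :=
  lor_ev (c := 73 * σ) hβ hU haa (by linarith) (by linarith) (by linarith) (by linarith)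
    (by linarith) (by linarith) (by linarith) hc7 hη hη1 hκ hα (by linarith) (by linarith) he

end Vale.Agent.P146.H159
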